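import Vale.Agent.P150.HT.Poincare

/-! Entropy inequalities for positive weights on the cube. -/

namespace Vale.Agent.P150.HT

open Real Finset

/-- entropy, unnormalised -/
noncomputable def ent {α : Type*} [Fintype α] (W f : α → ℝ) : ℝ :=
  ∑ x, W x * f x * log (f x) - (∑ x, W x * f x) * log ((∑ x, W x * f x) / ∑ x, W x)

/-- linear deviation -/
noncomputable def dev {α : Type*} [Fintype α] (W f g : α → ℝ) : ℝ :=
  ∑ x, W x * f x * g x - (∑ x, W x * f x) * (∑ x, W x * g x) / ∑ x, W x

/-- half-harmonic mean -/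
noncomputable def hm (a b : ℝ) : ℝ := a * b / (a + b)

/-- Dirichlet form of heat-bath dynamics, unnormalised -/
noncomputable def eForm {N : ℕ} (W f g : Conf N → ℝ) : ℝ :=
  (1 / 2) * ∑ i, ∑ x, hm (W x) (W (flip1 x i)) * ((f (flip1 x i) - f x) * (g (flip1 x i) - g x))

/-- entropy inequality with constant `A` -/
def EI {N : ℕ} (W : Conf N → ℝ) (A : ℝ) : Prop :=
  ∀ f : Conf N → ℝ, (∀ x, 0 < f x) → ent W f ≤ A * eForm W f (fun x => log (f x))

lemma log_sum_ineq {a m : ℝ} (ha : 0 < a) (hm : 0 < m) : a - m ≤ a * log (a / m) := by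
  have := log_le_sub_one_of_pos (div_pos hm ha)
  have e : log (m / a) = -log (a / m) := by rw [← log_inv, inv_div]
  rw [e] at this
  have h := mul_le_mul_of_nonneg_left this ha.le
  rw [mul_sub, mul_div_cancel₀ _ ha.ne'] at h
  linarith

lemma dev_linear {α : Type*} [Fintype α] (W f g h : α → ℝ) (c : ℝ) :
    dev W f (fun x => g x + c * h x) = dev W f g + c * dev W f h := by
  simp only [dev, mul_add, Finset.sum_add_distrib, mul_left_comm _ c, ← Finset.mul_sum]
  rw [add_div, mul_div_assoc c]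
  ring

lemma dev_sum {α ι : Type*} [Fintype α] [Fintype ι] (W f : α → ℝ) (u : ι → ℝ) (g : ι → α → ℝ) :
    dev W f (fun x => ∑ i, u i * g i x) = ∑ i, u i * dev W f (g i) := by
  simp only [dev, Finset.mul_sum, mul_sub, Finset.sum_sub_distrib, Finset.sum_div]
  congr 1
  · rw [Finset.sum_comm]
    exact Finset.sum_congr rfl fun i _ => Finset.sum_congr rfl fun x _ => by ring
  · rw [Finset.sum_comm]
    exact Finset.sum_congr rfl fun i _ => Finset.sum_congr rfl fun x _ => by ring

section
variable {α : Type*} [Fintype α] [Nonempty α] {W f : α → ℝ}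

lemma sum_pos' (hW : ∀ x, 0 < W x) : 0 < ∑ x, W x :=
  Finset.sum_pos (fun x _ => hW x) univ_nonempty

lemma ent_nonneg (hW : ∀ x, 0 < W x) (hf : ∀ x, 0 < f x) : 0 ≤ ent W f := by
  have hS : 0 < ∑ x, W x * f x := sum_pos' fun x => mul_pos (hW x) (hf x)
  have hP := sum_pos' hW
  set m := (∑ x, W x * f x) / ∑ x, W x
  have hm : 0 < m := div_pos hS hP
  have h : ∀ x, W x * (f x - m) ≤ W x * f x * log (f x) - W x * f x * log m := by
    intro x
    have h1 := mul_le_mul_of_nonneg_left (log_sum_ineq (hf x) hm) (hW x).le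
    rw [log_div (hf x).ne' hm.ne'] at h1
    linarith
  have hs := Finset.sum_le_sum fun x (_ : x ∈ univ) => h x
  simp only [mul_sub, Finset.sum_sub_distrib, ← Finset.sum_mul] at hs
  rw [mul_div_cancel₀ _ hP.ne', sub_self] at hs
  exact hs

lemma variational (hW : ∀ x, 0 < W x) (hf : ∀ x, 0 < f x) (R : α → ℝ) (θ : ℝ) :
    θ * ∑ x, W x * f x * R x
      ≤ ent W f + (∑ x, W x * f x) * log ((∑ x, W x * exp (θ * R x)) / ∑ x, W x) := by
  set S := ∑ x, W x * f x
  set Q := ∑ x, W x * exp (θ * R x)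
  set P := ∑ x, W x
  have hS : 0 < S := sum_pos' fun x => mul_pos (hW x) (hf x)
  have hQ : 0 < Q := sum_pos' fun x => mul_pos (hW x) (exp_pos _)
  have hP : 0 < P := sum_pos' hW
  have h : ∀ x, W x * (f x - exp (θ * R x) * S / Q)
      ≤ W x * f x * log (f x) - W x * f x * (θ * R x) - W x * f x * log (S / Q) := by
    intro x
    have h1 := mul_le_mul_of_nonneg_left
      (log_sum_ineq (hf x) (div_pos (mul_pos (exp_pos (θ * R x)) hS) hQ)) (hW x).le
    rw [log_div (hf x).ne' (by positivity), mul_div_assoc, log_mul (exp_pos _).ne' (by positivity),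
      log_exp] at h1
    rw [mul_div_assoc]
    linarith
  have hs := Finset.sum_le_sum fun x (_ : x ∈ univ) => h x
  simp only [mul_sub, Finset.sum_sub_distrib, ← Finset.sum_mul] at hs
  have e : ∑ x, W x * (exp (θ * R x) * S / Q) = S := by
    calc _ = (∑ x, W x * exp (θ * R x)) * (S / Q) := by
          rw [Finset.sum_mul]; exact Finset.sum_congr rfl fun x _ => by ring
      _ = S := mul_div_cancel₀ _ hQ.ne'
  have e2 : ∑ x, W x * f x * (θ * R x) = θ * ∑ x, W x * f x * R x := by
    rw [Finset.mul_sum]; exact Finset.sum_congr rfl fun x _ => by ring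
  rw [e, e2, log_div hS.ne' hQ.ne', sub_self] at hs
  unfold ent
  rw [log_div hS.ne' hP.ne', log_div hQ.ne' hP.ne']
  linarith

lemma mgf_bound (hW : ∀ x, 0 < W x) (R : α → ℝ) {σ : ℝ}
    (hvar : ∀ θ : ℝ, (∑ x, W x * exp (θ * R x)) * (∑ x, W x * exp (θ * R x) * R x ^ 2)
      - (∑ x, W x * exp (θ * R x) * R x) ^ 2 ≤ σ * (∑ x, W x * exp (θ * R x)) ^ 2) (θ : ℝ) :
    log ((∑ x, W x * exp (θ * R x)) / ∑ x, W x)
      ≤ θ * ((∑ x, W x * R x) / ∑ x, W x) + σ * θ ^ 2 / 2 := by
  set Z := fun t : ℝ => ∑ x, W x * exp (t * R x) with hZd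
  set Z1 := fun t : ℝ => ∑ x, W x * exp (t * R x) * R x with hZ1d
  set m := (∑ x, W x * R x) / ∑ x, W x
  have hZ : ∀ t, 0 < Z t := fun t => sum_pos' fun x => mul_pos (hW x) (exp_pos _)
  have d0 : ∀ t, HasDerivAt Z (Z1 t) t := by
    intro t
    simp only [hZd, hZ1d]
    refine HasDerivAt.fun_sum fun x _ => ?_
    simpa [mul_assoc] using (((hasDerivAt_id t).mul_const (R x)).exp).const_mul (W x)
  have d1 : ∀ t, HasDerivAt Z1 (∑ x, W x * exp (t * R x) * R x ^ 2) t := by
    intro t
    simp only [hZ1d]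
    refine HasDerivAt.fun_sum fun x _ => ?_
    exact ((((hasDerivAt_id t).mul_const (R x)).exp).const_mul (W x)).mul_const (R x) |>.congr_deriv
      (by simp; ring)
  set h1 := fun t : ℝ => Z1 t / Z t - m - σ * t with hh1
  set h := fun t : ℝ => log (Z t) - log (Z 0) - t * m - σ * t ^ 2 / 2 with hh
  have hanti : Antitone h1 := by
    refine antitone_of_hasDerivAt_nonpos
      (f' := fun t => ((∑ x, W x * exp (t * R x) * R x ^ 2) * Z t - Z1 t * Z1 t) / Z t ^ 2 - σ)
      (fun t => ?_) (fun t => ?_)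
    · exact (((d1 t).div (d0 t) (hZ t).ne').sub_const m).sub ((hasDerivAt_id t).const_mul σ)
        |>.congr_deriv (by simp)
    · simp only [Pi.zero_apply]
      have := hvar t
      have hp := pow_pos (hZ t) 2
      rw [sub_nonpos, div_le_iff₀ hp]
      simp only [hZd, hZ1d] at *
      linarith
  have hder : ∀ t, HasDerivAt h (h1 t) t := by
    intro t
    simp only [hh, hh1]
    exact ((((d0 t).log (hZ t).ne').sub_const _).sub ((hasDerivAt_id t).mul_const m)).sub
      (((hasDerivAt_pow 2 t).const_mul σ).div_const 2) |>.congr_deriv (by simp; ring)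
  have h10 : h1 0 = 0 := by simp [hh1, hZd, hZ1d, m]
  have h0 : h 0 = 0 := by simp [hh]
  have hle : h θ ≤ 0 := by
    rcases lt_trichotomy θ 0 with ht | ht | ht
    · obtain ⟨c, hc, e⟩ := exists_hasDerivAt_eq_slope h h1 ht
        (fun t _ => (hder t).continuousAt.continuousWithinAt) (fun t _ => hder t)
      have hc0 : 0 ≤ h1 c := h10 ▸ hanti hc.2.le
      rw [e, h0, zero_sub, zero_sub, neg_div_neg_eq] at hc0
      rw [le_div_iff_of_neg ht] at hc0
      linarith
    · rw [ht, h0]
    · obtain ⟨c, hc, e⟩ := exists_hasDerivAt_eq_slope h h1 ht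
        (fun t _ => (hder t).continuousAt.continuousWithinAt) (fun t _ => hder t)
      have hc0 : h1 c ≤ 0 := h10 ▸ hanti hc.1.le
      rw [e, h0, sub_zero, sub_zero, div_le_iff₀ ht] at hc0
      linarith
  simp only [hh, hZd, zero_mul, exp_zero, mul_one] at hle
  rw [log_div (hZ θ).ne' (sum_pos' hW).ne']
  linarith

lemma dev_sq_le (hW : ∀ x, 0 < W x) (hf : ∀ x, 0 < f x) (R : α → ℝ) {σ : ℝ} (hσ : 0 ≤ σ)
    (hvar : ∀ θ : ℝ, (∑ x, W x * exp (θ * R x)) * (∑ x, W x * exp (θ * R x) * R x ^ 2)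
      - (∑ x, W x * exp (θ * R x) * R x) ^ 2 ≤ σ * (∑ x, W x * exp (θ * R x)) ^ 2) :
    dev W f R ^ 2 ≤ 2 * σ * (∑ x, W x * f x) * ent W f := by
  set S := ∑ x, W x * f x
  have hS : 0 < S := sum_pos' fun x => mul_pos (hW x) (hf x)
  have key : ∀ θ, θ * dev W f R ≤ ent W f + S * σ * θ ^ 2 / 2 := by
    intro θ
    have h1 := variational hW hf R θ
    have h2 := mul_le_mul_of_nonneg_left (mgf_bound hW R hvar θ) hS.le
    rw [dev, mul_sub, mul_div_assoc]
    linarith
  have hE := ent_nonneg hW hf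
  rcases hσ.eq_or_lt with h | h
  · subst h
    have : dev W f R = 0 := by
      by_contra hne
      have := key ((ent W f + 1) / dev W f R)
      rw [div_mul_cancel₀ _ hne] at this
      linarith
    simp [this]
  · have := key (dev W f R / (S * σ))
    have e : S * σ * (dev W f R / (S * σ)) ^ 2 = dev W f R / (S * σ) * dev W f R := by
      field_simp
    rw [e] at this
    have e2 : dev W f R ^ 2 = (S * σ) * (dev W f R / (S * σ) * dev W f R) := by field_simp
    rw [e2]
    have := mul_le_mul_of_nonneg_left (show dev W f R / (S * σ) * dev W f R ≤ 2 * ent W f by linarith)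
      (mul_pos hS h).le
    linarith

/-- bounded observables -/
lemma dev_sq_bounded (hW : ∀ x, 0 < W x) (hf : ∀ x, 0 < f x) (R : α → ℝ) {M : ℝ}
    (hM : ∀ x, |R x| ≤ M) :
    dev W f R ^ 2 ≤ 2 * M ^ 2 * (∑ x, W x * f x) * ent W f := by
  refine dev_sq_le hW hf R (sq_nonneg M) fun θ => ?_
  have h : ∑ x, W x * exp (θ * R x) * R x ^ 2 ≤ M ^ 2 * ∑ x, W x * exp (θ * R x) := by
    rw [Finset.mul_sum]
    refine Finset.sum_le_sum fun x _ => ?_
    rw [mul_comm (M ^ 2)]
    refine mul_le_mul_of_nonneg_left ?_ (mul_pos (hW x) (exp_pos _)).le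
    rw [← sq_abs]; exact pow_le_pow_left₀ (abs_nonneg _) (hM x) 2
  have h' := mul_le_mul_of_nonneg_left h (sum_pos' fun x => mul_pos (hW x) (exp_pos (θ * R x))).le
  nlinarith [sq_nonneg (∑ x, W x * exp (θ * R x) * R x)]

/-- splitting the weight into finitely many parts -/
lemma ent_mixture {κ : Type*} [Fintype κ] [Nonempty κ] (hW : ∀ x, 0 < W x) (hf : ∀ x, 0 < f x)
    (pk : κ → α → ℝ) (hpk : ∀ k x, 0 < pk k x) (hsum : ∀ x, ∑ k, pk k x = 1) :
    ent W f ≤ ∑ k, ent (fun x => W x * pk k x) f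
      + (∑ x, W x) / (∑ x, W x * f x) * ∑ k, dev W f (pk k) ^ 2 / (∑ x, W x * pk k x) := by
  set P := ∑ x, W x with hPd
  set S := ∑ x, W x * f x with hSd
  set p := fun k => ∑ x, W x * pk k x
  set T := fun k => ∑ x, W x * pk k x * f x
  have hP : 0 < P := sum_pos' hW
  have hS : 0 < S := sum_pos' fun x => mul_pos (hW x) (hf x)
  have hp : ∀ k, 0 < p k := fun k => sum_pos' fun x => mul_pos (hW x) (hpk k x)
  have hT : ∀ k, 0 < T k := fun k => sum_pos' fun x => mul_pos (mul_pos (hW x) (hpk k x)) (hf x)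
  have hTS : ∑ k, T k = S := by
    simp only [T]; rw [Finset.sum_comm]
    exact Finset.sum_congr rfl fun x _ => by
      rw [← Finset.sum_mul, ← Finset.mul_sum, hsum, mul_one]
  have hpP : ∑ k, p k = P := by
    simp only [p]; rw [Finset.sum_comm]
    exact Finset.sum_congr rfl fun x _ => by rw [← Finset.mul_sum, hsum, mul_one]
  have e : ∑ k, ent (fun x => W x * pk k x) f
      = ∑ x, W x * f x * log (f x) - ∑ k, T k * log (T k / p k) := by
    simp only [ent, Finset.sum_sub_distrib, T, p]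
    congr 1
    rw [Finset.sum_comm]
    refine Finset.sum_congr rfl fun x _ => ?_
    calc _ = (∑ k, pk k x) * (W x * f x * log (f x)) := by
          rw [Finset.sum_mul]; exact Finset.sum_congr rfl fun k _ => by ring
      _ = _ := by rw [hsum, one_mul]
  have bnd : ∀ k, T k * log (T k / p k) - T k * log (S / P)
      ≤ T k ^ 2 * P / (p k * S) - T k := by
    intro k
    rw [← mul_sub, ← log_div (div_pos (hT k) (hp k)).ne' (div_pos hS hP).ne']
    have hpos : 0 < T k / p k / (S / P) := div_pos (div_pos (hT k) (hp k)) (div_pos hS hP)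
    have := mul_le_mul_of_nonneg_left (log_le_sub_one_of_pos hpos) (hT k).le
    refine this.trans (le_of_eq ?_)
    have := hp k
    field_simp
  have hs := Finset.sum_le_sum fun k (_ : k ∈ univ) => bnd k
  simp only [Finset.sum_sub_distrib, ← Finset.sum_mul, hTS] at hs
  have e2 : P / S * ∑ k, dev W f (pk k) ^ 2 / p k = ∑ k, T k ^ 2 * P / (p k * S) - S := by
    have hd : ∀ k, dev W f (pk k) = T k - S * p k / P := by
      intro k; simp only [dev, T, p, ← hSd, ← hPd]
      congr 1
      exact Finset.sum_congr rfl fun x _ => by ring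
    have h1 : ∀ k, P / S * (dev W f (pk k) ^ 2 / p k)
        = T k ^ 2 * P / (p k * S) - 2 * T k + S / P * p k := by
      intro k; rw [hd]
      have := hp k
      field_simp
      ring
    rw [Finset.mul_sum, Finset.sum_congr rfl fun k _ => h1 k, Finset.sum_add_distrib,
      Finset.sum_sub_distrib, ← Finset.mul_sum, ← Finset.mul_sum, hTS, hpP, div_mul_cancel₀ _ hP.ne']
    ring
  rw [e, e2, ent, ← hSd, ← hPd]
  linarith

end

lemma hm_add {a b a' b' : ℝ} (ha : 0 < a) (hb : 0 < b) (ha' : 0 < a') (hb' : 0 < b') :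
    hm a b + hm a' b' ≤ hm (a + a') (b + b') := by
  unfold hm
  rw [div_add_div _ _ (by positivity) (by positivity), div_le_div_iff₀ (by positivity) (by positivity)]
  nlinarith [sq_nonneg (a * b' - a' * b)]

lemma hm_sum_le {κ : Type*} [Fintype κ] (a b : κ → ℝ) (ha : ∀ k, 0 < a k) (hb : ∀ k, 0 < b k)
    (s : Finset κ) : ∑ k ∈ s, hm (a k) (b k) ≤ hm (∑ k ∈ s, a k) (∑ k ∈ s, b k) := by
  classical
  induction s using Finset.induction_on with
  | empty => simp [hm]
  | insert k t hk ih =>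
    simp only [Finset.sum_insert hk]
    rcases t.eq_empty_or_nonempty with ht | ht
    · subst ht; simp [hm]
    · exact (add_le_add le_rfl ih).trans
        (hm_add (ha k) (hb k) (Finset.sum_pos (fun i _ => ha i) ht) (Finset.sum_pos (fun i _ => hb i) ht))

lemma log_mono_sign {a b : ℝ} (ha : 0 < a) (hb : 0 < b) : 0 ≤ (b - a) * (log b - log a) := by
  rcases le_total a b with h | h
  · exact mul_nonneg (by linarith) (by linarith [log_le_log ha h])
  · exact mul_nonneg_of_nonpos_of_nonpos (by linarith) (by linarith [log_le_log hb h])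

lemma eForm_mixture {N : ℕ} {κ : Type*} [Fintype κ] (W : Conf N → ℝ) (pk : κ → Conf N → ℝ)
    (hW : ∀ x, 0 < W x) (hpk : ∀ k x, 0 < pk k x) (hsum : ∀ x, ∑ k, pk k x = 1) (f : Conf N → ℝ)
    (hf : ∀ x, 0 < f x) :
    ∑ k, eForm (fun x => W x * pk k x) f (fun x => log (f x))
      ≤ eForm W f (fun x => log (f x)) := by
  simp only [eForm, ← Finset.mul_sum]
  refine mul_le_mul_of_nonneg_left ?_ (by norm_num)
  rw [Finset.sum_comm]
  refine Finset.sum_le_sum fun i _ => ?_
  rw [Finset.sum_comm]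
  refine Finset.sum_le_sum fun x _ => ?_
  rw [← Finset.sum_mul]
  refine mul_le_mul_of_nonneg_right ?_ (log_mono_sign (hf x) (hf _))
  refine (hm_sum_le _ _ (fun k => mul_pos (hW x) (hpk k x)) (fun k => mul_pos (hW _) (hpk k _)) univ).trans
    (le_of_eq ?_)
  simp only [← Finset.mul_sum, hsum, mul_one]

lemma two_point {p q a c : ℝ} (hp : 0 < p) (hq : 0 < q) (ha : 0 < a) (hc : 0 < c) :
    p * a * log a + q * c * log c - (p * a + q * c) * log ((p * a + q * c) / (p + q))
      ≤ hm p q * ((a - c) * (log a - log c)) := by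
  set m := (p * a + q * c) / (p + q) with hm'
  have hm0 : 0 < m := by positivity
  have h1 := mul_le_mul_of_nonneg_left (log_le_sub_one_of_pos (div_pos ha hm0)) hp.le
  have h2 := mul_le_mul_of_nonneg_left (log_le_sub_one_of_pos (div_pos hc hm0)) hq.le
  rw [log_div ha.ne' hm0.ne'] at h1
  rw [log_div hc.ne' hm0.ne'] at h2
  have e : p * (a / m - 1) + q * (c / m - 1) = 0 := by
    rw [hm']; field_simp; ring
  have h3 : p * log a + q * log c ≤ (p + q) * log m := by linarith
  have h4 := mul_le_mul_of_nonneg_left h3 hm0.le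
  have e2 : hm p q * ((a - c) * (log a - log c))
      = p * a * log a + q * c * log c - m * (p * log a + q * log c) := by
    rw [hm', hm]; field_simp; ring
  rw [e2]
  have e3 : m * ((p + q) * log m) = (p * a + q * c) * log m := by
    rw [← mul_assoc, hm', div_mul_cancel₀ _ (by positivity)]
  linarith

lemma cross_term {n : ℕ} {W' fp fq : Conf n → ℝ} {p q : ℝ} (hp0 : 0 < p) (hq0 : 0 < q)
    (hw : ∀ ρ, 0 < W' ρ) (hf1' : ∀ ρ, 0 < fp ρ) (hf2' : ∀ ρ, 0 < fq ρ) :
    p * (∑ ρ, W' ρ * fp ρ) * log ((∑ ρ, W' ρ * fp ρ) / ∑ ρ, W' ρ)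
        + q * (∑ ρ, W' ρ * fq ρ) * log ((∑ ρ, W' ρ * fq ρ) / ∑ ρ, W' ρ)
        - (p * (∑ ρ, W' ρ * fp ρ) + q * (∑ ρ, W' ρ * fq ρ))
          * log ((p * (∑ ρ, W' ρ * fp ρ) + q * (∑ ρ, W' ρ * fq ρ)) / ((p + q) * ∑ ρ, W' ρ))
      ≤ ∑ ρ, W' ρ * (hm p q * ((fp ρ - fq ρ) * (log (fp ρ) - log (fq ρ)))) := by
  set P' := ∑ ρ, W' ρ with hP'
  set a := ∑ ρ, W' ρ * fp ρ with ha'
  set c := ∑ ρ, W' ρ * fq ρ with hc'
  have hP0 : 0 < P' := sum_pos' hw
  have ha0 : 0 < a := sum_pos' fun ρ => mul_pos (hw ρ) (hf1' ρ)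
  have hc0 : 0 < c := sum_pos' fun ρ => mul_pos (hw ρ) (hf2' ρ)
  set M := (p * a + q * c) / ((p + q) * P')
  have hM : 0 < M := by positivity
  set α := a / P' / M
  set γ := c / P' / M
  have hα : 0 < α := by positivity
  have hγ : 0 < γ := by positivity
  have hnorm : p * α + q * γ = p + q := by
    simp only [α, γ, M]; field_simp
  have hpt : ∀ ρ, W' ρ * (p * fp ρ * log α + q * fq ρ * log γ)
      ≤ W' ρ * (hm p q * ((fp ρ - fq ρ) * (log (fp ρ) - log (fq ρ)))) := by
    intro ρ
    refine mul_le_mul_of_nonneg_left ?_ (hw ρ).le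
    refine le_trans ?_ (two_point hp0 hq0 (hf1' ρ) (hf2' ρ))
    set m := (p * fp ρ + q * fq ρ) / (p + q) with hm'
    have hf1 : 0 < fp ρ := hf1' ρ
    have hf2 : 0 < fq ρ := hf2' ρ
    have hm0 : 0 < m := by positivity
    have l1 := mul_le_mul_of_nonneg_left
      (log_le_sub_one_of_pos (show 0 < α * m / fp ρ by positivity)) (mul_pos hp0 hf1).le
    have l2 := mul_le_mul_of_nonneg_left
      (log_le_sub_one_of_pos (show 0 < γ * m / fq ρ by positivity)) (mul_pos hq0 hf2).le
    rw [log_div (by positivity) hf1.ne', log_mul hα.ne' hm0.ne'] at l1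
    rw [log_div (by positivity) hf2.ne', log_mul hγ.ne' hm0.ne'] at l2
    have ez : p * fp ρ * (α * m / fp ρ - 1) + q * fq ρ * (γ * m / fq ρ - 1) = 0 := by
      have : m * (p + q) = p * fp ρ + q * fq ρ := by rw [hm']; field_simp
      field_simp
      linear_combination m * hnorm + this
    linarith
  refine le_trans (le_of_eq ?_) (Finset.sum_le_sum fun ρ _ => hpt ρ)
  simp only [mul_add, Finset.sum_add_distrib, α, γ]
  rw [log_div (div_pos ha0 hP0).ne' hM.ne', log_div (div_pos hc0 hP0).ne' hM.ne']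
  have t1 : ∑ ρ, W' ρ * (p * fp ρ * (log (a / P') - log M)) = p * a * (log (a / P') - log M) := by
    rw [ha', Finset.mul_sum, Finset.sum_mul]; exact Finset.sum_congr rfl fun ρ _ => by ring
  have t2 : ∑ ρ, W' ρ * (q * fq ρ * (log (c / P') - log M)) = q * c * (log (c / P') - log M) := by
    rw [hc', Finset.mul_sum, Finset.sum_mul]; exact Finset.sum_congr rfl fun ρ _ => by ring
  rw [t1, t2]; ring

/-- Product measures satisfy the inequality with constant one. -/
theorem product_EI : ∀ {N : ℕ} (b : Fin N → ℝ), EI (fun x => exp (∑ i, b i * spin (x i))) 1 := by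
  intro N
  induction N with
  | zero =>
    intro b f hf
    simp [ent, eForm]
  | succ n ih =>
    intro b f hf
    set W' := fun ρ : Conf n => exp (∑ i, b i.succ * spin (ρ i)) with hW'
    set p := exp (b 0) with hp
    set q := exp (-b 0) with hq
    set fp := fun ρ : Conf n => f (Fin.cons true ρ)
    set fq := fun ρ : Conf n => f (Fin.cons false ρ)
    have hsplit : ∀ (e : Bool) (ρ : Conf n),
        exp (∑ i, b i * spin ((Fin.cons e ρ : Conf (n+1)) i)) = exp (b 0 * spin e) * W' ρ := by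
      intro e ρ
      simp only [hW', ← exp_add, Fin.sum_univ_succ, Fin.cons_zero, Fin.cons_succ]
    have hsum : ∀ F : Conf (n+1) → ℝ,
        ∑ x, F x = ∑ ρ : Conf n, (F (Fin.cons true ρ) + F (Fin.cons false ρ)) := by
      intro F
      rw [← (Fin.consEquiv fun _ => Bool).sum_comp, Fintype.sum_prod_type, Fintype.sum_bool,
        ← Finset.sum_add_distrib]
      rfl
    have i1 := ih (fun i => b i.succ) fp fun ρ => hf _
    have i2 := ih (fun i => b i.succ) fq fun ρ => hf _
    rw [one_mul] at i1 i2 ⊢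
    set P' := ∑ ρ, W' ρ with hP'
    set a := ∑ ρ, W' ρ * fp ρ with ha'
    set c := ∑ ρ, W' ρ * fq ρ with hc'
    have hP0 : 0 < P' := sum_pos' fun ρ => exp_pos _
    have ha0 : 0 < a := sum_pos' fun ρ => mul_pos (exp_pos _) (hf _)
    have hc0 : 0 < c := sum_pos' fun ρ => mul_pos (exp_pos _) (hf _)
    have eent : ent (fun x => exp (∑ i, b i * spin (x i))) f
        = p * ent W' fp + q * ent W' fq
          + (p * a * log (a / P') + q * c * log (c / P')
            - (p * a + q * c) * log ((p * a + q * c) / ((p + q) * P'))) := by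
      simp only [ent, hsum, hsplit]
      simp only [spin, if_true, Bool.false_eq_true, if_false, mul_one, mul_neg,
        ← hp, ← hq, Finset.sum_add_distrib, mul_assoc, ← Finset.mul_sum]
      simp only [← mul_assoc (W' _)]
      rw [← ha', ← hc', ← hP', ← add_mul p q]
      simp only [fp, fq]
      ring
    have e0 : ∑ x : Conf (n+1), hm (exp (∑ i, b i * spin (x i)))
          (exp (∑ i, b i * spin ((flip1 x 0) i)))
          * ((f (flip1 x 0) - f x) * (log (f (flip1 x 0)) - log (f x)))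
        = 2 * ∑ ρ, W' ρ * (hm p q * ((fp ρ - fq ρ) * (log (fp ρ) - log (fq ρ)))) := by
      rw [hsum, Finset.mul_sum]
      refine Finset.sum_congr rfl fun ρ _ => ?_
      have f0 : ∀ e : Bool, flip1 (Fin.cons e ρ : Conf (n+1)) 0 = Fin.cons (!e) ρ := by
        intro e; simp [flip1, Fin.update_cons_zero]
      simp only [f0, hsplit]
      simp only [spin, if_true, Bool.false_eq_true, if_false, mul_one, mul_neg, ← hp,
        ← hq, Bool.not_true, Bool.not_false, fp, fq, hm]
      have hw : 0 < W' ρ := exp_pos _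
      have : 0 < p := exp_pos _
      have : 0 < q := exp_pos _
      field_simp
      ring
    have es : ∀ i : Fin n, ∑ x : Conf (n+1), hm (exp (∑ k, b k * spin (x k)))
          (exp (∑ k, b k * spin ((flip1 x i.succ) k)))
          * ((f (flip1 x i.succ) - f x) * (log (f (flip1 x i.succ)) - log (f x)))
        = p * (∑ ρ, hm (W' ρ) (W' (flip1 ρ i)) * ((fp (flip1 ρ i) - fp ρ)
            * (log (fp (flip1 ρ i)) - log (fp ρ))))
          + q * (∑ ρ, hm (W' ρ) (W' (flip1 ρ i)) * ((fq (flip1 ρ i) - fq ρ)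
            * (log (fq (flip1 ρ i)) - log (fq ρ)))) := by
      intro i
      rw [hsum, Finset.mul_sum, Finset.mul_sum, ← Finset.sum_add_distrib]
      refine Finset.sum_congr rfl fun ρ _ => ?_
      have fs : ∀ e : Bool, flip1 (Fin.cons e ρ : Conf (n+1)) i.succ = Fin.cons e (flip1 ρ i) := by
        intro e; simp [flip1, Fin.cons_update]
      have hhm : ∀ t u v : ℝ, 0 < t → hm (t * u) (t * v) = t * hm u v := by
        intro t u v ht; unfold hm; rw [← mul_add]; field_simp
      simp only [fs, hsplit]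
      simp only [spin, if_true, Bool.false_eq_true, if_false, mul_one, mul_neg, ← hp,
        ← hq, hhm p _ _ (exp_pos _), hhm q _ _ (exp_pos _), fp, fq]
      ring
    have eform : eForm (fun x => exp (∑ i, b i * spin (x i))) f (fun x => log (f x))
        = ∑ ρ, W' ρ * (hm p q * ((fp ρ - fq ρ) * (log (fp ρ) - log (fq ρ))))
          + p * eForm W' fp (fun ρ => log (fp ρ)) + q * eForm W' fq (fun ρ => log (fq ρ)) := by
      unfold eForm
      rw [Fin.sum_univ_succ, e0]
      simp only [es, Finset.sum_add_distrib, ← Finset.mul_sum]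
      ring
    have cross := cross_term (W' := W') (fp := fp) (fq := fq) (exp_pos (b 0)) (exp_pos (-b 0))
      (fun ρ => exp_pos _) (fun ρ => hf _) (fun ρ => hf _)
    rw [eent, eform]
    have := mul_le_mul_of_nonneg_left i1 (exp_pos (b 0)).le
    have := mul_le_mul_of_nonneg_left i2 (exp_pos (-b 0)).le
    linarith

end Vale.Agent.P150.HT
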