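import Vale.Agent.P150.HT.Entropy

/-! Entropy inequality for Ising measures by annihilating the interaction in small steps. -/

namespace Vale.Agent.P150.HT

open Real Finset Filter Topology

variable {N : ℕ}

lemma ent_smul {W f : Conf N → ℝ} {c : ℝ} (hc : 0 < c) :
    ent (fun x => c * W x) f = c * ent W f := by
  simp only [ent, mul_assoc c, ← Finset.mul_sum]
  rw [mul_div_mul_left _ _ hc.ne']
  ring

lemma eForm_smul {W f g : Conf N → ℝ} {c : ℝ} (hc : 0 < c) :
    eForm (fun x => c * W x) f g = c * eForm W f g := by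
  simp only [eForm, Finset.mul_sum]
  refine Finset.sum_congr rfl fun i _ => Finset.sum_congr rfl fun x _ => ?_
  unfold hm
  rw [← mul_add]
  field_simp

lemma factor_psd (K : Fin N → Fin N → ℝ) (hsym : ∀ i j, K i j = K j i) {lam : ℝ}
    (hlo : ∀ y : Fin N → ℝ, -(lam * ∑ i, y i ^ 2) ≤ ∑ i, ∑ j, K i j * y i * y j) :
    ∃ u : Fin N → Fin N → ℝ, ∀ y : Fin N → ℝ, ∑ l, (∑ i, u l i * y i) ^ 2
      = (∑ i, ∑ j, K i j * y i * y j) + lam * ∑ i, y i ^ 2 := by
  classical
  set A : Matrix (Fin N) (Fin N) ℝ := Matrix.of fun i j => K i j + if i = j then lam else 0 with hA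
  have hH : A.IsHermitian := by
    ext i j
    simp only [hA, Matrix.conjTranspose_apply, Matrix.of_apply, star_trivial]
    by_cases h : i = j
    · subst h; rfl
    · simp [h, Ne.symm h, hsym]
  set e := hH.eigenvectorBasis
  set d := hH.eigenvalues
  have hv : ∀ l i, ∑ j, A i j * e l j = d l * e l i := by
    intro l i
    simpa [Matrix.mulVec, dotProduct, e, d] using congrFun (hH.mulVec_eigenvectorBasis l) i
  have hq : ∀ y : Fin N → ℝ, ∑ i, y i * ∑ j, A i j * y j
      = (∑ i, ∑ j, K i j * y i * y j) + lam * ∑ i, y i ^ 2 := by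
    intro y
    simp only [hA, Matrix.of_apply, add_mul, ite_mul, zero_mul, Finset.sum_add_distrib,
      Finset.sum_ite_eq, Finset.mem_univ, if_true, mul_add, Finset.mul_sum]
    congr 1
    · exact Finset.sum_congr rfl fun i _ => Finset.sum_congr rfl fun j _ => by ring
    · exact Finset.sum_congr rfl fun i _ => by ring
  have hpar : ∀ a c : Fin N → ℝ, ∑ l, (∑ x, e l x * a x) * (∑ x, e l x * c x) = ∑ x, a x * c x := by
    intro a c
    have h := e.sum_inner_mul_inner (WithLp.toLp 2 a) (WithLp.toLp 2 c)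
    simp only [PiLp.inner_apply, RCLike.inner_apply, conj_trivial] at h
    refine (Eq.trans ?_ h).trans (Finset.sum_congr rfl fun x _ => mul_comm _ _)
    exact Finset.sum_congr rfl fun l _ => by
      congr 1
      exact Finset.sum_congr rfl fun x _ => mul_comm _ _
  have hd : ∀ l, 0 ≤ d l := by
    intro l
    have h1 := hq (e l)
    simp only [hv] at h1
    have h2 : ∑ x, e l x * e l x = 1 := by
      have := e.orthonormal.1 l
      have h := real_inner_self_eq_norm_sq (e l)
      rw [this, PiLp.inner_apply] at h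
      simpa [sq] using h
    have : ∑ i, e l i * (d l * e l i) = d l := by
      conv_rhs => rw [← mul_one (d l), ← h2, Finset.mul_sum]
      exact Finset.sum_congr rfl fun i _ => by ring
    rw [this] at h1
    linarith [hlo (e l)]
  refine ⟨fun l i => √(d l) * e l i, fun y => ?_⟩
  rw [← hq, ← hpar y (fun i => ∑ j, A i j * y j)]
  refine Finset.sum_congr rfl fun l _ => ?_
  have h1 : ∑ x, e l x * ∑ j, A x j * y j = d l * ∑ x, e l x * y x := by
    simp only [Finset.mul_sum]
    rw [Finset.sum_comm]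
    refine Finset.sum_congr rfl fun j _ => ?_
    rw [← mul_assoc, ← hv l j, Finset.sum_mul]
    refine Finset.sum_congr rfl fun x _ => ?_
    rw [← hH.apply x j, star_trivial]; ring
  rw [h1]
  simp only [mul_assoc, ← Finset.mul_sum]
  rw [mul_pow, sq_sqrt (hd l)]
  ring

section
variable (u : Fin N → Fin N → ℝ) (m : ℕ)

/-- argument of the step -/
noncomputable def zz (l : Fin N) (x : Conf N) : ℝ := √((N:ℝ) / m) * ∑ i, u l i * spin (x i)

/-- one step of the interaction -/
noncomputable def stepF (x : Conf N) : ℝ := (∑ l, cosh (zz u m l x)) / N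

/-- weight after `r` steps -/
noncomputable def wgt (b : Fin N → ℝ) (r : ℕ) (x : Conf N) : ℝ :=
  exp (∑ i, b i * spin (x i)) * stepF u m x ^ r

/-- components of the splitting -/
noncomputable def comp (k : Fin N × Bool) (x : Conf N) : ℝ :=
  exp (spin k.2 * zz u m k.1 x) / (2 * N * stepF u m x)

variable [NeZero N]

lemma stepF_pos (x : Conf N) : 0 < stepF u m x :=
  div_pos (Finset.sum_pos (fun l _ => cosh_pos _) univ_nonempty)
    (by exact_mod_cast Nat.pos_of_ne_zero (NeZero.ne N))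

lemma wgt_pos (b : Fin N → ℝ) (r : ℕ) (x : Conf N) : 0 < wgt u m b r x :=
  mul_pos (exp_pos _) (pow_pos (stepF_pos u m x) r)

lemma comp_pos (k : Fin N × Bool) (x : Conf N) : 0 < comp u m k x := by
  have := stepF_pos u m x
  have : (0:ℝ) < N := by exact_mod_cast Nat.pos_of_ne_zero (NeZero.ne N)
  unfold comp; positivity

lemma comp_sum (x : Conf N) : ∑ k, comp u m k x = 1 := by
  have hF := stepF_pos u m x
  have hN : (0:ℝ) < N := by exact_mod_cast Nat.pos_of_ne_zero (NeZero.ne N)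
  simp only [comp, Fintype.sum_prod_type, Fintype.sum_bool, spin, if_true, Bool.false_eq_true,
    if_false, one_mul, neg_one_mul, ← Finset.sum_div]
  rw [div_eq_one_iff_eq (by positivity), stepF]
  have : ∀ l, exp (zz u m l x) / (2 * (N:ℝ) * ((∑ l, cosh (zz u m l x)) / N))
      + exp (-zz u m l x) / (2 * (N:ℝ) * ((∑ l, cosh (zz u m l x)) / N)) = 0 → True := fun _ _ => trivial
  field_simp
  rw [Finset.mul_sum]
  exact Finset.sum_congr rfl fun l _ => by rw [cosh_eq]; ring

lemma wgt_comp (b : Fin N → ℝ) (r : ℕ) (k : Fin N × Bool) (x : Conf N) :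
    wgt u m b (r + 1) x * comp u m k x
      = (1 / (2 * N)) * wgt u m (fun i => b i + spin k.2 * √((N:ℝ) / m) * u k.1 i) r x := by
  have hF := stepF_pos u m x
  have hN : (0:ℝ) < N := by exact_mod_cast Nat.pos_of_ne_zero (NeZero.ne N)
  have e : exp (∑ i, (b i + spin k.2 * √((N:ℝ) / m) * u k.1 i) * spin (x i))
      = exp (∑ i, b i * spin (x i)) * exp (spin k.2 * zz u m k.1 x) := by
    rw [← exp_add, zz, Finset.mul_sum, Finset.mul_sum, ← Finset.sum_add_distrib]
    congr 1
    exact Finset.sum_congr rfl fun i _ => by ring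
  unfold wgt comp
  rw [e, pow_succ]
  field_simp

variable {u m} {M : ℝ} (hM : 0 < M) (hM1 : M ≤ 1) (hz : ∀ l x, |zz u m l x| ≤ M)
include hM hM1 hz

lemma stepF_bounds (x : Conf N) : 1 ≤ stepF u m x ∧ stepF u m x - 1 ≤ M ^ 2
    ∧ stepF u m x ≤ exp M := by
  have hN : (0:ℝ) < N := by exact_mod_cast Nat.pos_of_ne_zero (NeZero.ne N)
  have hc : ∀ l, cosh (zz u m l x) ≤ 1 + M ^ 2 := by
    intro l
    have h := cosh_sub_one_small ((hz l x).trans hM1)
    have := pow_le_pow_left₀ (abs_nonneg _) (hz l x) 2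
    rw [sq_abs] at this
    linarith
  have h1 : stepF u m x ≤ 1 + M ^ 2 := by
    rw [stepF, div_le_iff₀ hN]
    refine (Finset.sum_le_sum fun l _ => hc l).trans (le_of_eq ?_)
    simp; ring
  refine ⟨?_, by linarith, ?_⟩
  · rw [stepF, le_div_iff₀ hN]
    refine le_trans (le_of_eq ?_) (Finset.sum_le_sum fun l _ => one_le_cosh _)
    simp
  · have := add_one_le_exp M
    have : M ^ 2 ≤ M := pow_le_of_le_one hM.le hM1 two_ne_zero
    linarith

lemma comp_lower (k : Fin N × Bool) (x : Conf N) : exp (-(2 * M)) / (2 * N) ≤ comp u m k x := by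
  obtain ⟨h1, -, h3⟩ := stepF_bounds hM hM1 hz x
  have hN : (0:ℝ) < N := by exact_mod_cast Nat.pos_of_ne_zero (NeZero.ne N)
  have he : exp (-M) ≤ exp (spin k.2 * zz u m k.1 x) := by
    refine exp_le_exp.mpr ?_
    have : |spin k.2 * zz u m k.1 x| ≤ M := by rw [abs_mul, abs_spin, one_mul]; exact hz _ _
    linarith [neg_abs_le (spin k.2 * zz u m k.1 x)]
  rw [comp, div_le_div_iff₀ (by positivity) (by positivity)]
  calc exp (-(2 * M)) * (2 * N * stepF u m x) ≤ exp (-(2 * M)) * (2 * N * exp M) := by gcongr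
    _ = exp (-M) * (2 * N) := by
        rw [show -(2 * M) = -M + -M by ring, exp_add, exp_neg M]
        field_simp
    _ ≤ _ := mul_le_mul_of_nonneg_right he (by positivity)

lemma comp_expand (k : Fin N × Bool) (x : Conf N) :
    |2 * N * comp u m k x - 1 - spin k.2 * zz u m k.1 x| ≤ 3 * M ^ 2 := by
  obtain ⟨h1, h2, -⟩ := stepF_bounds hM hM1 hz x
  have hN : (0:ℝ) < N := by exact_mod_cast Nat.pos_of_ne_zero (NeZero.ne N)
  set z := spin k.2 * zz u m k.1 x
  set F := stepF u m x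
  have hzz : |z| ≤ M := by simp only [z]; rw [abs_mul, abs_spin, one_mul]; exact hz _ _
  have hz2 : z ^ 2 ≤ M ^ 2 := by
    rw [← sq_abs]; exact pow_le_pow_left₀ (abs_nonneg _) hzz 2
  have e : 2 * N * comp u m k x - 1 - z = ((exp z - 1 - z) - (F - 1) * (1 + z)) / F := by
    unfold comp
    change 2 * (N:ℝ) * (exp z / (2 * N * F)) - 1 - z = _
    have : 0 < F := by linarith
    field_simp
    ring
  have hb := abs_exp_sub_one_sub_id_le (hzz.trans hM1)
  have hn : |(exp z - 1 - z) - (F - 1) * (1 + z)| ≤ 3 * M ^ 2 := by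
    refine (abs_sub _ _).trans ?_
    rw [abs_mul, abs_of_nonneg (by linarith : (0:ℝ) ≤ F - 1)]
    have : |1 + z| ≤ 2 := by
      refine (abs_add_le _ _).trans ?_
      rw [abs_one]; linarith
    have := mul_le_mul h2 this (abs_nonneg _) (sq_nonneg M)
    linarith
  rw [e, abs_div, abs_of_nonneg (by linarith : (0:ℝ) ≤ F)]
  exact (div_le_self (abs_nonneg _) h1).trans hn

end

/-- one splitting step -/
theorem step_EI [NeZero N] {u : Fin N → Fin N → ℝ} {m : ℕ} (hm : 0 < m) {M σ L : ℝ} (hM : 0 < M)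
    (hM1 : M ≤ 1) (hz : ∀ l x, |zz u m l x| ≤ M) (hσ : 0 ≤ σ) (hL0 : 0 ≤ L)
    (hL : ∀ y : Fin N → ℝ, ∑ l, (∑ i, u l i * y i) ^ 2 ≤ L * ∑ i, y i ^ 2)
    (b : Fin N → ℝ) (r : ℕ)
    (hvar : ∀ (b' v : Fin N → ℝ), wvar (wgt u m b' (r + 1)) (fun x => ∑ i, v i * spin (x i))
      ≤ σ * (∑ i, v i ^ 2) * (∑ x, wgt u m b' (r + 1) x) ^ 2)
    {A κ : ℝ} (hA : 0 ≤ A) (hκ : exp (2 * M) * (2 * (1 + M) * L * σ / m + 18 * (1 + M) * M ^ 3) ≤ κ)
    (hκ1 : κ ≤ 1 / 2) (ih : ∀ b', EI (wgt u m b' r) A) :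
    EI (wgt u m b (r + 1)) (A * exp (2 * κ)) := by
  intro f hf
  set W := wgt u m b (r + 1) with hWd
  have hW : ∀ x, 0 < W x := wgt_pos u m b (r + 1)
  have hN : (0:ℝ) < N := by exact_mod_cast Nat.pos_of_ne_zero (NeZero.ne N)
  set S := ∑ x, W x * f x with hSd
  set P := ∑ x, W x with hPd
  have hS : 0 < S := sum_pos' fun x => mul_pos (hW x) (hf x)
  have hP : 0 < P := sum_pos' hW
  have hE : 0 ≤ ent W f := ent_nonneg hW hf
  have hmix := ent_mixture hW hf (comp u m) (comp_pos u m) (comp_sum u m)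
  have hform := eForm_mixture W (comp u m) hW (comp_pos u m) (comp_sum u m) f hf
  have hparts : ∀ k, ent (fun x => W x * comp u m k x) f
      ≤ A * eForm (fun x => W x * comp u m k x) f (fun x => log (f x)) := by
    intro k
    have e : (fun x => W x * comp u m k x) = fun x => (1 / (2 * (N:ℝ)))
        * wgt u m (fun i => b i + spin k.2 * √((N:ℝ) / m) * u k.1 i) r x :=
      funext fun x => wgt_comp u m b r k x
    rw [e, ent_smul (by positivity), eForm_smul (by positivity), mul_left_comm]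
    exact mul_le_mul_of_nonneg_left (ih _ f hf) (by positivity)
  set Δ : Fin N → ℝ := fun i => dev W f (fun x => spin (x i)) with hΔ
  have hD : ∀ v : Fin N → ℝ, dev W f (fun x => ∑ i, v i * spin (x i)) = ∑ i, v i * Δ i :=
    fun v => dev_sum W f v _
  have hΔb : ∑ i, Δ i ^ 2 ≤ 2 * σ * S * ent W f := by
    set T := ∑ i, Δ i ^ 2 with hT
    have hT0 : 0 ≤ T := Finset.sum_nonneg fun i _ => sq_nonneg _
    have h := dev_sq_le hW hf (fun x => ∑ i, Δ i * spin (x i)) (σ := σ * T) (by positivity) (by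
      intro θ
      have e : ∀ x, W x * exp (θ * ∑ i, Δ i * spin (x i))
          = wgt u m (fun i => b i + θ * Δ i) (r + 1) x := by
        intro x
        simp only [hWd, wgt]
        rw [mul_right_comm, ← exp_add, Finset.mul_sum, ← Finset.sum_add_distrib]
        refine congrArg₂ (· * ·) (congrArg _ ?_) rfl
        exact Finset.sum_congr rfl fun i _ => by ring
      simp only [e]
      exact hvar _ Δ)
    rw [hD, show ∑ i, Δ i * Δ i = T by simp [hT, sq]] at h
    rcases hT0.eq_or_lt with h0 | h0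
    · rw [← h0]; positivity
    · refine le_of_mul_le_mul_right ?_ h0
      linarith
  set R := fun (k : Fin N × Bool) (x : Conf N) => 2 * (N:ℝ) * comp u m k x - 1 - spin k.2 * zz u m k.1 x
    with hRd
  set z := fun l => dev W f (zz u m l) with hzd
  have hk : ∀ k : Fin N × Bool, 2 * (N:ℝ) * dev W f (comp u m k)
      = spin k.2 * z k.1 + dev W f (R k) := by
    intro k
    have e1 : dev W f (fun _ => (1:ℝ)) = 0 := by
      simp only [dev, mul_one, ← hPd, ← hSd]
      field_simp; ring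
    have e2 : (fun x => (0:ℝ) + 2 * (N:ℝ) * comp u m k x)
        = fun x => ((fun _ => (1:ℝ)) x + spin k.2 * zz u m k.1 x) + 1 * R k x := by
      funext x; simp only [hRd]; ring
    have h0 : dev W f (fun _ => (0:ℝ)) = 0 := by simp [dev]
    have h := congrArg (dev W f) e2
    rw [dev_linear W f (fun _ => (0:ℝ)) (comp u m k), dev_linear, dev_linear, e1, h0, one_mul,
      zero_add, zero_add] at h
    exact h
  have hz2 : ∑ l, z l ^ 2 ≤ (N:ℝ) / m * (L * (2 * σ * S * ent W f)) := by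
    have e : ∀ l, z l = √((N:ℝ) / m) * ∑ i, u l i * Δ i := by
      intro l
      have e0 : zz u m l = fun x => (0:ℝ) + √((N:ℝ) / m) * ∑ i, u l i * spin (x i) := by
        funext x; simp [zz]
      simp only [hzd, e0, dev_linear, hD]
      simp [dev]
    calc ∑ l, z l ^ 2 = (N:ℝ) / m * ∑ l, (∑ i, u l i * Δ i) ^ 2 := by
          rw [Finset.mul_sum]
          exact Finset.sum_congr rfl fun l _ => by rw [e, mul_pow, sq_sqrt (by positivity)]
      _ ≤ _ := mul_le_mul_of_nonneg_left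
          ((hL Δ).trans (mul_le_mul_of_nonneg_left hΔb hL0)) (by positivity)
  have hR : ∀ k, dev W f (R k) ^ 2 ≤ 18 * M ^ 4 * S * ent W f := by
    intro k
    refine (dev_sq_bounded hW hf (R k) (comp_expand hM hM1 hz k)).trans (le_of_eq ?_)
    ring
  have hsum : ∑ k : Fin N × Bool, (2 * (N:ℝ) * dev W f (comp u m k)) ^ 2
      ≤ (1 + M) * (2 * ((N:ℝ) / m * (L * (2 * σ * S * ent W f))))
        + (1 + 1 / M) * (2 * N * (18 * M ^ 4 * S * ent W f)) := by
    calc ∑ k : Fin N × Bool, (2 * (N:ℝ) * dev W f (comp u m k)) ^ 2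
        ≤ ∑ k : Fin N × Bool, ((1 + M) * z k.1 ^ 2 + (1 + 1 / M) * (18 * M ^ 4 * S * ent W f)) := by
          refine Finset.sum_le_sum fun k _ => ?_
          rw [hk]
          have h1 : spin k.2 ^ 2 = 1 := by rw [sq, spin_sq]
          have h2 := sq_nonneg (M * (spin k.2 * z k.1) - dev W f (R k))
          have h3 := mul_le_mul_of_nonneg_left (hR k) (by positivity : (0:ℝ) ≤ 1 + 1 / M)
          have h4 : 2 * (spin k.2 * z k.1) * dev W f (R k) ≤ M * z k.1 ^ 2 + dev W f (R k) ^ 2 / M := by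
            rw [← mul_le_mul_iff_left₀ hM, add_mul, div_mul_cancel₀ _ hM.ne']
            rw [show (M * (spin k.2 * z k.1) - dev W f (R k)) ^ 2
              = M ^ 2 * (spin k.2 ^ 2 * z k.1 ^ 2) - 2 * M * (spin k.2 * z k.1) * dev W f (R k)
                + dev W f (R k) ^ 2 by ring, h1] at h2
            linarith
          have e5 : (spin k.2 * z k.1 + dev W f (R k)) ^ 2 = spin k.2 ^ 2 * z k.1 ^ 2
              + 2 * (spin k.2 * z k.1) * dev W f (R k) + dev W f (R k) ^ 2 := by ring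
          rw [e5, h1]
          have e6 : (1 + 1 / M) * dev W f (R k) ^ 2 = dev W f (R k) ^ 2 + dev W f (R k) ^ 2 / M := by ring
          linarith
      _ = (1 + M) * (2 * ∑ l, z l ^ 2) + (1 + 1 / M) * (2 * N * (18 * M ^ 4 * S * ent W f)) := by
          simp only [Finset.sum_add_distrib, ← Finset.mul_sum, Fintype.sum_prod_type, Finset.sum_const,
            Finset.card_univ, Fintype.card_prod, Fintype.card_fin, Fintype.card_bool, nsmul_eq_mul]
          push_cast
          ring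
      _ ≤ _ := by gcongr
  have hex : P / S * ∑ k, dev W f (comp u m k) ^ 2 / (∑ x, W x * comp u m k x)
      ≤ κ * ent W f := by
    have hpk : ∀ k, P * (exp (-(2 * M)) / (2 * N)) ≤ ∑ x, W x * comp u m k x := by
      intro k
      rw [hPd, Finset.sum_mul]
      exact Finset.sum_le_sum fun x _ =>
        mul_le_mul_of_nonneg_left (comp_lower hM hM1 hz k x) (hW x).le
    calc P / S * ∑ k, dev W f (comp u m k) ^ 2 / (∑ x, W x * comp u m k x)
        ≤ P / S * ∑ k, dev W f (comp u m k) ^ 2 / (P * (exp (-(2 * M)) / (2 * N))) :=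
          mul_le_mul_of_nonneg_left (Finset.sum_le_sum fun k _ =>
            div_le_div_of_nonneg_left (sq_nonneg _) (by positivity) (hpk k)) (by positivity)
      _ = exp (2 * M) / (2 * N * S) * ∑ k, (2 * (N:ℝ) * dev W f (comp u m k)) ^ 2 := by
          rw [Finset.mul_sum, Finset.mul_sum]
          refine Finset.sum_congr rfl fun k _ => ?_
          rw [exp_neg]
          field_simp
      _ ≤ exp (2 * M) / (2 * N * S) * ((1 + M) * (2 * ((N:ℝ) / m * (L * (2 * σ * S * ent W f))))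
            + (1 + 1 / M) * (2 * N * (18 * M ^ 4 * S * ent W f))) :=
          mul_le_mul_of_nonneg_left hsum (by positivity)
      _ = exp (2 * M) * (2 * (1 + M) * L * σ / m + 18 * (1 + M) * M ^ 3) * ent W f := by
          have : (0:ℝ) < m := by exact_mod_cast hm
          field_simp
          ring
      _ ≤ _ := mul_le_mul_of_nonneg_right hκ hE
  have hF0 : 0 ≤ eForm W f (fun x => log (f x)) := by
    refine mul_nonneg (by norm_num) (Finset.sum_nonneg fun i _ => Finset.sum_nonneg fun x _ => ?_)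
    exact mul_nonneg (div_nonneg (mul_pos (hW _) (hW _)).le (add_pos (hW _) (hW _)).le)
      (log_mono_sign (hf x) (hf _))
  have hmain : (1 - κ) * ent W f ≤ A * eForm W f (fun x => log (f x)) := by
    have h1 := Finset.sum_le_sum fun k (_ : k ∈ (univ : Finset (Fin N × Bool))) => hparts k
    rw [← Finset.mul_sum] at h1
    have h2 := mul_le_mul_of_nonneg_left hform hA
    linarith
  have hκ0 : 0 ≤ κ := le_trans (by positivity) hκ
  have h3 : 1 ≤ exp (2 * κ) * (1 - κ) := by
    calc (1:ℝ) ≤ (1 + 2 * κ) * (1 - κ) := by nlinarith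
      _ ≤ _ := mul_le_mul_of_nonneg_right (by linarith [add_one_le_exp (2 * κ)]) (by linarith)
  calc ent W f ≤ exp (2 * κ) * (1 - κ) * ent W f := le_mul_of_one_le_left hE h3
    _ = exp (2 * κ) * ((1 - κ) * ent W f) := by ring
    _ ≤ exp (2 * κ) * (A * eForm W f (fun x => log (f x))) :=
        mul_le_mul_of_nonneg_left hmain (exp_pos _).le
    _ = _ := by ring

lemma one_add_sq_le_cosh (z : ℝ) : 1 + z ^ 2 / 2 ≤ cosh z := by
  have h : ∀ w : ℝ, w ^ 2 ≤ sinh w ^ 2 := by
    intro w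
    rcases le_total 0 w with h | h
    · exact pow_le_pow_left₀ h (self_le_sinh_iff.mpr h) 2
    · have := sinh_le_self_iff.mpr h
      nlinarith
  have := h (z / 2)
  rw [show z = 2 * (z / 2) by ring, cosh_two_mul, cosh_sq]
  linarith

lemma wgt_approx [NeZero N] (u : Fin N → Fin N → ℝ) (K : Fin N → Fin N → ℝ) {lam U : ℝ}
    {Q : Conf N → ℝ} (hQd : Q = fun x => ∑ l, (∑ i, u l i * spin (x i)) ^ 2)
    (hQe : ∀ x, Q x = (∑ i, ∑ j, K i j * spin (x i) * spin (x j)) + lam * N)
    {m : ℕ} (hm : 0 < m) (hUm : U / m ≤ 1) (b' : Fin N → ℝ) {r : ℕ} (hr : r ≤ m) (x : Conf N)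
    (hNQ : (N:ℝ) * Q x ≤ U) :
    exp (-(U ^ 2 / m)) * (exp ((r:ℝ) / m * (lam * N) / 2) * isW (fun i j => (r:ℝ) / m * K i j) b' x)
        ≤ wgt u m b' r x
    ∧ wgt u m b' r x
        ≤ exp (U ^ 2 / m) * (exp ((r:ℝ) / m * (lam * N) / 2) * isW (fun i j => (r:ℝ) / m * K i j) b' x) := by
  have hN : (0:ℝ) < N := by exact_mod_cast Nat.pos_of_ne_zero (NeZero.ne N)
  have hQ0 : ∀ x, 0 ≤ Q x := fun x => hQd ▸ Finset.sum_nonneg fun l _ => sq_nonneg _
  have hU0 : 0 ≤ U := le_trans (mul_nonneg hN.le (hQ0 x)) hNQ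
  set κ0 := fun m : ℕ => U ^ 2 / (m:ℝ) with hκ0
  change exp (-κ0 m) * _ ≤ _ ∧ _ ≤ exp (κ0 m) * _
  have hmR : (0:ℝ) < m := by exact_mod_cast hm
  set q := Q x / (2 * m) with hqd
  have hq0 : 0 ≤ q := by have := hQ0 x; positivity
  have hqU : q ≤ U / m := by
    have h1 : Q x ≤ (N:ℝ) * Q x := le_mul_of_one_le_left (hQ0 x) (by exact_mod_cast NeZero.one_le)
    rw [hqd, div_le_div_iff₀ (by positivity) hmR]
    nlinarith [hQ0 x]
  have hz : ∀ l, zz u m l x ^ 2 / 2 ≤ U / m := by
    intro l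
    rw [zz, mul_pow, sq_sqrt (by positivity)]
    have h1 : (∑ i, u l i * spin (x i)) ^ 2 ≤ Q x :=
      by rw [hQd]; exact Finset.single_le_sum (f := fun l => (∑ i, u l i * spin (x i)) ^ 2) (fun l _ => sq_nonneg _) (mem_univ l)
    calc (N:ℝ) / m * (∑ i, u l i * spin (x i)) ^ 2 / 2 ≤ (N:ℝ) / m * Q x / 2 := by gcongr
      _ = (N:ℝ) * Q x / m / 2 := by ring
      _ ≤ U / m / 2 := by gcongr
      _ ≤ U / m := half_le_self (by positivity)
  have hsum : ∑ l, zz u m l x ^ 2 / 2 = (N:ℝ) * q := by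
    simp only [hqd, hQd, zz, mul_pow, sq_sqrt (div_nonneg hN.le hmR.le)]
    simp only [Finset.mul_sum, Finset.sum_div]
    exact Finset.sum_congr rfl fun l _ => by ring
  have hlow : 1 + q ≤ stepF u m x := by
    rw [stepF, le_div_iff₀ hN]
    calc (1 + q) * N = ∑ l, (1 + zz u m l x ^ 2 / 2) := by
          rw [Finset.sum_add_distrib, hsum]; simp; ring
      _ ≤ _ := Finset.sum_le_sum fun l _ => one_add_sq_le_cosh _
  have hhigh : stepF u m x ≤ exp (q + (U / m) ^ 2) := by
    refine le_trans ?_ (add_one_le_exp _)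
    rw [stepF, div_le_iff₀ hN]
    calc ∑ l, cosh (zz u m l x) ≤ ∑ l, (1 + zz u m l x ^ 2 / 2 + (U / m) ^ 2) := by
          refine Finset.sum_le_sum fun l _ => (cosh_le_exp_half_sq _).trans ?_
          have h0 : 0 ≤ zz u m l x ^ 2 / 2 := by positivity
          have := abs_exp_sub_one_sub_id_le (x := zz u m l x ^ 2 / 2)
            (by rw [abs_of_nonneg h0]; exact (hz l).trans hUm)
          have := abs_le.mp this
          have := pow_le_pow_left₀ h0 (hz l) 2
          linarith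
      _ = _ := by rw [Finset.sum_add_distrib, Finset.sum_add_distrib, hsum]; simp; ring
  have hlog : exp (q - (U / m) ^ 2) ≤ stepF u m x := by
    refine le_trans ?_ hlow
    rw [← exp_log (by linarith : 0 < 1 + q)]
    refine exp_le_exp.mpr ?_
    have h1 := one_sub_inv_le_log_of_pos (by linarith : 0 < 1 + q)
    have h2 : q - q ^ 2 ≤ 1 - (1 + q)⁻¹ := by
      rw [show 1 - (1 + q)⁻¹ = q / (1 + q) by field_simp; ring, le_div_iff₀ (by linarith)]
      nlinarith [pow_nonneg hq0 3]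
    have := pow_le_pow_left₀ hq0 hqU 2
    linarith
  have eW : exp ((r:ℝ) / m * (lam * N) / 2) * isW (fun i j => (r:ℝ) / m * K i j) b' x
      = exp (∑ i, b' i * spin (x i)) * exp ((r:ℝ) * q) := by
    rw [isW, ← exp_add, ← exp_add, isH]
    congr 1
    have e : ∑ i, ∑ j, (r:ℝ) / m * K i j * spin (x i) * spin (x j)
        = (r:ℝ) / m * ∑ i, ∑ j, K i j * spin (x i) * spin (x j) := by
      simp only [Finset.mul_sum, mul_assoc]
    rw [e, hqd, hQe]; ring
  have hr' : (r:ℝ) * (U / m) ^ 2 ≤ κ0 m := by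
    calc (r:ℝ) * (U / m) ^ 2 ≤ (m:ℝ) * (U / m) ^ 2 := by gcongr
      _ = _ := by simp only [hκ0]; field_simp
  rw [eW]
  refine ⟨?_, ?_⟩
  · rw [mul_left_comm, wgt]
    refine mul_le_mul_of_nonneg_left ?_ (exp_pos _).le
    calc exp (-κ0 m) * exp ((r:ℝ) * q) ≤ exp ((r:ℝ) * (q - (U / m) ^ 2)) := by
          rw [← exp_add]; exact exp_le_exp.mpr (by linarith)
      _ = exp (q - (U / m) ^ 2) ^ r := exp_nat_mul _ _
      _ ≤ _ := pow_le_pow_left₀ (exp_pos _).le hlog r
  · rw [mul_left_comm, wgt]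
    refine mul_le_mul_of_nonneg_left ?_ (exp_pos _).le
    calc stepF u m x ^ r ≤ exp (q + (U / m) ^ 2) ^ r := pow_le_pow_left₀ (stepF_pos u m x).le hhigh r
      _ = exp ((r:ℝ) * (q + (U / m) ^ 2)) := (exp_nat_mul _ _).symm
      _ ≤ _ := by rw [← exp_add]; exact exp_le_exp.mpr (by linarith)

lemma wvar_transfer {W W0 : Conf N → ℝ} (g : Conf N → ℝ) {A B σ γ : ℝ} (hA : 0 < A) (hB : 0 < B)
    (hW0 : ∀ x, 0 < W0 x) (hlo : ∀ x, A * W0 x ≤ W x) (hup : ∀ x, W x ≤ B * W0 x)
    (hγ : 0 < γ) (hσ : 0 ≤ σ) (hv : γ * wvar W0 g ≤ (∑ x, W0 x) ^ 2 * σ) :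
    wvar W g ≤ (B / A) ^ 2 / γ * σ * (∑ x, W x) ^ 2 := by
  set P0 := ∑ x, W0 x with hP0d
  have hP0 : 0 < P0 := sum_pos' hW0
  set μ0 := (∑ x, W0 x * g x) / P0
  have hWpos : ∀ x, 0 ≤ W x := fun x => le_trans (mul_pos hA (hW0 x)).le (hlo x)
  have hl : A * P0 ≤ ∑ x, W x := by rw [hP0d, Finset.mul_sum]; exact Finset.sum_le_sum fun x _ => hlo x
  have hu : ∑ x, W x ≤ B * P0 := by rw [hP0d, Finset.mul_sum]; exact Finset.sum_le_sum fun x _ => hup x
  have hw0 : P0 * ∑ x, W0 x * (g x - μ0) ^ 2 = wvar W0 g := by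
    have e : ∑ x, W0 x * (g x - μ0) ^ 2
        = ∑ x, W0 x * g x ^ 2 - 2 * μ0 * ∑ x, W0 x * g x + μ0 ^ 2 * P0 := by
      rw [hP0d, Finset.mul_sum, Finset.mul_sum, ← Finset.sum_sub_distrib, ← Finset.sum_add_distrib]
      exact Finset.sum_congr rfl fun x _ => by ring
    rw [e, wvar]
    simp only [μ0, ← hP0d]
    field_simp
    ring
  have h1 : wvar W g ≤ B ^ 2 * wvar W0 g := by
    refine (wvar_min hWpos g μ0).trans ?_
    rw [← hw0, show B ^ 2 * (P0 * ∑ x, W0 x * (g x - μ0) ^ 2)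
      = (B * P0) * (B * ∑ x, W0 x * (g x - μ0) ^ 2) by ring]
    refine mul_le_mul hu ?_ (Finset.sum_nonneg fun x _ => mul_nonneg (hWpos x) (sq_nonneg _))
      (by positivity)
    rw [Finset.mul_sum]
    exact Finset.sum_le_sum fun x _ => by
      rw [← mul_assoc]; exact mul_le_mul_of_nonneg_right (hup x) (sq_nonneg _)
  have h2 : (A * P0) ^ 2 ≤ (∑ x, W x) ^ 2 := pow_le_pow_left₀ (by positivity) hl 2
  have h3 : wvar W0 g ≤ P0 ^ 2 * σ / γ := by rw [le_div_iff₀ hγ, mul_comm]; exact hv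
  calc wvar W g ≤ B ^ 2 * (P0 ^ 2 * σ / γ) := h1.trans (mul_le_mul_of_nonneg_left h3 (sq_nonneg _))
    _ = (B / A) ^ 2 / γ * σ * (A * P0) ^ 2 := by field_simp
    _ ≤ _ := mul_le_mul_of_nonneg_left h2 (by positivity)

/-- The entropy inequality for an Ising measure. -/
theorem ising_EI [NeZero N] (K : Fin N → Fin N → ℝ) (b : Fin N → ℝ) (hsym : ∀ i j, K i j = K j i)
    (hdiag : ∀ i, K i i = 0) {lam ρ η γ : ℝ}
    (hq : ∀ y : Fin N → ℝ, |∑ i, ∑ j, K i j * y i * y j| ≤ lam * ∑ i, y i ^ 2)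
    (hρ : ∀ i, ∑ j, K i j ^ 2 ≤ ρ) (hρl : 2 * ρ ≤ lam) (hη : ∀ i j, |K i j| ≤ η)
    (hη1 : η ≤ 1 / 100) (hγ : 0 < γ) (hγe : γ ≤ 1 - lam - gapC * ρ * η) :
    EI (isW K b) (exp (2 * (5 * lam / γ + 1))) := by
  have hN : (0:ℝ) < N := by exact_mod_cast Nat.pos_of_ne_zero (NeZero.ne N)
  have hρ0 : 0 ≤ ρ := le_trans (Finset.sum_nonneg fun j _ => sq_nonneg _) (hρ 0)
  have hη0 : 0 ≤ η := (abs_nonneg _).trans (hη 0 0)
  have hlam0 : 0 ≤ lam := by linarith
  obtain ⟨u, hu⟩ := factor_psd K hsym (lam := lam) fun y => (abs_le.mp (hq y)).1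
  set Q := fun x : Conf N => ∑ l, (∑ i, u l i * spin (x i)) ^ 2
  set U := 1 + (N:ℝ) * ∑ x : Conf N, Q x with hU
  have hQ0 : ∀ x, 0 ≤ Q x := fun x => Finset.sum_nonneg fun l _ => sq_nonneg _
  have hU1 : 1 ≤ U := by
    have : 0 ≤ (N:ℝ) * ∑ x : Conf N, Q x := mul_nonneg hN.le (Finset.sum_nonneg fun x _ => hQ0 x)
    linarith
  have hQe : ∀ x : Conf N, Q x = (∑ i, ∑ j, K i j * spin (x i) * spin (x j)) + lam * N := by
    intro x
    refine (hu fun i => spin (x i)).trans ?_
    congr 1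
    simp [sq, spin_sq]
  have hL : ∀ y : Fin N → ℝ, ∑ l, (∑ i, u l i * y i) ^ 2 ≤ 2 * lam * ∑ i, y i ^ 2 := by
    intro y; rw [hu]; linarith [(abs_le.mp (hq y)).2]
  have hP : ∀ s : ℝ, 0 ≤ s → s ≤ 1 → ∀ (b' v : Fin N → ℝ),
      γ * wvar (isW (fun i j => s * K i j) b') (fun x => ∑ i, v i * spin (x i))
        ≤ (∑ x, isW (fun i j => s * K i j) b' x) ^ 2 * ∑ i, v i ^ 2 := by
    intro s hs0 hs1 b' v
    set Ks := fun i j => s * K i j
    have hs' : ∀ i j, Ks i j = Ks j i := fun i j => by simp [Ks, hsym i j]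
    have hd' : ∀ i, Ks i i = 0 := fun i => by simp [Ks, hdiag]
    refine linear_var Ks b' hγ v (poincare Ks b' hs' hd' hγ fun f => ?_)
    have hB := bochner Ks b' hs' hd' f (s * lam) (s ^ 2 * ρ) η (fun y => ?_) (fun i => ?_) ?_
      (fun i j => ?_) hη1
    · refine le_trans (mul_le_mul_of_nonneg_right ?_ (form_nonneg Ks b' hs' hd' f)) hB
      have h1 : s * lam ≤ lam := mul_le_of_le_one_left hlam0 hs1
      have h2 : gapC * (s ^ 2 * ρ) * η ≤ gapC * ρ * η := by
        refine mul_le_mul_of_nonneg_right (mul_le_mul_of_nonneg_left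
          (mul_le_of_le_one_left hρ0 (pow_le_one₀ hs0 hs1)) ?_) hη0
        unfold gapC; linarith [kerC_spec.1]
      linarith
    · calc ∑ i, ∑ j, Ks i j * y i * y j = s * ∑ i, ∑ j, K i j * y i * y j := by
            simp only [Ks, Finset.mul_sum, mul_assoc]
        _ ≤ _ := by rw [mul_assoc]; exact mul_le_mul_of_nonneg_left (abs_le.mp (hq y)).2 hs0
    · calc ∑ j, Ks i j ^ 2 = s ^ 2 * ∑ j, K i j ^ 2 := by simp only [Ks, mul_pow, Finset.mul_sum]
        _ ≤ _ := mul_le_mul_of_nonneg_left (hρ i) (sq_nonneg _)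
    · calc 2 * (s ^ 2 * ρ) = s * (s * (2 * ρ)) := by ring
        _ ≤ s * (1 * lam) := by gcongr
        _ = _ := by ring
    · simp only [Ks, abs_mul, abs_of_nonneg hs0]
      exact (mul_le_of_le_one_left (abs_nonneg _) hs1).trans (hη i j)
  set Mf := fun m : ℕ => √(U / m) with hMf
  set κ0 := fun m : ℕ => U ^ 2 / m with hκ0
  set c0 := fun m : ℕ => exp (2 * Mf m) * (2 * (1 + Mf m) * (2 * lam) * (exp (4 * κ0 m) / γ)
    + 18 * (1 + Mf m) * (U * Mf m)) with hc0
  have hdiv : ∀ c : ℝ, Tendsto (fun m : ℕ => c / (m:ℝ)) atTop (𝓝 0) := fun c =>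
    tendsto_const_div_atTop_nhds_zero_nat c
  have tM : Tendsto Mf atTop (𝓝 0) := by
    have := (hdiv U).sqrt; rwa [sqrt_zero] at this
  have tκ : Tendsto κ0 atTop (𝓝 0) := hdiv (U ^ 2)
  have tc : Tendsto c0 atTop (𝓝 (4 * lam / γ)) := by
    have h := ((tM.const_mul 2).rexp).mul (((((tM.const_add 1).const_mul 2).mul_const (2 * lam)).mul
      ((tκ.const_mul 4).rexp.div_const γ)).add (((tM.const_add 1).const_mul 18).mul (tM.const_mul U)))
    convert h using 2
    simp; ring
  set B := 5 * lam / γ + 1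
  have hB0 : 0 < B := by positivity
  have hev : ∀ᶠ m : ℕ in atTop, 0 < m ∧ Mf m ≤ 1 ∧ c0 m ≤ B ∧ 2 * B ≤ m ∧ κ0 m ≤ 1 := by
    have h1 : 4 * lam / γ < B := by
      have : 0 ≤ lam / γ := by positivity
      simp only [B]
      rw [mul_div_assoc, mul_div_assoc]
      linarith
    filter_upwards [eventually_gt_atTop 0, tM.eventually (Iic_mem_nhds one_pos),
      tc.eventually (Iic_mem_nhds h1), tendsto_natCast_atTop_atTop.eventually (eventually_ge_atTop (2 * B)),
      tκ.eventually (Iic_mem_nhds one_pos)] with m a b c d e using ⟨a, b, c, d, e⟩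
  have approx : ∀ m : ℕ, 0 < m → Mf m ≤ 1 → ∀ (b' : Fin N → ℝ) (r : ℕ), r ≤ m → ∀ x,
      exp (-κ0 m) * (exp ((r:ℝ) / m * (lam * N) / 2) * isW (fun i j => (r:ℝ) / m * K i j) b' x)
          ≤ wgt u m b' r x
      ∧ wgt u m b' r x
          ≤ exp (κ0 m) * (exp ((r:ℝ) / m * (lam * N) / 2) * isW (fun i j => (r:ℝ) / m * K i j) b' x) := by
    intro m hm hM1 b' r hr x
    refine wgt_approx u K (U := U) rfl hQe hm ?_ b' hr x ?_
    · have : 0 ≤ U / m := by positivity
      calc U / m = Mf m ^ 2 := (sq_sqrt this).symm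
        _ ≤ 1 := pow_le_one₀ (sqrt_nonneg _) hM1
    · have hh : Q x ≤ ∑ y : Conf N, Q y := Finset.single_le_sum (fun y _ => hQ0 y) (mem_univ x)
      have := mul_le_mul_of_nonneg_left hh hN.le
      linarith
  have main : ∀ᶠ m : ℕ in atTop, ∀ f : Conf N → ℝ, (∀ x, 0 < f x) →
      ent (fun x => wgt u m b m x / exp (lam * N / 2)) f
        ≤ exp (2 * B) * eForm (fun x => wgt u m b m x / exp (lam * N / 2)) f (fun x => log (f x)) := by
    filter_upwards [hev] with m hm
    obtain ⟨hm0, hM1, hc, hBm, -⟩ := hm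
    have hmR : (0:ℝ) < m := by exact_mod_cast hm0
    have hM : 0 < Mf m := sqrt_pos.mpr (by positivity)
    have hz : ∀ l x, |zz u m l x| ≤ Mf m := by
      intro l x
      rw [← sqrt_sq (abs_nonneg _)]
      refine sqrt_le_sqrt ?_
      rw [sq_abs, zz, mul_pow, sq_sqrt (by positivity)]
      have h1 : (∑ i, u l i * spin (x i)) ^ 2 ≤ Q x :=
        Finset.single_le_sum (f := fun l => (∑ i, u l i * spin (x i)) ^ 2) (fun l _ => sq_nonneg _) (mem_univ l)
      have h : Q x ≤ ∑ y : Conf N, Q y := Finset.single_le_sum (fun y _ => hQ0 y) (mem_univ x)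
      calc (N:ℝ) / m * (∑ i, u l i * spin (x i)) ^ 2 ≤ (N:ℝ) / m * ∑ y : Conf N, Q y := by
            gcongr; exact h1.trans h
        _ = (N:ℝ) * (∑ y : Conf N, Q y) / m := by ring
        _ ≤ _ := by gcongr; linarith
    have ind : ∀ r, r ≤ m → ∀ b', EI (wgt u m b' r) (exp (2 * (B / m) * r)) := by
      intro r
      induction r with
      | zero =>
        intro _ b'
        have : wgt u m b' 0 = fun x => exp (∑ i, b' i * spin (x i)) := by
          funext x; simp [wgt]
        rw [this, Nat.cast_zero, mul_zero, exp_zero]; exact product_EI b'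
      | succ r ih =>
        intro hr b'
        have hvar : ∀ (b'' v : Fin N → ℝ), wvar (wgt u m b'' (r + 1)) (fun x => ∑ i, v i * spin (x i))
            ≤ exp (4 * κ0 m) / γ * (∑ i, v i ^ 2) * (∑ x, wgt u m b'' (r + 1) x) ^ 2 := by
          intro b'' v
          set s : ℝ := ((r + 1 : ℕ) : ℝ) / m with hsd
          have hs1 : s ≤ 1 := by rw [hsd, div_le_one hmR]; exact_mod_cast hr
          have hap := approx m hm0 hM1 b'' (r + 1) hr
          have hv0 := hP s (by positivity) hs1 b'' v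
          have h := wvar_transfer (W := wgt u m b'' (r + 1)) (fun x => ∑ i, v i * spin (x i))
            (A := exp (-κ0 m) * exp (s * (lam * N) / 2)) (B := exp (κ0 m) * exp (s * (lam * N) / 2))
            (by positivity) (by positivity) (isW_pos (fun i j => s * K i j) b'')
            (fun x => by rw [mul_assoc]; exact (hap x).1) (fun x => by rw [mul_assoc]; exact (hap x).2)
            hγ (Finset.sum_nonneg fun i _ => sq_nonneg _) hv0
          refine h.trans (le_of_eq ?_)
          have : (exp (κ0 m) * exp (s * (lam * N) / 2) / (exp (-κ0 m) * exp (s * (lam * N) / 2))) ^ 2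
              = exp (4 * κ0 m) := by
            rw [← exp_add, ← exp_add, ← exp_sub, ← exp_nat_mul]; congr 1; push_cast; ring
          rw [this]
        have hstep := step_EI (u := u) hm0 hM hM1 hz (σ := exp (4 * κ0 m) / γ) (by positivity)
          (L := 2 * lam) (by linarith) hL b' r hvar (A := exp (2 * (B / m) * r)) (κ := B / m)
          (exp_pos _).le ?_ ?_ (ih (by omega))
        · rw [← exp_add] at hstep
          convert hstep using 2
          push_cast; ring
        · have e3 : Mf m ^ 3 = U / m * Mf m := by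
            rw [show (3:ℕ) = 2 + 1 from rfl, pow_succ, sq_sqrt (show 0 ≤ U / (m:ℝ) by positivity)]
          calc _ = c0 m / m := by simp only [hc0, e3]; ring
            _ ≤ _ := by gcongr
        · rw [div_le_iff₀ hmR]; linarith
    intro f hf
    have h := ind m le_rfl b f hf
    rw [show 2 * (B / m) * m = 2 * B by rw [mul_assoc, div_mul_cancel₀ _ hmR.ne']] at h
    rw [show (fun x => wgt u m b m x / exp (lam * N / 2))
      = fun x => (exp (lam * N / 2))⁻¹ * wgt u m b m x from funext fun x => div_eq_inv_mul _ _,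
      ent_smul (by positivity), eForm_smul (by positivity), mul_left_comm]
    exact mul_le_mul_of_nonneg_left h (by positivity)
  intro f hf
  have tW : ∀ x, Tendsto (fun m => wgt u m b m x / exp (lam * N / 2)) atTop (𝓝 (isW K b x)) := by
    intro x
    have lo : Tendsto (fun m => exp (-κ0 m) * isW K b x) atTop (𝓝 (isW K b x)) := by
      have := tκ.neg.rexp.mul_const (isW K b x); simpa using this
    have hi : Tendsto (fun m => exp (κ0 m) * isW K b x) atTop (𝓝 (isW K b x)) := by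
      have := tκ.rexp.mul_const (isW K b x); simpa using this
    refine tendsto_of_tendsto_of_tendsto_of_le_of_le' lo hi ?_ ?_ <;>
    · filter_upwards [hev] with m hm
      have hmR : (0:ℝ) < m := by exact_mod_cast hm.1
      obtain ⟨a1, a2⟩ := approx m hm.1 hm.2.1 b m le_rfl x
      rw [div_self hmR.ne'] at a1 a2
      simp only [one_mul] at a1 a2
      first
        | (rw [le_div_iff₀ (exp_pos _)]; linarith)
        | (rw [div_le_iff₀ (exp_pos _)]; linarith)
  have hpos : ∀ x, 0 < isW K b x := isW_pos K b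
  have tP : Tendsto (fun m => ∑ x, wgt u m b m x / exp (lam * N / 2)) atTop (𝓝 (∑ x, isW K b x)) :=
    tendsto_finsetSum _ fun x _ => tW x
  have tS : Tendsto (fun m => ∑ x, wgt u m b m x / exp (lam * N / 2) * f x) atTop
      (𝓝 (∑ x, isW K b x * f x)) := tendsto_finsetSum _ fun x _ => (tW x).mul_const _
  have tE : Tendsto (fun m => ent (fun x => wgt u m b m x / exp (lam * N / 2)) f) atTop
      (𝓝 (ent (isW K b) f)) :=
    (tendsto_finsetSum _ fun x _ => ((tW x).mul_const _).mul_const _).sub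
      (tS.mul ((tS.div tP (sum_pos' hpos).ne').log
        (div_pos (sum_pos' fun x => mul_pos (hpos x) (hf x)) (sum_pos' hpos)).ne'))
  have tF : Tendsto (fun m => eForm (fun x => wgt u m b m x / exp (lam * N / 2)) f (fun x => log (f x)))
      atTop (𝓝 (eForm (isW K b) f (fun x => log (f x)))) :=
    (tendsto_finsetSum _ fun i _ => tendsto_finsetSum _ fun x _ =>
      (((tW x).mul (tW (flip1 x i))).div ((tW x).add (tW (flip1 x i)))
        (add_pos (hpos _) (hpos _)).ne').mul_const _).const_mul _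
  exact le_of_tendsto_of_tendsto tE (tF.const_mul _) (main.mono fun m hm => hm f hf)

end Vale.Agent.P150.HT
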