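import Vale.Agent.P150.HT.Jet
import Vale.Agent.P150.Model

/-! A Bochner inequality for heat-bath dynamics of an Ising measure with arbitrary fields. -/

namespace Vale.Agent.P150.HT

open Real Finset

/-- the constant of the two-site inequality -/
noncomputable def kerC : ℝ := Classical.choose kernel_lower

lemma kerC_spec : 0 ≤ kerC ∧ ∀ m l T f1 f2 f3 : ℝ, |m| ≤ 1 → |l| ≤ 1 → |T| ≤ 1 / 100 →
    -(kerC * |T| ^ 3 * ∑ σ, ∑ τ, ((f1 + f3 * sg τ) ^ 2 + (f2 + f3 * sg σ) ^ 2))
      ≤ ∑ σ, ∑ τ, pairKer m l T (sg σ) (sg τ) * ((f1 + f3 * sg τ) * (f2 + f3 * sg σ)) :=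
  Classical.choose_spec kernel_lower

/-- the error constant of the Bochner inequality -/
noncomputable def gapC : ℝ := 2 * (4 * kerC + 4)

variable {N : ℕ} (K : Fin N → Fin N → ℝ) (b : Fin N → ℝ)

/-- exponent -/
noncomputable def isH (x : Conf N) : ℝ :=
  (1 / 2) * ∑ i, ∑ j, K i j * spin (x i) * spin (x j) + ∑ i, b i * spin (x i)

/-- weight -/
noncomputable def isW (x : Conf N) : ℝ := exp (isH K b x)

/-- field -/
noncomputable def fld (x : Conf N) (i : Fin N) : ℝ := ∑ j, K i j * spin (x j) + b i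

/-- mean spin given the others -/
noncomputable def tn (x : Conf N) (i : Fin N) : ℝ := tanh (fld K b x i)

/-- variance given the others -/
noncomputable def vr (x : Conf N) (i : Fin N) : ℝ := 1 - tn K b x i ^ 2

/-- half difference -/
noncomputable def dlt (f : Conf N → ℝ) (x : Conf N) (i : Fin N) : ℝ :=
  (f (Function.update x i true) - f (Function.update x i false)) / 2

/-- minus the generator -/
noncomputable def negL (f : Conf N → ℝ) (x : Conf N) : ℝ :=
  ∑ i, (spin (x i) - tn K b x i) * dlt f x i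

/-- Dirichlet form, unnormalised -/
noncomputable def form (f g : Conf N → ℝ) : ℝ :=
  ∑ x, isW K b x * ∑ i, vr K b x i * (dlt f x i * dlt g x i)

lemma sg_eq_spin (σ : Bool) : sg σ = spin σ := rfl

lemma cosh_sub_one_small {x : ℝ} (hx : |x| ≤ 1) : cosh x - 1 ≤ x ^ 2 := by
  have h0 := cosh_le_exp_half_sq x
  have hx2 : x ^ 2 ≤ 1 := by rw [← sq_abs]; exact pow_le_one₀ (abs_nonneg _) hx
  have h1 := exp_bound_div_one_sub_of_interval (x := x ^ 2 / 2) (by positivity) (by linarith)
  have h2 : 1 / (1 - x ^ 2 / 2) ≤ 1 + x ^ 2 := by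
    rw [div_le_iff₀ (by linarith)]
    nlinarith [mul_le_mul_of_nonneg_left hx2 (sq_nonneg x)]
  linarith

lemma tanh_facts (x : ℝ) : |tanh x| ≤ |x| ∧ (|x| ≤ 1 → |tanh x - x| ≤ |x| ^ 3) := by
  set g : ℝ → ℝ := fun y => y * cosh y - sinh y with hg
  have hmono : Monotone g := by
    refine monotone_of_hasDerivAt_nonneg (f' := fun y => y * sinh y) (fun y => ?_) (fun y => ?_)
    · exact ((hasDerivAt_id y).mul (hasDerivAt_cosh y)).sub (hasDerivAt_sinh y) |>.congr_deriv
        (by simp)
    · rcases le_total 0 y with h | h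
      · exact mul_nonneg h (sinh_nonneg_iff.mpr h)
      · exact mul_nonneg_of_nonpos_of_nonpos h (sinh_nonpos_iff.mpr h)
  have g0 : g 0 = 0 := by simp [hg]
  have hc := cosh_pos x
  have e : x - tanh x = g x / cosh x := by
    rw [tanh_eq_sinh_div_cosh]; simp only [hg]; field_simp
  have h1 := one_le_cosh x
  rcases le_total 0 x with h | h
  · have hgx : 0 ≤ g x := g0 ▸ hmono h
    have ht : 0 ≤ tanh x := by
      rw [tanh_eq_sinh_div_cosh]; exact div_nonneg (sinh_nonneg_iff.mpr h) hc.le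
    have hd : 0 ≤ x - tanh x := e ▸ div_nonneg hgx hc.le
    refine ⟨by rw [abs_of_nonneg ht, abs_of_nonneg h]; linarith, fun hx => ?_⟩
    rw [abs_sub_comm, abs_of_nonneg hd, e, abs_of_nonneg h]
    refine (div_le_self hgx h1).trans ?_
    have h2 := cosh_sub_one_small hx
    have h3 : x ≤ sinh x := self_le_sinh_iff.mpr h
    have := mul_le_mul_of_nonneg_left h2 h
    simp only [hg]; linarith
  · have hgx : g x ≤ 0 := g0 ▸ hmono h
    have ht : tanh x ≤ 0 := by
      rw [tanh_eq_sinh_div_cosh]; exact div_nonpos_of_nonpos_of_nonneg (sinh_nonpos_iff.mpr h) hc.le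
    have hd : x - tanh x ≤ 0 := e ▸ div_nonpos_of_nonpos_of_nonneg hgx hc.le
    refine ⟨by rw [abs_of_nonpos ht, abs_of_nonpos h]; linarith, fun hx => ?_⟩
    rw [abs_sub_comm, abs_of_nonpos hd, e, abs_of_nonpos h, ← neg_div]
    refine (div_le_self (by linarith) h1).trans ?_
    have h2 := cosh_sub_one_small hx
    have h3 : sinh x ≤ x := sinh_le_self_iff.mpr h
    have := mul_le_mul_of_nonpos_left h2 h
    simp only [hg]
    linarith

lemma one_add_tanh_mul (a : ℝ) (σ : Bool) : exp (a * spin σ) = cosh a * (1 + tanh a * spin σ) := by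
  have hc := cosh_pos a
  rw [tanh_eq_sinh_div_cosh]
  cases σ <;> simp only [spin, Bool.false_eq_true, if_false, if_true] <;> field_simp
  · rw [← sub_eq_add_neg, cosh_sub_sinh]
  · rw [cosh_add_sinh]

lemma tanh_shift (a J : ℝ) (σ : Bool) : tanh (a + J * spin σ)
    = (tanh a + spin σ * tanh J) * (1 + tanh a * spin σ * tanh J)⁻¹ := by
  have ha := cosh_pos a
  have hJ := cosh_pos J
  cases σ <;> simp only [spin, Bool.false_eq_true, if_false, if_true, mul_one, one_mul, mul_neg,
    neg_mul]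
  · rw [← sub_eq_add_neg, tanh_eq_sinh_div_cosh, sinh_sub, cosh_sub, tanh_eq_sinh_div_cosh,
      tanh_eq_sinh_div_cosh]
    have h := cosh_pos (a - J); rw [cosh_sub] at h
    field_simp
    ring
  · rw [tanh_eq_sinh_div_cosh, sinh_add, cosh_add, tanh_eq_sinh_div_cosh, tanh_eq_sinh_div_cosh]
    have h := cosh_pos (a + J); rw [cosh_add] at h
    field_simp

lemma tn_abs (x : Conf N) (i : Fin N) : |tn K b x i| < 1 := abs_tanh_lt_one _

lemma vr_pos (x : Conf N) (i : Fin N) : 0 < vr K b x i := by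
  have := tanh_sq_lt_one (fld K b x i); unfold vr tn; linarith

lemma vr_le_one (x : Conf N) (i : Fin N) : vr K b x i ≤ 1 := by
  unfold vr; linarith [sq_nonneg (tn K b x i)]

lemma dlt_update (f : Conf N → ℝ) (x : Conf N) (i : Fin N) (σ : Bool) :
    dlt f (Function.update x i σ) i = dlt f x i := by simp [dlt]

lemma sum_update (i : Fin N) (Φ : Conf N → ℝ) :
    2 * ∑ x, Φ x = ∑ x : Conf N, ∑ σ, Φ (Function.update x i σ) := by
  have h : ∀ x : Conf N, ∑ σ, Φ (Function.update x i σ) = Φ x + Φ (flip1 x i) := by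
    intro x
    have e : Function.update x i (x i) = x := Function.update_eq_self i x
    rw [Fintype.sum_bool]
    unfold flip1
    cases hx : x i <;> rw [hx] at e <;> rw [e] <;> simp [add_comm]
  rw [Finset.sum_congr rfl fun x _ => h x, Finset.sum_add_distrib, sum_flip]
  ring

lemma sum_nonneg_update (i : Fin N) (Φ : Conf N → ℝ)
    (h : ∀ x : Conf N, 0 ≤ ∑ σ, Φ (Function.update x i σ)) : 0 ≤ ∑ x, Φ x := by
  have := Finset.sum_nonneg (fun x (_ : x ∈ (univ : Finset (Conf N))) => h x)
  rw [← sum_update] at this; linarith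

lemma den_pos {T q : ℝ} (σ : Bool) (hq : |q| ≤ 1) (hT : |T| ≤ 1 / 100) :
    |q * spin σ * T| ≤ 1 / 100 ∧ 0 < 1 + q * spin σ * T := by
  have : |q * spin σ * T| ≤ 1 / 100 := by
    rw [abs_mul, abs_mul, abs_spin, mul_one]
    exact (mul_le_of_le_one_left (abs_nonneg _) hq).trans hT
  exact ⟨this, by linarith [neg_abs_le (q * spin σ * T)]⟩

lemma tanh_var {T p : ℝ} (σ : Bool) (hp : |p| ≤ 1) (hT : |T| ≤ 1 / 100) :
    1 - ((p + spin σ * T) * (1 + p * spin σ * T)⁻¹) ^ 2
      = (1 - p ^ 2) * (1 - T ^ 2) * (1 + p * spin σ * T)⁻¹ ^ 2 := by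
  have := (den_pos σ hp hT).2
  field_simp
  cases σ <;> simp only [spin, Bool.false_eq_true, if_false, if_true] <;> ring

lemma tanh_res {T p : ℝ} (σ τ : Bool) (hp : |p| ≤ 1) (hT : |T| ≤ 1 / 100) :
    spin σ - (p + spin τ * T) * (1 + p * spin τ * T)⁻¹
      = (spin σ - p) * (1 - T * (spin σ * spin τ)) * (1 + p * spin τ * T)⁻¹ := by
  have := (den_pos τ hp hT).2
  field_simp
  cases σ <;> cases τ <;> simp only [spin, Bool.false_eq_true, if_false, if_true] <;> ring

lemma split_term (cst C f1 f2 f3 : ℝ) {m l T : ℝ} (hm : |m| ≤ 1) (hl : |l| ≤ 1)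
    (hT : |T| ≤ 1 / 100) (σ τ : Bool) :
    cst * ((1 + m * spin σ) * (1 + l * spin τ) * (1 + T * (spin σ * spin τ))) *
      ((((spin σ - (m + spin τ * T) * (1 + m * spin τ * T)⁻¹) * (f1 + f3 * spin τ))
          * ((spin τ - (l + spin σ * T) * (1 + l * spin σ * T)⁻¹) * (f2 + f3 * spin σ)))
        + T * (((1 - ((m + spin τ * T) * (1 + m * spin τ * T)⁻¹) ^ 2) * (f1 + f3 * spin τ))
          * ((1 - ((l + spin σ * T) * (1 + l * spin σ * T)⁻¹) ^ 2) * (f2 + f3 * spin σ)))
        + 2 * T ^ 2 * (((m + spin τ * T) * (1 + m * spin τ * T)⁻¹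
              * ((1 - ((m + spin τ * T) * (1 + m * spin τ * T)⁻¹) ^ 2) * (f1 + f3 * spin τ)))
            * ((l + spin σ * T) * (1 + l * spin σ * T)⁻¹
              * ((1 - ((l + spin σ * T) * (1 + l * spin σ * T)⁻¹) ^ 2) * (f2 + f3 * spin σ))))
        + 4 * C * |T| ^ 3 * ((1 - ((m + spin τ * T) * (1 + m * spin τ * T)⁻¹) ^ 2) * (f1 + f3 * spin τ) ^ 2
            + (1 - ((l + spin σ * T) * (1 + l * spin σ * T)⁻¹) ^ 2) * (f2 + f3 * spin σ) ^ 2))
      = cst * ((1 - m ^ 2) * (1 - l ^ 2)) * (pairKer m l T (spin σ) (spin τ)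
          * ((f1 + f3 * spin τ) * (f2 + f3 * spin σ)))
        + 4 * C * |T| ^ 3 * cst * ((1 + m * spin σ) * (1 + l * spin τ) * (1 + T * (spin σ * spin τ))
          * ((1 - m ^ 2) * (1 - T ^ 2) * (1 + m * spin τ * T)⁻¹ ^ 2 * (f1 + f3 * spin τ) ^ 2
            + (1 - l ^ 2) * (1 - T ^ 2) * (1 + l * spin σ * T)⁻¹ ^ 2 * (f2 + f3 * spin σ) ^ 2)) := by
  rw [tanh_var τ hm hT, tanh_var σ hl hT, tanh_res σ τ hm hT, tanh_res τ σ hl hT, pairKer, kerA, kerB]
  cases σ <;> cases τ <;> simp only [spin, Bool.false_eq_true, if_false, if_true] <;> ring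

lemma rem_lower {m l T f1 f2 f3 : ℝ} (hm : |m| ≤ 1) (hl : |l| ≤ 1) (hT : |T| ≤ 1 / 100) :
    ((1 - m ^ 2) * (1 - l ^ 2)) * (∑ σ, ∑ τ, ((f1 + f3 * spin τ) ^ 2 + (f2 + f3 * spin σ) ^ 2))
      ≤ 4 * ∑ σ : Bool, ∑ τ : Bool, ((1 + m * spin σ) * (1 + l * spin τ) * (1 + T * (spin σ * spin τ))
          * ((1 - m ^ 2) * (1 - T ^ 2) * (1 + m * spin τ * T)⁻¹ ^ 2 * (f1 + f3 * spin τ) ^ 2
            + (1 - l ^ 2) * (1 - T ^ 2) * (1 + l * spin σ * T)⁻¹ ^ 2 * (f2 + f3 * spin σ) ^ 2)) := by
  have den : ∀ {q : ℝ} (σ : Bool), |q| ≤ 1 → 0 < 1 + q * spin σ * T :=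
    fun σ hq => (den_pos σ hq hT).2
  have hu1 : ∀ (p : ℝ) (τ : Bool), |p| ≤ 1 →
      ((1 + p) * (1 + T * spin τ) + (1 - p) * (1 - T * spin τ)) * (1 + p * spin τ * T)⁻¹ ^ 2
        = 2 * (1 + p * spin τ * T)⁻¹ := by
    intro p τ hp
    have hd := den τ hp
    rw [show (1 + p) * (1 + T * spin τ) + (1 - p) * (1 - T * spin τ) = 2 * (1 + p * spin τ * T) by ring,
      sq, mul_assoc, ← mul_assoc (1 + p * spin τ * T), mul_inv_cancel₀ hd.ne', one_mul]
  have low : ∀ (p q d2 : ℝ) (τ : Bool), |p| ≤ 1 → |q| ≤ 1 → 0 ≤ d2 →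
      (1 - p ^ 2) * (1 - q ^ 2) * (d2 + d2)
        ≤ 4 * ((1 - p ^ 2) * ((1 + q * spin τ) * ((1 - T ^ 2) * (2 * (1 + p * spin τ * T)⁻¹)) * d2)) := by
    intro p q d2 τ hp hq hd
    have hpu : 0 ≤ 1 - p ^ 2 := by
      have := pow_le_one₀ (n := 2) (abs_nonneg p) hp; rw [sq_abs] at this; linarith
    have h1 : 1 ≤ (1 - T ^ 2) * (2 * (1 + p * spin τ * T)⁻¹) := by
      rw [← mul_assoc, ← div_eq_mul_inv, le_div_iff₀ (den τ hp), one_mul]
      have : |p * spin τ * T| ≤ 1 / 100 := by
        rw [abs_mul, abs_mul, abs_spin, mul_one]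
        exact (mul_le_of_le_one_left (abs_nonneg _) hp).trans hT
      have := le_abs_self (p * spin τ * T)
      have : T ^ 2 ≤ (1 / 100) ^ 2 := by
        rw [← sq_abs]; exact pow_le_pow_left₀ (abs_nonneg _) hT 2
      linarith
    have hq' := abs_le.mp hq
    have h2 : 1 - q ^ 2 ≤ 2 * (1 + q * spin τ) := by
      cases τ <;> simp only [spin, Bool.false_eq_true, if_false, if_true] <;>
        nlinarith [sq_nonneg (q - 1), sq_nonneg (q + 1)]
    have h3 : 0 ≤ 1 + q * spin τ := by
      cases τ <;> simp only [spin, Bool.false_eq_true, if_false, if_true] <;> linarith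
    calc (1 - p ^ 2) * (1 - q ^ 2) * (d2 + d2)
        ≤ (1 - p ^ 2) * (2 * (1 + q * spin τ)) * (d2 + d2) := by gcongr
      _ = 4 * ((1 - p ^ 2) * ((1 + q * spin τ) * 1 * d2)) := by ring
      _ ≤ _ := by gcongr
  have a1 := hu1 m true hm; have a2 := hu1 m false hm
  have a3 := hu1 l true hl; have a4 := hu1 l false hl
  have r1 := low m l ((f1 + f3) ^ 2) true hm hl (sq_nonneg _)
  have r2 := low m l ((f1 - f3) ^ 2) false hm hl (sq_nonneg _)
  have r3 := low l m ((f2 + f3) ^ 2) true hl hm (sq_nonneg _)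
  have r4 := low l m ((f2 - f3) ^ 2) false hl hm (sq_nonneg _)
  simp only [Fintype.sum_bool, spin, Bool.false_eq_true, if_false, if_true]
    at a1 a2 a3 a4 r1 r2 r3 r4 ⊢
  rw [← a1] at r1; rw [← a2] at r2; rw [← a3] at r3; rw [← a4] at r4
  linarith

lemma four_point (cst C f1 f2 f3 : ℝ) {m l T : ℝ} (hcst : 0 ≤ cst) (hC : 0 ≤ C) (hm : |m| ≤ 1)
    (hl : |l| ≤ 1) (hT : |T| ≤ 1 / 100)
    (key : -(C * |T| ^ 3 * ∑ σ, ∑ τ, ((f1 + f3 * sg τ) ^ 2 + (f2 + f3 * sg σ) ^ 2))
      ≤ ∑ σ, ∑ τ, pairKer m l T (sg σ) (sg τ) * ((f1 + f3 * sg τ) * (f2 + f3 * sg σ))) :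
    0 ≤ ∑ σ : Bool, ∑ τ : Bool, cst * ((1 + m * spin σ) * (1 + l * spin τ) * (1 + T * (spin σ * spin τ))) *
      ((((spin σ - (m + spin τ * T) * (1 + m * spin τ * T)⁻¹) * (f1 + f3 * spin τ))
          * ((spin τ - (l + spin σ * T) * (1 + l * spin σ * T)⁻¹) * (f2 + f3 * spin σ)))
        + T * (((1 - ((m + spin τ * T) * (1 + m * spin τ * T)⁻¹) ^ 2) * (f1 + f3 * spin τ))
          * ((1 - ((l + spin σ * T) * (1 + l * spin σ * T)⁻¹) ^ 2) * (f2 + f3 * spin σ)))
        + 2 * T ^ 2 * (((m + spin τ * T) * (1 + m * spin τ * T)⁻¹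
              * ((1 - ((m + spin τ * T) * (1 + m * spin τ * T)⁻¹) ^ 2) * (f1 + f3 * spin τ)))
            * ((l + spin σ * T) * (1 + l * spin σ * T)⁻¹
              * ((1 - ((l + spin σ * T) * (1 + l * spin σ * T)⁻¹) ^ 2) * (f2 + f3 * spin σ))))
        + 4 * C * |T| ^ 3 * ((1 - ((m + spin τ * T) * (1 + m * spin τ * T)⁻¹) ^ 2) * (f1 + f3 * spin τ) ^ 2
            + (1 - ((l + spin σ * T) * (1 + l * spin σ * T)⁻¹) ^ 2) * (f2 + f3 * spin σ) ^ 2)) := by
  simp only [sg_eq_spin] at key
  rw [Finset.sum_congr rfl fun σ _ => Finset.sum_congr rfl fun τ _ =>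
    split_term cst C f1 f2 f3 hm hl hT σ τ]
  simp only [Finset.sum_add_distrib, ← Finset.mul_sum]
  have hu : 0 ≤ 1 - m ^ 2 := by
    have := pow_le_one₀ (n := 2) (abs_nonneg m) hm; rw [sq_abs] at this; linarith
  have hw : 0 ≤ 1 - l ^ 2 := by
    have := pow_le_one₀ (n := 2) (abs_nonneg l) hl; rw [sq_abs] at this; linarith
  have h2 := mul_le_mul_of_nonneg_left (rem_lower (f1 := f1) (f2 := f2) (f3 := f3) hm hl hT)
    (by positivity : 0 ≤ C * |T| ^ 3 * cst)
  have h3 := mul_le_mul_of_nonneg_left key (by positivity : 0 ≤ cst * ((1 - m ^ 2) * (1 - l ^ 2)))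
  simp only [Finset.sum_add_distrib, ← Finset.mul_sum] at h2 h3
  linarith

variable (hsym : ∀ i j, K i j = K j i) (hdiag : ∀ i, K i i = 0)
include hsym hdiag

lemma fld_update_self (x : Conf N) (i : Fin N) (σ : Bool) :
    fld K b (Function.update x i σ) i = fld K b x i := by
  unfold fld
  congr 1
  refine Finset.sum_congr rfl fun j _ => ?_
  rcases eq_or_ne j i with h | h
  · subst h; simp [hdiag]
  · rw [Function.update_of_ne h]

lemma fld_update (x : Conf N) {i j : Fin N} (hij : i ≠ j) (τ : Bool) :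
    fld K b (Function.update x j τ) i = fld K b x i + K i j * (spin τ - spin (x j)) := by
  unfold fld
  rw [← Finset.add_sum_erase univ _ (mem_univ j), ← Finset.add_sum_erase univ
    (fun k => K i k * spin (x k)) (mem_univ j), Function.update_self,
    Finset.sum_congr rfl fun k hk => by rw [Function.update_of_ne (Finset.ne_of_mem_erase hk)]]
  ring

lemma isH_update (x : Conf N) (i : Fin N) (σ : Bool) :
    isH K b (Function.update x i σ) = isH K b x + (spin σ - spin (x i)) * fld K b x i := by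
  have key : ∀ (y : Conf N), isH K b y = (1 / 2) * ∑ k, spin (y k) * (fld K b y k + b k) := by
    intro y
    simp only [isH, fld, Finset.mul_sum, ← Finset.sum_add_distrib]
    refine Finset.sum_congr rfl fun k _ => ?_
    rw [add_assoc, mul_add (spin (y k)), mul_add (1 / 2 : ℝ), Finset.mul_sum, Finset.mul_sum]
    refine congrArg₂ (· + ·) ?_ (by ring)
    exact Finset.sum_congr rfl fun l _ => by ring
  rw [key, key, ← Finset.add_sum_erase univ _ (mem_univ i), ← Finset.add_sum_erase univ
    (fun k => spin (x k) * (fld K b x k + b k)) (mem_univ i), Function.update_self,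
    fld_update_self K b hsym hdiag]
  have h : ∀ k ∈ univ.erase i, spin (Function.update x i σ k) * (fld K b (Function.update x i σ) k + b k)
      = spin (x k) * (fld K b x k + b k) + (spin σ - spin (x i)) * (K i k * spin (x k)) := by
    intro k hk
    rw [Function.update_of_ne (Finset.ne_of_mem_erase hk),
      fld_update K b hsym hdiag x (Finset.ne_of_mem_erase hk), hsym k i]
    ring
  rw [Finset.sum_congr rfl h, Finset.sum_add_distrib, ← Finset.mul_sum,
    Finset.sum_erase univ (f := fun k => K i k * spin (x k)) (a := i) (by simp [hdiag])]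
  unfold fld; ring

lemma isW_update (x : Conf N) (i : Fin N) (σ : Bool) : isW K b (Function.update x i σ)
    = isW K b x * exp (-(spin (x i) * fld K b x i)) * exp (fld K b x i * spin σ) := by
  rw [isW, isH_update K b hsym hdiag, isW, ← exp_add, ← exp_add]; ring_nf

lemma perp_inner (g f : Conf N → ℝ) (i : Fin N) :
    ∑ x, isW K b x * (g x * ((spin (x i) - tn K b x i) * dlt f x i))
      = ∑ x, isW K b x * (vr K b x i * (dlt g x i * dlt f x i)) := by
  refine mul_left_cancel₀ (two_ne_zero' ℝ) ?_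
  rw [sum_update i, sum_update i]
  refine Finset.sum_congr rfl fun x _ => ?_
  simp only [isW_update K b hsym hdiag, one_add_tanh_mul, Fintype.sum_bool, tn, vr,
    fld_update_self K b hsym hdiag, dlt_update, Function.update_self]
  simp only [dlt, spin, Function.update_idem, if_true, Bool.false_eq_true, if_false]
  ring

lemma inner_negL (g f : Conf N → ℝ) : ∑ x, isW K b x * (g x * negL K b f x) = form K b g f := by
  simp only [negL, form, Finset.mul_sum]
  rw [Finset.sum_comm]
  conv_rhs => rw [Finset.sum_comm]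
  exact Finset.sum_congr rfl fun i _ => perp_inner K b hsym hdiag g f i

lemma pair_point (f : Conf N → ℝ) (x : Conf N) {i j : Fin N} (hij : i ≠ j) {C : ℝ}
    (hC : 0 ≤ C) (hT : |tanh (K i j)| ≤ 1 / 100)
    (hK : ∀ m l T f1 f2 f3 : ℝ, |m| ≤ 1 → |l| ≤ 1 → |T| ≤ 1 / 100 →
      -(C * |T| ^ 3 * ∑ σ, ∑ τ, ((f1 + f3 * sg τ) ^ 2 + (f2 + f3 * sg σ) ^ 2))
        ≤ ∑ σ, ∑ τ, pairKer m l T (sg σ) (sg τ) * ((f1 + f3 * sg τ) * (f2 + f3 * sg σ))) :
    0 ≤ ∑ σ, ∑ τ, (fun y : Conf N => isW K b y *
      ((((spin (y i) - tn K b y i) * dlt f y i) * ((spin (y j) - tn K b y j) * dlt f y j))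
        + tanh (K i j) * ((vr K b y i * dlt f y i) * (vr K b y j * dlt f y j))
        + 2 * tanh (K i j) ^ 2 * ((tn K b y i * (vr K b y i * dlt f y i))
            * (tn K b y j * (vr K b y j * dlt f y j)))
        + 4 * C * |tanh (K i j)| ^ 3 * (vr K b y i * dlt f y i ^ 2 + vr K b y j * dlt f y j ^ 2)))
      (Function.update (Function.update x i σ) j τ) := by
  set J := K i j with hJ
  set T := tanh J with hTd
  set y := fun σ τ => Function.update (Function.update x i σ) j τ with hy
  set a := fld K b x i - J * spin (x j) with ha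
  set c := fld K b x j - J * spin (x i) with hcdef
  set F := fun σ τ => f (y σ τ) with hF
  set f1 := (F true true + F true false - F false true - F false false) / 4 with hf1
  set f2 := (F true true + F false true - F true false - F false false) / 4 with hf2
  set f3 := (F true true + F false false - F true false - F false true) / 4 with hf3
  set m := tanh a with hm
  set l := tanh c with hl
  have hji : K j i = J := hsym j i
  have hyi : ∀ σ τ, y σ τ i = σ := fun σ τ => by simp [hy, Function.update_of_ne hij]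
  have hyj : ∀ σ τ, y σ τ j = τ := fun σ τ => by simp [hy]
  have hfi : ∀ σ τ, fld K b (y σ τ) i = a + J * spin τ := by
    intro σ τ
    simp only [hy]
    rw [fld_update K b hsym hdiag _ hij, fld_update_self K b hsym hdiag,
      Function.update_of_ne hij.symm, ha, hJ]
    ring
  have hfj : ∀ σ τ, fld K b (y σ τ) j = c + J * spin σ := by
    intro σ τ
    simp only [hy]
    rw [fld_update_self K b hsym hdiag, fld_update K b hsym hdiag _ hij.symm, hcdef, hji]
    ring
  set cst := isW K b x * exp (-(spin (x i) * a + spin (x j) * c + J * (spin (x i) * spin (x j))))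
    * cosh a * cosh c * cosh J with hcst
  have hcst0 : 0 < cst := by rw [hcst, isW]; positivity
  have hW : ∀ σ τ, isW K b (y σ τ)
      = cst * ((1 + m * spin σ) * (1 + l * spin τ) * (1 + T * (spin σ * spin τ))) := by
    intro σ τ
    have e1 : exp (J * (spin σ * spin τ)) = cosh J * (1 + T * (spin σ * spin τ)) := by
      cases σ <;> cases τ <;> simp only [spin, Bool.false_eq_true, if_false, if_true, one_mul,
        mul_one, mul_neg, neg_neg, neg_one_mul]
      · simpa [spin] using one_add_tanh_mul J true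
      · simpa [spin] using one_add_tanh_mul J false
      · simpa [spin] using one_add_tanh_mul J false
      · simpa [spin] using one_add_tanh_mul J true
    rw [hcst, show isW K b x * exp (-(spin (x i) * a + spin (x j) * c + J * (spin (x i) * spin (x j))))
        * cosh a * cosh c * cosh J * ((1 + m * spin σ) * (1 + l * spin τ) * (1 + T * (spin σ * spin τ)))
      = isW K b x * exp (-(spin (x i) * a + spin (x j) * c + J * (spin (x i) * spin (x j))))
        * ((cosh a * (1 + m * spin σ)) * (cosh c * (1 + l * spin τ))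
          * (cosh J * (1 + T * (spin σ * spin τ)))) by ring,
      ← e1, hm, hl, ← one_add_tanh_mul, ← one_add_tanh_mul, ← exp_add, ← exp_add,
      isW, isW, ← exp_add, ← exp_add]
    congr 1
    simp only [hy]
    rw [isH_update K b hsym hdiag, isH_update K b hsym hdiag,
      fld_update K b hsym hdiag x hij.symm, Function.update_of_ne hij.symm, hji, ha, hcdef]
    ring
  have hdi : ∀ σ τ, dlt f (y σ τ) i = f1 + f3 * spin τ := by
    intro σ τ
    simp only [dlt, hy]
    rw [Function.update_comm hij.symm, Function.update_comm hij.symm, Function.update_idem,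
      Function.update_idem]
    cases τ <;> simp only [hf1, hf3, hF, hy, spin, Bool.false_eq_true, if_false, if_true] <;> ring
  have hdj : ∀ σ τ, dlt f (y σ τ) j = f2 + f3 * spin σ := by
    intro σ τ
    simp only [dlt, hy, Function.update_idem]
    cases σ <;> simp only [hf2, hf3, hF, hy, spin, Bool.false_eq_true, if_false, if_true] <;> ring
  have hm1 : |m| ≤ 1 := (abs_tanh_lt_one a).le
  have hl1 : |l| ≤ 1 := (abs_tanh_lt_one c).le
  have key := hK m l T f1 f2 f3 hm1 hl1 hT
  have hu : 0 ≤ 1 - m ^ 2 := by have := tanh_sq_lt_one a; linarith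
  have hw : 0 ≤ 1 - l ^ 2 := by have := tanh_sq_lt_one c; linarith
  have hTb := abs_le.mp hT
  have den : ∀ {q : ℝ} (σ : Bool), |q| ≤ 1 → 0 < 1 + q * spin σ * T := by
    intro q σ hq
    have : |q * spin σ * T| ≤ 1 / 100 := by
      rw [abs_mul, abs_mul, abs_spin, mul_one]
      exact (mul_le_of_le_one_left (abs_nonneg _) hq).trans hT
    linarith [neg_abs_le (q * spin σ * T)]
  simp only [hy] at hfi hfj hdi hdj hyi hyj hW
  simp only [tn, vr, hfi, hfj, hdi, hdj, hyi, hyj, hW, tanh_shift, ← hm, ← hl, ← hTd]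
  exact four_point cst C f1 f2 f3 hcst0.le hC hm1 hl1 hT key

lemma pair_lower (f : Conf N → ℝ) (i j : Fin N) (hij : i ≠ j) (hJ : |K i j| ≤ 1 / 100) :
    -((4 * kerC + 4) * |K i j| ^ 3 * ∑ x, isW K b x * (vr K b x i * dlt f x i ^ 2 + vr K b x j * dlt f x j ^ 2))
      - K i j * ∑ x, isW K b x * ((vr K b x i * dlt f x i) * (vr K b x j * dlt f x j))
      - 2 * K i j ^ 2 * ∑ x, isW K b x * ((tn K b x i * (vr K b x i * dlt f x i))
          * (tn K b x j * (vr K b x j * dlt f x j)))
      ≤ ∑ x, isW K b x * (((spin (x i) - tn K b x i) * dlt f x i)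
          * ((spin (x j) - tn K b x j) * dlt f x j)) := by
  obtain ⟨hC, hK⟩ := kerC_spec
  set C := kerC
  set J := K i j with hJdef
  set T := tanh J with hT
  have hT1 : |T| ≤ |J| := (tanh_facts J).1
  have hTJ : |T - J| ≤ |J| ^ 3 := (tanh_facts J).2 (by linarith)
  have hT100 : |T| ≤ 1 / 100 := hT1.trans hJ
  set P := fun x : Conf N => isW K b x *
    ((((spin (x i) - tn K b x i) * dlt f x i) * ((spin (x j) - tn K b x j) * dlt f x j))
      + T * ((vr K b x i * dlt f x i) * (vr K b x j * dlt f x j))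
      + 2 * T ^ 2 * ((tn K b x i * (vr K b x i * dlt f x i)) * (tn K b x j * (vr K b x j * dlt f x j)))
      + 4 * C * |T| ^ 3 * (vr K b x i * dlt f x i ^ 2 + vr K b x j * dlt f x j ^ 2)) with hP
  have h0 : 0 ≤ ∑ x, P x := by
    suffices h : 0 ≤ ∑ x : Conf N, ∑ τ, P (Function.update x j τ) by
      rw [← sum_update] at h; linarith
    refine sum_nonneg_update i (fun x : Conf N => ∑ τ, P (Function.update x j τ)) fun x => ?_
    exact pair_point K b hsym hdiag f x hij hC hT100 hK
  have hW : ∀ x : Conf N, 0 ≤ isW K b x := fun x => (exp_pos _).le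
  set A := ∑ x, isW K b x * (((spin (x i) - tn K b x i) * dlt f x i)
      * ((spin (x j) - tn K b x j) * dlt f x j)) with hA
  set V := ∑ x, isW K b x * ((vr K b x i * dlt f x i) * (vr K b x j * dlt f x j)) with hV
  set Q := ∑ x, isW K b x * ((tn K b x i * (vr K b x i * dlt f x i))
      * (tn K b x j * (vr K b x j * dlt f x j))) with hQ
  set R := ∑ x, isW K b x * (vr K b x i * dlt f x i ^ 2 + vr K b x j * dlt f x j ^ 2) with hR
  have hP' : ∑ x, P x = A + T * V + 2 * T ^ 2 * Q + 4 * C * |T| ^ 3 * R := by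
    simp only [hP, hA, hV, hQ, hR, Finset.mul_sum, ← Finset.sum_add_distrib]
    exact Finset.sum_congr rfl fun x _ => by ring
  rw [hP'] at h0
  have sm : ∀ x : Conf N, ∀ d e : ℝ, |(vr K b x i * d) * (vr K b x j * e)|
      ≤ (vr K b x i * d ^ 2 + vr K b x j * e ^ 2) / 2 := by
    intro x d e
    have h1 := vr_pos K b x i; have h2 := vr_pos K b x j
    have h3 := vr_le_one K b x i; have h4 := vr_le_one K b x j
    rw [abs_mul]
    have a1 : |vr K b x i * d| ^ 2 ≤ vr K b x i * d ^ 2 := by
      rw [sq_abs, mul_pow, sq (vr K b x i)]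
      exact mul_le_mul_of_nonneg_right (mul_le_of_le_one_left h1.le h3) (sq_nonneg d)
    have a2 : |vr K b x j * e| ^ 2 ≤ vr K b x j * e ^ 2 := by
      rw [sq_abs, mul_pow, sq (vr K b x j)]
      exact mul_le_mul_of_nonneg_right (mul_le_of_le_one_left h2.le h4) (sq_nonneg e)
    linarith [two_mul_le_add_sq |vr K b x i * d| |vr K b x j * e|]
  have hVR : |V| ≤ R / 2 := by
    refine (abs_sum_le_sum_abs _ _).trans ?_
    rw [hR, Finset.sum_div]
    refine Finset.sum_le_sum fun x _ => ?_
    rw [abs_mul, abs_of_nonneg (hW x), mul_div_assoc]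
    exact mul_le_mul_of_nonneg_left (sm x _ _) (hW x)
  have hQR : |Q| ≤ R / 2 := by
    refine (abs_sum_le_sum_abs _ _).trans ?_
    rw [hR, Finset.sum_div]
    refine Finset.sum_le_sum fun x _ => ?_
    rw [abs_mul, abs_of_nonneg (hW x), mul_div_assoc]
    refine mul_le_mul_of_nonneg_left ?_ (hW x)
    rw [show tn K b x i * (vr K b x i * dlt f x i) * (tn K b x j * (vr K b x j * dlt f x j))
      = (tn K b x i * tn K b x j) * ((vr K b x i * dlt f x i) * (vr K b x j * dlt f x j)) by ring,
      abs_mul]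
    refine (mul_le_of_le_one_left (abs_nonneg _) ?_).trans (sm x _ _)
    rw [abs_mul]; exact mul_le_one₀ (tn_abs K b x i).le (abs_nonneg _) (tn_abs K b x j).le
  have hR0 : 0 ≤ R := le_trans (by positivity) (show 2 * |V| ≤ R by linarith)
  have q1 : |(T - J) * V| ≤ |J| ^ 3 * (R / 2) := by
    rw [abs_mul]; exact mul_le_mul hTJ hVR (abs_nonneg _) (by positivity)
  have q2 : |(2 * (T ^ 2 - J ^ 2)) * Q| ≤ |J| ^ 3 * (R / 2) := by
    rw [abs_mul]
    refine mul_le_mul ?_ hQR (abs_nonneg _) (by positivity)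
    rw [abs_mul, show T ^ 2 - J ^ 2 = (T - J) * (T + J) by ring, abs_mul, abs_two]
    calc 2 * (|T - J| * |T + J|) ≤ 2 * (|J| ^ 3 * (1 / 50)) := by
          gcongr
          have := abs_add_le T J; linarith
      _ ≤ _ := by linarith [pow_nonneg (abs_nonneg J) 3]
  have q3 : 4 * C * |T| ^ 3 * R ≤ 4 * C * |J| ^ 3 * R := by gcongr
  have := abs_le.mp q1
  have := abs_le.mp q2
  have : 0 ≤ |J| ^ 3 * R := by positivity
  linarith

/-- The Bochner inequality. -/
theorem bochner (f : Conf N → ℝ) (lam ρ η : ℝ)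
    (hlam : ∀ u : Fin N → ℝ, ∑ i, ∑ j, K i j * u i * u j ≤ lam * ∑ i, u i ^ 2)
    (hρ : ∀ i, ∑ j, K i j ^ 2 ≤ ρ) (hρl : 2 * ρ ≤ lam) (hη : ∀ i j, |K i j| ≤ η)
    (hη1 : η ≤ 1 / 100) :
    (1 - lam - gapC * ρ * η) * form K b f f ≤ ∑ x, isW K b x * negL K b f x ^ 2 := by
  have hp := pair_lower K b hsym hdiag
  set C := 4 * kerC + 4 with hCd
  have hC : 0 ≤ C := by have := kerC_spec.1; linarith
  rw [show gapC = 2 * C from rfl]
  set qp := fun x i => (spin (x i) - tn K b x i) * dlt f x i with hqp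
  set a := fun x i => vr K b x i * dlt f x i with ha
  set e := fun x i => vr K b x i * dlt f x i ^ 2 with he
  set c := fun x i => tn K b x i * (vr K b x i * dlt f x i) with hc
  set J := fun i j => |K i j| ^ 3
  have hW : ∀ x : Conf N, 0 ≤ isW K b x := fun x => (exp_pos _).le
  have he0 : ∀ x i, 0 ≤ e x i := fun x i => mul_nonneg (vr_pos K b x i).le (sq_nonneg _)
  have key : ∀ i j : Fin N,
      (if i = j then ∑ x, isW K b x * e x i else 0)
        - C * (J i j * ∑ x, isW K b x * (e x i + e x j))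
        - K i j * ∑ x, isW K b x * (a x i * a x j)
        - 2 * (K i j ^ 2 * ∑ x, isW K b x * (c x i * c x j))
      ≤ ∑ x, isW K b x * (qp x i * qp x j) := by
    intro i j
    by_cases hij : i = j
    · subst hij
      simp only [J, hdiag, abs_zero, ne_eq, OfNat.ofNat_ne_zero, not_false_eq_true, zero_pow,
        zero_mul, mul_zero, sub_zero, if_true]
      refine le_of_eq ?_
      have h := perp_inner K b hsym hdiag (fun x => qp x i) f i
      have hd : ∀ x, dlt (fun y => qp y i) x i = dlt f x i := by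
        intro x
        simp only [dlt, hqp, Function.update_self, Function.update_idem, tn,
          fld_update_self K b hsym hdiag, spin, Bool.false_eq_true, if_false, if_true]
        ring
      simp only [hd] at h
      refine Eq.trans ?_ h.symm
      exact Finset.sum_congr rfl fun x _ => by simp only [he]; ring
    · rw [if_neg hij]
      have := hp f i j hij ((hη i j).trans hη1)
      simp only [hqp, ha, he, hc, J]
      linarith
  have hsum := Finset.sum_le_sum (s := univ) fun i (_ : i ∈ univ) =>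
    Finset.sum_le_sum (s := univ) fun j (_ : j ∈ univ) => key i j
  have hR : ∑ i, ∑ j, ∑ x, isW K b x * (qp x i * qp x j)
      = ∑ x, isW K b x * negL K b f x ^ 2 := by
    conv_lhs => enter [2, i]; rw [Finset.sum_comm]
    rw [Finset.sum_comm]
    refine Finset.sum_congr rfl fun x _ => ?_
    rw [negL, sq, Finset.sum_mul_sum]
    simp only [Finset.mul_sum, hqp]
  rw [hR] at hsum
  refine le_trans ?_ hsum
  have hL : ∀ x : Conf N, (1 - lam - 2 * C * ρ * η) * ∑ i, e x i
      ≤ ∑ i, ∑ j, ((if i = j then e x i else 0) - C * (J i j * (e x i + e x j))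
        - K i j * (a x i * a x j) - 2 * (K i j ^ 2 * (c x i * c x j))) := by
    intro x
    simp only [Finset.sum_sub_distrib, Finset.sum_ite_eq, Finset.mem_univ, if_true, ← Finset.mul_sum]
    have s3 : ∑ i, ∑ j, J i j * (e x i + e x j) ≤ 2 * (ρ * η) * ∑ i, e x i := by
      have h1 : ∀ i, ∑ j, J i j ≤ ρ * η := by
        intro i
        calc ∑ j, J i j ≤ ∑ j, K i j ^ 2 * η := Finset.sum_le_sum fun j _ => by
              simp only [J]
              rw [pow_succ, sq_abs]
              exact mul_le_mul_of_nonneg_left (hη i j) (sq_nonneg _)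
          _ ≤ ρ * η := by
              rw [← Finset.sum_mul]
              exact mul_le_mul_of_nonneg_right (hρ i) ((abs_nonneg _).trans (hη i i))
      have h2 : ∑ i, ∑ j, J i j * e x j = ∑ i, ∑ j, J i j * e x i := by
        rw [Finset.sum_comm]; simp only [J, fun i j => hsym i j]
      simp only [mul_add, Finset.sum_add_distrib]
      rw [h2, ← two_mul, mul_assoc]
      refine mul_le_mul_of_nonneg_left ?_ zero_le_two
      rw [Finset.mul_sum]
      exact Finset.sum_le_sum fun i _ => by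
        rw [← Finset.sum_mul]; exact mul_le_mul_of_nonneg_right (h1 i) (he0 x i)
    have s1 : ∑ i, ∑ j, K i j * (a x i * a x j) ≤ lam * ∑ i, a x i ^ 2 := by
      simpa only [mul_assoc] using hlam (a x)
    have s2 : ∑ i, ∑ j, K i j ^ 2 * (c x i * c x j) ≤ ρ * ∑ i, c x i ^ 2 := by
      calc ∑ i, ∑ j, K i j ^ 2 * (c x i * c x j)
          ≤ ∑ i, ∑ j, (K i j ^ 2 * c x i ^ 2 / 2 + K i j ^ 2 * c x j ^ 2 / 2) :=
            Finset.sum_le_sum fun i _ => Finset.sum_le_sum fun j _ => by
              linarith [mul_le_mul_of_nonneg_left (two_mul_le_add_sq (c x i) (c x j)) (sq_nonneg (K i j))]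
        _ = ∑ i, ∑ j, K i j ^ 2 * c x i ^ 2 := by
            simp only [Finset.sum_add_distrib]
            have : ∑ i, ∑ j, K i j ^ 2 * c x j ^ 2 / 2 = ∑ i, ∑ j, K i j ^ 2 * c x i ^ 2 / 2 := by
              rw [Finset.sum_comm]; simp only [fun i j => hsym i j]
            rw [this, ← Finset.sum_add_distrib]
            exact Finset.sum_congr rfl fun i _ => by
              rw [← Finset.sum_add_distrib]; exact Finset.sum_congr rfl fun j _ => by ring
        _ ≤ _ := by
            rw [Finset.mul_sum]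
            exact Finset.sum_le_sum fun i _ => by
              rw [← Finset.sum_mul]; exact mul_le_mul_of_nonneg_right (hρ i) (sq_nonneg _)
    have s4 : lam * ∑ i, a x i ^ 2 + 2 * (ρ * ∑ i, c x i ^ 2) ≤ lam * ∑ i, e x i := by
      simp only [Finset.mul_sum, ← Finset.sum_add_distrib]
      refine Finset.sum_le_sum fun i _ => ?_
      simp only [ha, hc, he]
      have hv := vr_pos K b x i
      have e1 : vr K b x i * lam + 2 * ρ * (vr K b x i * tn K b x i ^ 2) ≤ lam := by
        have h1 := mul_le_mul_of_nonneg_right hρl (mul_nonneg hv.le (sq_nonneg (tn K b x i)))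
        have h2 : lam * (vr K b x i * tn K b x i ^ 2) ≤ lam * tn K b x i ^ 2 := by
          refine mul_le_mul_of_nonneg_left (mul_le_of_le_one_left (sq_nonneg _) (vr_le_one K b x i)) ?_
          have := hρ i
          have : 0 ≤ ∑ j, K i j ^ 2 := Finset.sum_nonneg fun j _ => sq_nonneg _
          linarith
        have h3 : vr K b x i * lam + lam * tn K b x i ^ 2 = lam := by unfold vr; ring
        linarith
      have := mul_le_mul_of_nonneg_right e1 (mul_nonneg hv.le (sq_nonneg (dlt f x i)))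
      linarith
    have := mul_le_mul_of_nonneg_left s3 hC
    linarith
  have hF : form K b f f = ∑ x, isW K b x * ∑ i, e x i := by
    simp only [form, he, sq]
  rw [hF, Finset.mul_sum]
  calc ∑ x, (1 - lam - 2 * C * ρ * η) * (isW K b x * ∑ i, e x i)
      ≤ ∑ x, isW K b x * (∑ i, ∑ j, ((if i = j then e x i else 0) - C * (J i j * (e x i + e x j))
        - K i j * (a x i * a x j) - 2 * (K i j ^ 2 * (c x i * c x j)))) :=
        Finset.sum_le_sum fun x _ => by
          rw [mul_left_comm]; exact mul_le_mul_of_nonneg_left (hL x) (hW x)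
    _ = _ := by
        simp only [Finset.mul_sum]
        rw [Finset.sum_comm]
        refine Finset.sum_congr rfl fun i _ => ?_
        rw [Finset.sum_comm]
        refine Finset.sum_congr rfl fun j _ => ?_
        simp only [mul_sub, Finset.sum_sub_distrib]
        by_cases h : i = j <;> simp only [h, if_true, if_false, mul_zero, Finset.sum_const_zero,
          mul_left_comm (isW K b _)]

end Vale.Agent.P150.HT
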