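import Vale.Agent.P150.HT.Gap

/-! The one-step gradient inequality of the heat-bath generator, valid at every temperature. -/

namespace Vale.Agent.P150.HT

open Real Finset

variable {N : ℕ} (K : Fin N → Fin N → ℝ)

/-- squared discrete gradient -/
noncomputable def grad2 (f : Conf N → ℝ) (x : Conf N) : ℝ := ∑ i, dlt f x i ^ 2

lemma dlt_mul (A B : Conf N → ℝ) (x : Conf N) (i : Fin N) :
    dlt (fun y => A y * B y) x i
      = dlt A x i * B x + A x * dlt B x i - 2 * spin (x i) * (dlt A x i * dlt B x i) := by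
  have e : Function.update x i (x i) = x := Function.update_eq_self i x
  unfold dlt
  cases hx : x i <;> rw [hx] at e <;>
    simp only [spin, Bool.false_eq_true, if_false, if_true] <;> rw [e] <;> ring

lemma dlt_sum {α : Type*} (s : Finset α) (A : α → Conf N → ℝ) (x : Conf N) (i : Fin N) :
    dlt (fun y => ∑ a ∈ s, A a y) x i = ∑ a ∈ s, dlt (A a) x i := by
  simp [dlt, ← Finset.sum_sub_distrib, Finset.sum_div]

lemma dlt_spin (x : Conf N) (i j : Fin N) :
    dlt (fun y => spin (y j)) x i = if i = j then 1 else 0 := by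
  unfold dlt
  split_ifs with h
  · subst h; simp [spin]
  · simp [Function.update_of_ne (Ne.symm h)]

lemma dlt_comm (f : Conf N → ℝ) (x : Conf N) {i j : Fin N} (h : i ≠ j) :
    dlt (fun y => dlt f y j) x i = dlt (fun y => dlt f y i) x j := by
  unfold dlt
  simp only [Function.update_comm h]
  ring

lemma dlt_self (f : Conf N → ℝ) (x : Conf N) (i : Fin N) :
    dlt (fun y => dlt f y i) x i = 0 := by simp [dlt]

variable (hsym : ∀ i j, K i j = K j i) (hdiag : ∀ i, K i i = 0)
include hsym hdiag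

/-- The derivative of a conditional mean is `K i j` times the conditional variance, up to
second order. -/
lemma dlt_tn (x : Conf N) {i j : Fin N} (hij : i ≠ j) (hJ : |K i j| ≤ 1 / 100) :
    |dlt (fun y => tn K 0 y j) x i - K i j * vr K 0 x j| ≤ 4 * K i j ^ 2 * vr K 0 x j := by
  set J := K i j with hJd
  set a := fld K 0 x j - J * spin (x i) with ha
  have hf : ∀ σ, fld K 0 (Function.update x i σ) j = a + J * spin σ := by
    intro σ
    rw [fld_update K 0 hsym hdiag x hij.symm σ, ha, hsym j i]; ring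
  have hfx : fld K 0 x j = a + J * spin (x i) := by rw [ha]; ring
  set m := tanh a with hm
  set T := tanh J with hT
  have hTJ := tanh_facts J
  have hT1 : |T| ≤ |J| := hTJ.1
  have hT3 : |T - J| ≤ |J| ^ 3 := hTJ.2 (by linarith)
  have hT100 : |T| ≤ 1 / 100 := hT1.trans hJ
  have hm1 : |m| ≤ 1 := (abs_tanh_lt_one a).le
  set s := spin (x i) with hs
  have hss : s * s = 1 := spin_sq _
  set w := m * s * T with hw
  have hw1 : |w| ≤ |T| := by
    rw [hw, abs_mul, abs_mul, hs, abs_spin, mul_one]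
    exact mul_le_of_le_one_left (abs_nonneg _) hm1
  obtain ⟨hw2, hw3⟩ := abs_le.mp (hw1.trans hT100)
  have hv : vr K 0 x j = (1 - m ^ 2) * (1 - T ^ 2) * (1 + w)⁻¹ ^ 2 := by
    simp only [vr, tn, hfx]
    rw [tanh_shift, ← hm, ← hT, tanh_var _ hm1 hT100]
  have hd : dlt (fun y => tn K 0 y j) x i
      = T * (1 - m ^ 2) * ((1 + w) * (1 - w))⁻¹ := by
    simp only [dlt, tn, hf, tanh_shift, ← hm, ← hT]
    have h1 : (1 + w) * (1 - w) = (1 + m * T) * (1 - m * T) := by
      rw [hw]; linear_combination (-(m ^ 2 * T ^ 2)) * hss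
    have b1 := (den_pos true hm1 hT100).2
    have b2 := (den_pos false hm1 hT100).2
    simp only [spin, Bool.false_eq_true, if_false, if_true, mul_one, one_mul, mul_neg, neg_mul] at b1 b2 ⊢
    have b3 : 1 - m * T ≠ 0 := by linarith
    rw [h1]
    field_simp
    ring
  have hT2 : T ^ 2 ≤ (1 / 100) * |T| := by
    rw [← sq_abs T, sq]; exact mul_le_mul_of_nonneg_right hT100 (abs_nonneg _)
  have hTsq : (0:ℝ) < 1 - T ^ 2 := by linarith
  set κ := (1 + w) / ((1 - w) * (1 - T ^ 2)) with hκ
  have hp1 : 0 < 1 + w := by linarith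
  have hp2 : 0 < 1 - w := by linarith
  have hdv : dlt (fun y => tn K 0 y j) x i = T * κ * vr K 0 x j := by
    rw [hd, hv, hκ]; field_simp
  have hκ1 : |κ - 1| ≤ 3 * |T| := by
    have e : κ - 1 = (2 * w + T ^ 2 * (1 - w)) / ((1 - w) * (1 - T ^ 2)) := by
      rw [hκ]; field_simp; ring
    rw [e, abs_div, abs_of_pos (mul_pos hp2 hTsq), div_le_iff₀ (mul_pos hp2 hTsq)]
    have h1 : 0.98 ≤ (1 - w) * (1 - T ^ 2) := by
      nlinarith [abs_nonneg T, mul_le_mul_of_nonneg_left hT100 (abs_nonneg T)]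
    have h2 : |2 * w + T ^ 2 * (1 - w)| ≤ 2 * |T| + (1 / 100) * |T| * 2 := by
      refine (abs_add_le _ _).trans (add_le_add ?_ ?_)
      · rw [abs_mul, abs_two]; linarith
      · rw [abs_mul, abs_of_nonneg (sq_nonneg T), abs_of_pos hp2]
        exact mul_le_mul hT2 (by linarith) hp2.le (by positivity)
    nlinarith [abs_nonneg T]
  rw [hdv, ← sub_mul, abs_mul, abs_of_pos (vr_pos K 0 x j)]
  refine mul_le_mul_of_nonneg_right ?_ (vr_pos K 0 x j).le
  calc |T * κ - J| = |(T - J) + T * (κ - 1)| := by ring_nf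
    _ ≤ |J| ^ 3 + |T| * (3 * |T|) := (abs_add_le _ _).trans (add_le_add hT3 (by
        rw [abs_mul]; exact mul_le_mul_of_nonneg_left hκ1 (abs_nonneg _)))
    _ ≤ 4 * J ^ 2 := by
        rw [← sq_abs J]
        have h1 : |J| ^ 3 ≤ |J| ^ 2 := by
          rw [pow_succ]; exact mul_le_of_le_one_right (sq_nonneg _) (by linarith)
        have h2 := mul_le_mul hT1 hT1 (abs_nonneg _) (abs_nonneg _)
        nlinarith

/-- Evolution of the gradient along the semigroup. -/
theorem grad_step (f : Conf N → ℝ) (x : Conf N) {a ρ : ℝ}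
    (hq : ∀ y : Fin N → ℝ, |∑ i, ∑ j, K i j * y i * y j| ≤ a * ∑ i, y i ^ 2)
    (hρ : ∀ i, ∑ j, K i j ^ 2 ≤ ρ) (hK : ∀ i j, |K i j| ≤ 1 / 100) :
    -(2 * (a + 8 * ρ) * grad2 f x)
      ≤ 2 * ∑ i, dlt f x i * dlt (negL K 0 f) x i - negL K 0 (grad2 f) x := by
  set F := fun i => dlt f x i with hF
  set s := fun i => spin (x i) with hs
  set t := fun i => tn K 0 x i with ht
  set H := fun i j => dlt (fun y => dlt f y j) x i with hH
  set δ := fun i j => dlt (fun y => tn K 0 y j) x i with hδ
  have hδ0 : ∀ i, δ i i = 0 := fun i => by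
    simp [hδ, dlt, tn, fld_update_self K 0 hsym hdiag]
  have hH0 : ∀ i, H i i = 0 := fun i => dlt_self f x i
  have hHs : ∀ i j, H i j = H j i := fun i j => by
    by_cases h : i = j
    · rw [h]
    · exact dlt_comm f x h
  have hL : ∀ i, dlt (negL K 0 f) x i
      = F i + ∑ j, ((s j - t j) * H i j - δ i j * F j + 2 * s i * (δ i j * H i j)) := by
    intro i
    have e : ∀ j, dlt (fun y => (spin (y j) - tn K 0 y j) * dlt f y j) x i
        = (if i = j then F j else 0)
          + ((s j - t j) * H i j - δ i j * F j + 2 * s i * (δ i j * H i j)) := by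
      intro j
      rw [dlt_mul]
      have e1 : dlt (fun y => spin (y j) - tn K 0 y j) x i = (if i = j then 1 else 0) - δ i j := by
        rw [← dlt_spin x i j]; simp only [hδ, dlt]; ring
      rw [e1]
      by_cases h : i = j
      · subst h
        simp only [if_true, hδ0, hH0, sub_zero, mul_zero, zero_mul, add_zero]
        change 1 * F i + (s i - t i) * H i i - 2 * s i * (1 * H i i) = _
        rw [hH0]; ring
      · simp only [if_neg h]
        change (0 - δ i j) * F j + (s j - t j) * H i j - 2 * s i * ((0 - δ i j) * H i j) = _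
        ring
    change dlt (fun y => ∑ j, (spin (y j) - tn K 0 y j) * dlt f y j) x i = _
    rw [dlt_sum, Finset.sum_congr rfl fun j _ => e j, Finset.sum_add_distrib,
      Finset.sum_ite_eq]
    simp
  have hG : negL K 0 (grad2 f) x = ∑ j, ∑ i, (s j - t j) * (2 * F i * H i j - 2 * s j * H i j ^ 2) := by
    unfold negL
    refine Finset.sum_congr rfl fun j _ => ?_
    rw [← Finset.mul_sum]
    congr 1
    unfold grad2
    simp only [sq]
    rw [dlt_sum]
    refine Finset.sum_congr rfl fun i _ => ?_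
    rw [dlt_mul]
    change H j i * F i + F i * H j i - 2 * s j * (H j i * H j i) = _
    rw [hHs j i]; ring
  have hmain : 2 * ∑ i, F i * dlt (negL K 0 f) x i - negL K 0 (grad2 f) x
      = 2 * ∑ i, F i ^ 2 - 2 * ∑ i, ∑ j, F i * (δ i j * F j)
        + ∑ i, ∑ j, (4 * (s i * F i * δ i j * H i j) + 2 * (1 - s j * t j) * H i j ^ 2) := by
    rw [hG, Finset.sum_comm (f := fun j i => (s j - t j) * (2 * F i * H i j - 2 * s j * H i j ^ 2))]
    have e0 : 2 * ∑ i, F i * dlt (negL K 0 f) x i = 2 * ∑ i, F i ^ 2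
        + ∑ i, ∑ j, 2 * (F i * ((s j - t j) * H i j - δ i j * F j + 2 * s i * (δ i j * H i j))) := by
      rw [Finset.mul_sum, Finset.mul_sum, ← Finset.sum_add_distrib]
      refine Finset.sum_congr rfl fun i _ => ?_
      rw [hL, mul_add, mul_add, Finset.mul_sum, Finset.mul_sum, sq]
    rw [e0, add_sub_assoc, ← Finset.sum_sub_distrib, sub_add, sub_eq_add_neg (2 * ∑ i, F i ^ 2)]
    congr 1
    simp only [← Finset.sum_sub_distrib, Finset.mul_sum, ← Finset.sum_neg_distrib]
    refine Finset.sum_congr rfl fun i _ => Finset.sum_congr rfl fun j _ => ?_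
    have hh : s j * s j = 1 := spin_sq _
    linear_combination (2 * H i j ^ 2) * hh
  have hF2 : ∑ i, F i ^ 2 = grad2 f x := rfl
  have hG0 : 0 ≤ grad2 f x := Finset.sum_nonneg fun i _ => sq_nonneg _
  have hd : ∀ i j, |δ i j - K i j * vr K 0 x j| ≤ 4 * K i j ^ 2 * vr K 0 x j := by
    intro i j
    by_cases h : i = j
    · subst h; simp [hδ0, hdiag]
    · exact dlt_tn K hsym hdiag x h (hK i j)
  -- the second-order terms
  have hsq : ∀ i j, -(8 * K i j ^ 2 * F i ^ 2)
      ≤ 4 * (s i * F i * δ i j * H i j) + 2 * (1 - s j * t j) * H i j ^ 2 := by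
    intro i j
    obtain ⟨ht1, ht2⟩ := abs_lt.mp (tn_abs K 0 x j)
    have hv0 := vr_pos K 0 x j
    have hv1 := vr_le_one K 0 x j
    have hq0 : 0 < 1 - s j * t j := by
      simp only [hs, ht]
      cases x j <;> simp only [spin, Bool.false_eq_true, if_false, if_true] <;> linarith
    have hvq : vr K 0 x j ≤ 2 * (1 - s j * t j) := by
      simp only [hs, ht, vr]
      cases x j <;> simp only [spin, Bool.false_eq_true, if_false, if_true] <;>
        nlinarith [sq_nonneg (tn K 0 x j - 1), sq_nonneg (tn K 0 x j + 1)]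
    have hdab : |δ i j| ≤ 1.04 * |K i j| * vr K 0 x j := by
      have h1 := abs_sub_abs_le_abs_sub (δ i j) (K i j * vr K 0 x j)
      rw [abs_mul, abs_of_pos hv0] at h1
      have h2 : K i j ^ 2 ≤ (1 / 100) * |K i j| := by
        rw [← sq_abs, sq]; exact mul_le_mul_of_nonneg_right (hK i j) (abs_nonneg _)
      nlinarith [hd i j, mul_le_mul_of_nonneg_right h2 hv0.le]
    have hd2 : δ i j ^ 2 ≤ 4 * K i j ^ 2 * (1 - s j * t j) := by
      have h1 := pow_le_pow_left₀ (abs_nonneg _) hdab 2
      rw [sq_abs, mul_pow, mul_pow, sq_abs] at h1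
      have h2 : vr K 0 x j ^ 2 ≤ 2 * (1 - s j * t j) := by nlinarith
      nlinarith [mul_le_mul_of_nonneg_left h2 (sq_nonneg (K i j))]
    have hs2 : s i * s i = 1 := spin_sq _
    refine le_of_mul_le_mul_left ?_ hq0
    have hX : (s i * F i * δ i j) ^ 2 = F i ^ 2 * δ i j ^ 2 := by
      linear_combination (F i ^ 2 * δ i j ^ 2) * hs2
    nlinarith [hX, sq_nonneg ((1 - s j * t j) * H i j + s i * F i * δ i j),
      mul_le_mul_of_nonneg_left hd2 (sq_nonneg (F i))]
  have hquad : ∑ i, ∑ j, F i * (δ i j * F j) ≤ (a + 4 * ρ) * grad2 f x := by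
    set w := fun j => vr K 0 x j * F j with hw
    have hb : ∑ i, ∑ j, K i j * F i * w j ≤ a * grad2 f x := by
      have h1 := (abs_le.mp (hq fun i => F i + w i)).2
      have h2 := (abs_le.mp (hq fun i => F i - w i)).1
      have e : ∑ i, ∑ j, K i j * w i * F j = ∑ i, ∑ j, K i j * F i * w j := by
        rw [Finset.sum_comm]
        exact Finset.sum_congr rfl fun i _ => Finset.sum_congr rfl fun j _ => by rw [hsym j i]; ring
      have e1 : ∀ i j, K i j * (F i + w i) * (F j + w j) - K i j * (F i - w i) * (F j - w j)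
          = 2 * (K i j * F i * w j) + 2 * (K i j * w i * F j) := fun i j => by ring
      have h3 : ∑ i, (w i) ^ 2 ≤ ∑ i, F i ^ 2 := Finset.sum_le_sum fun i _ => by
        simp only [hw, mul_pow]
        exact mul_le_of_le_one_left (sq_nonneg _)
          (pow_le_one₀ (vr_pos K 0 x i).le (vr_le_one K 0 x i))
      have e2 : ∑ i, (F i + w i) ^ 2 + ∑ i, (F i - w i) ^ 2 = 2 * (∑ i, F i ^ 2 + ∑ i, (w i) ^ 2) := by
        simp only [← Finset.sum_add_distrib, Finset.mul_sum]
        exact Finset.sum_congr rfl fun i _ => by ring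
      have hsum : ∑ i, ∑ j, (K i j * (F i + w i) * (F j + w j) - K i j * (F i - w i) * (F j - w j))
          = 4 * ∑ i, ∑ j, K i j * F i * w j := by
        simp only [e1, Finset.sum_add_distrib, ← Finset.mul_sum, e]; ring
      simp only [Finset.sum_sub_distrib] at hsum
      rcases (Finset.univ : Finset (Fin N)).eq_empty_or_nonempty with h0 | ⟨i0, -⟩
      · simp [grad2, h0]
      · have ha : 0 ≤ a := by
          have h := (abs_nonneg _).trans (hq fun _ => 1)
          have : (0:ℝ) < N := by exact_mod_cast Fin.pos i0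
          simp at h; exact le_of_mul_le_mul_right (by simpa using h) this
        have h4 := mul_le_mul_of_nonneg_left h3 ha
        have h5 : a * (∑ i, (F i + w i) ^ 2) + a * (∑ i, (F i - w i) ^ 2)
            = 2 * (a * ∑ i, F i ^ 2) + 2 * (a * ∑ i, (w i) ^ 2) := by rw [← mul_add, e2]; ring
        rw [← hF2]
        linarith
    have hr : ∑ i, ∑ j, F i * ((δ i j - K i j * vr K 0 x j) * F j) ≤ 4 * ρ * grad2 f x := by
      have h1 : ∀ i j, F i * ((δ i j - K i j * vr K 0 x j) * F j)
          ≤ 2 * K i j ^ 2 * F i ^ 2 + 2 * K i j ^ 2 * F j ^ 2 := by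
        intro i j
        have hd' : |δ i j - K i j * vr K 0 x j| ≤ 4 * K i j ^ 2 :=
          (hd i j).trans (mul_le_of_le_one_right (by positivity) (vr_le_one K 0 x j))
        calc F i * ((δ i j - K i j * vr K 0 x j) * F j)
            = (δ i j - K i j * vr K 0 x j) * (F i * F j) := by ring
          _ ≤ |δ i j - K i j * vr K 0 x j| * |F i * F j| := by rw [← abs_mul]; exact le_abs_self _
          _ ≤ 4 * K i j ^ 2 * ((F i ^ 2 + F j ^ 2) / 2) := by
              refine mul_le_mul hd' ?_ (abs_nonneg _) (by positivity)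
              rw [abs_mul]
              nlinarith [two_mul_le_add_sq |F i| |F j|, sq_abs (F i), sq_abs (F j)]
          _ = _ := by ring
      refine (Finset.sum_le_sum fun i _ => Finset.sum_le_sum fun j _ => h1 i j).trans ?_
      simp only [Finset.sum_add_distrib]
      rw [Finset.sum_comm (f := fun i j => 2 * K i j ^ 2 * F j ^ 2)]
      have h2 : ∀ i, ∑ j, 2 * K i j ^ 2 * F i ^ 2 ≤ 2 * ρ * F i ^ 2 := fun i => by
        rw [← Finset.sum_mul, ← Finset.mul_sum]
        exact mul_le_mul_of_nonneg_right (by linarith [hρ i]) (sq_nonneg _)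
      have h3 : ∀ i, ∑ j, 2 * K j i ^ 2 * F i ^ 2 ≤ 2 * ρ * F i ^ 2 := fun i => by
        simp only [hsym _ i]; exact h2 i
      refine (add_le_add (Finset.sum_le_sum fun i _ => h2 i)
        (Finset.sum_le_sum fun i _ => h3 i)).trans (le_of_eq ?_)
      rw [← Finset.sum_add_distrib, ← hF2, Finset.mul_sum]
      exact Finset.sum_congr rfl fun i _ => by ring
    calc ∑ i, ∑ j, F i * (δ i j * F j)
        = ∑ i, ∑ j, K i j * F i * w j + ∑ i, ∑ j, F i * ((δ i j - K i j * vr K 0 x j) * F j) := by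
          simp only [← Finset.sum_add_distrib, hw]
          exact Finset.sum_congr rfl fun i _ => Finset.sum_congr rfl fun j _ => by ring
      _ ≤ _ := by linarith
  have hsum : -(8 * ρ * grad2 f x)
      ≤ ∑ i, ∑ j, (4 * (s i * F i * δ i j * H i j) + 2 * (1 - s j * t j) * H i j ^ 2) := by
    refine le_trans ?_ (Finset.sum_le_sum fun i _ => Finset.sum_le_sum fun j _ => hsq i j)
    simp only [Finset.sum_neg_distrib, neg_le_neg_iff, ← Finset.sum_mul, ← Finset.mul_sum]
    rw [← hF2, Finset.mul_sum]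
    exact Finset.sum_le_sum fun i _ => mul_le_mul_of_nonneg_right (by linarith [hρ i]) (sq_nonneg _)
  change _ ≤ 2 * ∑ i, F i * dlt (negL K 0 f) x i - negL K 0 (grad2 f) x
  rw [hmain]
  nlinarith [hF2]

end Vale.Agent.P150.HT
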