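import Vale.Agent.P150.HT.Stein

/-! Comparison of exponential soft-max moments of two finite Gaussian families. -/

namespace Vale.Agent.P150.HT

open MeasureTheory ProbabilityTheory Real Finset

variable {T : Type*} [Fintype T]

/-- The soft-max sum. -/
noncomputable def smS (θ : ℝ) (z : T → ℝ) : ℝ := ∑ t, exp (θ * z t)

/-- The soft-max weights. -/
noncomputable def smp (θ : ℝ) (z : T → ℝ) (t : T) : ℝ := exp (θ * z t) / smS θ z

/-- Power of the soft-max sum. -/
noncomputable def smphi (θ r : ℝ) (z : T → ℝ) : ℝ := smS θ z ^ r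

/-- First partial derivatives of `smphi`. -/
noncomputable def smD (θ r : ℝ) (z : T → ℝ) (t : T) : ℝ := r * θ * smphi θ r z * smp θ z t

/-- Second derivatives of `smphi`, contracted with `w`. -/
noncomputable def smH (θ r : ℝ) (z w : T → ℝ) (t : T) : ℝ :=
  r * θ ^ 2 * smphi θ r z * smp θ z t * (w t - (1 - r) * ∑ u, smp θ z u * w u)

variable [Nonempty T] (θ r : ℝ)

lemma smS_pos (z : T → ℝ) : 0 < smS θ z :=
  Finset.sum_pos (fun _ _ => exp_pos _) univ_nonempty

lemma smphi_pos (z : T → ℝ) : 0 < smphi θ r z := rpow_pos_of_pos (smS_pos θ z) r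

lemma smp_nonneg (z : T → ℝ) (t : T) : 0 ≤ smp θ z t :=
  div_nonneg (exp_pos _).le (smS_pos θ z).le

lemma smp_sum (z : T → ℝ) : ∑ t, smp θ z t = 1 := by
  simp only [smp, ← Finset.sum_div]; exact div_self (smS_pos θ z).ne'

lemma smp_le_one (z : T → ℝ) (t : T) : smp θ z t ≤ 1 :=
  smp_sum θ z ▸ Finset.single_le_sum (fun u _ => smp_nonneg θ z u) (mem_univ t)

lemma hasDerivAt_smS {z : ℝ → T → ℝ} {w : T → ℝ} {s : ℝ}
    (hz : ∀ t, HasDerivAt (fun x => z x t) (w t) s) :
    HasDerivAt (fun x => smS θ (z x)) (θ * smS θ (z s) * ∑ u, smp θ (z s) u * w u) s := by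
  refine (HasDerivAt.fun_sum fun t _ => ((hz t).const_mul θ).exp).congr_deriv ?_
  rw [Finset.mul_sum]
  refine Finset.sum_congr rfl fun t _ => ?_
  have := (smS_pos θ (z s)).ne'
  rw [smp]; field_simp

lemma hasDerivAt_smphi {z : ℝ → T → ℝ} {w : T → ℝ} {s : ℝ}
    (hz : ∀ t, HasDerivAt (fun x => z x t) (w t) s) :
    HasDerivAt (fun x => smphi θ r (z x)) (∑ t, smD θ r (z s) t * w t) s := by
  refine ((hasDerivAt_smS θ hz).rpow_const (Or.inl (smS_pos θ (z s)).ne')).congr_deriv ?_
  simp only [smD, smphi, rpow_sub_one (smS_pos θ (z s)).ne', mul_assoc, ← Finset.mul_sum]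
  have := (smS_pos θ (z s)).ne'
  field_simp

lemma hasDerivAt_smD {z : ℝ → T → ℝ} {w : T → ℝ} {s : ℝ}
    (hz : ∀ t, HasDerivAt (fun x => z x t) (w t) s) (t : T) :
    HasDerivAt (fun x => smD θ r (z x) t) (smH θ r (z s) w t) s := by
  have hp : HasDerivAt (fun x => smp θ (z x) t)
      (θ * smp θ (z s) t * (w t - ∑ u, smp θ (z s) u * w u)) s := by
    refine ((((hz t).const_mul θ).exp).div (hasDerivAt_smS θ hz) (smS_pos θ (z s)).ne').congr_deriv ?_
    have := (smS_pos θ (z s)).ne'
    rw [show smp θ (z s) t = exp (θ * z s t) / smS θ (z s) from rfl]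
    field_simp
  refine (((hasDerivAt_smphi θ r hz).const_mul (r * θ)).mul hp).congr_deriv ?_
  simp only [smH, smD, mul_assoc, ← Finset.mul_sum]
  ring

lemma continuous_smphi : Continuous (smphi (T := T) θ r) := by
  unfold smphi smS
  exact Continuous.rpow_const (by fun_prop) fun z => Or.inl (smS_pos θ z).ne'

lemma continuous_smp (t : T) : Continuous fun z => smp θ z t := by
  unfold smp
  exact Continuous.div (by fun_prop) (by unfold smS; fun_prop) fun z => (smS_pos θ z).ne'

lemma continuous_smD (t : T) : Continuous fun z => smD θ r z t := by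
  unfold smD
  exact (continuous_const.mul (continuous_smphi θ r)).mul (continuous_smp θ t)

lemma continuous_smH (w : T → ℝ) (t : T) : Continuous fun z => smH θ r z w t := by
  unfold smH
  exact ((continuous_const.mul (continuous_smphi θ r)).mul (continuous_smp θ t)).mul
    (continuous_const.sub (continuous_const.mul
      (continuous_finsetSum _ fun u _ => (continuous_smp θ u).mul continuous_const)))

variable {θ r}

lemma smphi_le (hθ : 0 ≤ θ) (hr : 0 ≤ r) (hr1 : r ≤ 1) (z : T → ℝ) :
    smphi θ r z ≤ 2 * Fintype.card T * exp (θ * ∑ t, |z t|) := by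
  have h1 : 1 ≤ Fintype.card T * exp (θ * ∑ t, |z t|) := by
    refine one_le_mul_of_one_le_of_one_le (by exact_mod_cast Fintype.card_pos) (one_le_exp ?_)
    exact mul_nonneg hθ (Finset.sum_nonneg fun _ _ => abs_nonneg _)
  have h2 : smS θ z ≤ Fintype.card T * exp (θ * ∑ t, |z t|) := by
    refine (Finset.sum_le_card_nsmul _ _ (exp (θ * ∑ t, |z t|)) fun t _ => exp_le_exp.mpr
      (mul_le_mul_of_nonneg_left ((le_abs_self _).trans
        (Finset.single_le_sum (fun u _ => abs_nonneg (z u)) (mem_univ t))) hθ)).trans (le_of_eq ?_)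
    simp
  rcases le_total (smS θ z) 1 with h | h
  · exact (rpow_le_one (smS_pos θ z).le h hr).trans (by linarith)
  · exact (rpow_le_self_of_one_le h hr1).trans (by linarith)

lemma abs_smD_le (hθ : 0 ≤ θ) (hr : 0 ≤ r) (hr1 : r ≤ 1) (z : T → ℝ) (t : T) :
    |smD θ r z t| ≤ θ * (2 * Fintype.card T * exp (θ * ∑ u, |z u|)) := by
  have h0 := (smphi_pos θ r z).le
  rw [smD, abs_of_nonneg (mul_nonneg (mul_nonneg (mul_nonneg hr hθ) h0) (smp_nonneg θ z t))]
  calc r * θ * smphi θ r z * smp θ z t ≤ 1 * θ * smphi θ r z * 1 := by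
        gcongr
        · exact smp_nonneg θ z t
        · exact smp_le_one θ z t
    _ ≤ _ := by
        rw [one_mul, mul_one]
        exact mul_le_mul_of_nonneg_left (smphi_le hθ hr hr1 z) hθ

lemma abs_smH_le (hθ : 0 ≤ θ) (hr : 0 ≤ r) (hr1 : r ≤ 1) (z w : T → ℝ) {M : ℝ}
    (hM : ∀ u, |w u| ≤ M) (t : T) :
    |smH θ r z w t| ≤ θ ^ 2 * (2 * Fintype.card T * exp (θ * ∑ u, |z u|)) * (2 * M) := by
  have h0 := (smphi_pos θ r z).le
  rw [smH, abs_mul, abs_of_nonneg
    (mul_nonneg (mul_nonneg (mul_nonneg hr (sq_nonneg θ)) h0) (smp_nonneg θ z t))]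
  refine mul_le_mul ?_ ?_ (abs_nonneg _) (by positivity)
  · calc r * θ ^ 2 * smphi θ r z * smp θ z t ≤ 1 * θ ^ 2 * smphi θ r z * 1 := by
          gcongr
          · exact smp_nonneg θ z t
          · exact smp_le_one θ z t
      _ ≤ _ := by
          rw [one_mul, mul_one]
          exact mul_le_mul_of_nonneg_left (smphi_le hθ hr hr1 z) (sq_nonneg θ)
  · have hM0 : 0 ≤ M := (abs_nonneg _).trans (hM t)
    have hs : |∑ u, smp θ z u * w u| ≤ M := by
      refine (Finset.abs_sum_le_sum_abs _ _).trans ?_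
      calc ∑ u, |smp θ z u * w u| ≤ ∑ u, smp θ z u * M := Finset.sum_le_sum fun u _ => by
            rw [abs_mul, abs_of_nonneg (smp_nonneg θ z u)]
            exact mul_le_mul_of_nonneg_left (hM u) (smp_nonneg θ z u)
        _ = M := by rw [← Finset.sum_mul, smp_sum, one_mul]
    calc |w t - (1 - r) * ∑ u, smp θ z u * w u|
        ≤ |w t| + |(1 - r) * ∑ u, smp θ z u * w u| := abs_sub _ _
      _ ≤ M + 1 * M := by
          rw [abs_mul, abs_of_nonneg (by linarith : (0:ℝ) ≤ 1 - r)]
          gcongr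
          · exact hM t
          · linarith
      _ = 2 * M := by ring

/-- The sign of the interpolation derivative. -/
lemma bracket_nonneg (hr : 0 ≤ r) (hr1 : r ≤ 1) (z : T → ℝ) (Δ : T → T → ℝ)
    (h1 : ∀ t, 0 ≤ Δ t t) (h2 : ∀ t u, 2 * Δ t u ≤ Δ t t + Δ u u) :
    0 ≤ ∑ t, smp θ z t * (Δ t t - (1 - r) * ∑ u, smp θ z u * Δ t u) := by
  set p := smp θ z with hp
  have hd : 0 ≤ ∑ t, p t * Δ t t :=
    Finset.sum_nonneg fun t _ => mul_nonneg (smp_nonneg θ z t) (h1 t)
  have hle : ∑ t, ∑ u, p t * (p u * Δ t u) ≤ ∑ t, p t * Δ t t := by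
    have e1 : ∑ t, ∑ u, p t * p u * Δ t t = ∑ t, p t * Δ t t := by
      refine Finset.sum_congr rfl fun t _ => ?_
      rw [← Finset.sum_mul, ← Finset.mul_sum, hp, smp_sum, mul_one]
    have e2 : ∑ t, ∑ u, p t * p u * Δ u u = ∑ t, p t * Δ t t := by
      rw [Finset.sum_comm, ← e1]
      exact Finset.sum_congr rfl fun t _ => Finset.sum_congr rfl fun u _ => by ring
    have h : ∑ t, ∑ u, 2 * (p t * (p u * Δ t u))
        ≤ ∑ t, ∑ u, (p t * p u * Δ t t + p t * p u * Δ u u) := by
      refine Finset.sum_le_sum fun t _ => Finset.sum_le_sum fun u _ => ?_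
      have := mul_le_mul_of_nonneg_left (h2 t u)
        (mul_nonneg (smp_nonneg θ z t) (smp_nonneg θ z u))
      rw [← hp] at this
      linarith
    simp only [← Finset.mul_sum, Finset.sum_add_distrib] at h e1 e2 ⊢
    linarith
  have e : ∑ t, p t * (Δ t t - (1 - r) * ∑ u, p u * Δ t u)
      = ∑ t, p t * Δ t t - (1 - r) * ∑ t, ∑ u, p t * (p u * Δ t u) := by
    simp only [mul_sub, Finset.sum_sub_distrib, Finset.mul_sum]
    congr 1
    exact Finset.sum_congr rfl fun t _ => Finset.sum_congr rfl fun u _ => by ring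
  rw [e]
  have := mul_le_mul_of_nonneg_left hle (by linarith : (0:ℝ) ≤ 1 - r)
  nlinarith [mul_nonneg hr hd]

variable {ι : Type*} [Fintype ι]

lemma abs_dot_le (c g : ι → ℝ) : |dot c g| ≤ (∑ k, |c k|) * l1 g := by
  rw [Finset.sum_mul]
  refine (Finset.abs_sum_le_sum_abs _ _).trans (Finset.sum_le_sum fun k _ => ?_)
  rw [abs_mul]
  exact mul_le_mul_of_nonneg_left
    (Finset.single_le_sum (fun j _ => abs_nonneg (g j)) (mem_univ k)) (abs_nonneg _)

lemma continuous_dot (c : ι → ℝ) : Continuous (dot c) := by unfold dot; fun_prop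

lemma exp_sum_dot_le (hθ : 0 ≤ θ) (c : T → ι → ℝ) {M : ℝ} (hM : ∑ t, ∑ k, |c t k| ≤ M)
    (g : ι → ℝ) : exp (θ * ∑ t, |dot (c t) g|) ≤ exp (θ * M * l1 g) := by
  refine exp_le_exp.mpr ?_
  rw [mul_assoc]
  refine mul_le_mul_of_nonneg_left ((Finset.sum_le_sum fun t _ => abs_dot_le (c t) g).trans ?_) hθ
  rw [← Finset.sum_mul]
  exact mul_le_mul_of_nonneg_right hM (l1_nonneg g)

/-- Gaussian integration by parts for the soft-max. -/
lemma integral_smD_dot (hθ : 0 ≤ θ) (hr : 0 ≤ r) (hr1 : r ≤ 1) (c : T → ι → ℝ) (v : ι → ℝ)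
    (t : T) :
    ∫ g, smD θ r (fun u => dot (c u) g) t * dot v g ∂gaussVec ι
      = ∫ g, smH θ r (fun u => dot (c u) g) (fun u => dot v (c u)) t ∂gaussVec ι := by
  classical
  set M := ∑ u, ∑ k, |c u k| with hM
  have hM0 : 0 ≤ M := Finset.sum_nonneg fun u _ => Finset.sum_nonneg fun k _ => abs_nonneg _
  have hZ : Continuous fun g : ι → ℝ => fun u => dot (c u) g :=
    continuous_pi fun u => continuous_dot (c u)
  set C : ℝ := θ * (2 * Fintype.card T) + θ ^ 2 * (2 * Fintype.card T) * (2 * M) with hC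
  have hbD : ∀ g, |smD θ r (fun u => dot (c u) g) t| ≤ C * exp (θ * M * l1 g) := fun g => by
    refine (abs_smD_le hθ hr hr1 _ t).trans ?_
    rw [← mul_assoc θ]
    refine mul_le_mul ?_ (exp_sum_dot_le hθ c le_rfl g) (exp_pos _).le (by positivity)
    exact le_add_of_nonneg_right (by positivity)
  have hbH : ∀ k g, |smH θ r (fun u => dot (c u) g) (fun u => c u k) t|
      ≤ C * exp (θ * M * l1 g) := fun k g => by
    refine (abs_smH_le hθ hr hr1 _ _ (M := M) (fun u => ?_) t).trans ?_
    · exact (Finset.single_le_sum (fun j _ => abs_nonneg (c u j)) (mem_univ k)).trans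
        (Finset.single_le_sum (f := fun u => ∑ j, |c u j|)
          (fun u _ => Finset.sum_nonneg fun j _ => abs_nonneg _) (mem_univ u))
    · calc θ ^ 2 * (2 * Fintype.card T * exp (θ * ∑ u, |dot (c u) g|)) * (2 * M)
          ≤ θ ^ 2 * (2 * Fintype.card T * exp (θ * M * l1 g)) * (2 * M) :=
            mul_le_mul_of_nonneg_right (mul_le_mul_of_nonneg_left (mul_le_mul_of_nonneg_left
              (exp_sum_dot_le hθ c le_rfl g) (by positivity)) (sq_nonneg θ)) (by positivity)
        _ = (θ ^ 2 * (2 * Fintype.card T) * (2 * M)) * exp (θ * M * l1 g) := by ring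
        _ ≤ _ := mul_le_mul_of_nonneg_right (le_add_of_nonneg_left (by positivity)) (exp_pos _).le
  have hk : ∀ k, ∫ g, g k * smD θ r (fun u => dot (c u) g) t ∂gaussVec ι
      = ∫ g, smH θ r (fun u => dot (c u) g) (fun u => c u k) t ∂gaussVec ι := by
    intro k
    refine stein k ((continuous_smD θ r t).comp hZ) ((continuous_smH θ r (fun u => c u k) t).comp hZ)
      (fun g => ?_) hbD (hbH k)
    have h : ∀ u, HasDerivAt (fun τ => dot (c u) (Function.update g k τ)) (c u k) (g k) := by
      intro u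
      refine (HasDerivAt.fun_sum fun j _ =>
        ((hasDerivAt_pi.mp (hasDerivAt_update g k (g k)) j).const_mul (c u j))).congr_deriv ?_
      simp [Pi.single_apply]
    simpa using hasDerivAt_smD θ r h t
  have iD : ∀ k, Integrable (fun g => g k * smD θ r (fun u => dot (c u) g) t) (gaussVec ι) := by
    intro k
    refine integrable_of_le (C := C) (L := θ * M + 1)
      ((continuous_apply k).mul ((continuous_smD θ r t).comp hZ)) fun g => ?_
    rw [abs_mul, add_mul (θ * M), one_mul, exp_add, ← mul_assoc, mul_comm |g k|]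
    refine mul_le_mul (hbD g) ?_ (abs_nonneg _) (by positivity)
    linarith [add_one_le_exp (l1 g),
      show |g k| ≤ l1 g from Finset.single_le_sum (fun j _ => abs_nonneg (g j)) (mem_univ k)]
  have iH : ∀ k, Integrable (fun g => smH θ r (fun u => dot (c u) g) (fun u => c u k) t)
      (gaussVec ι) := fun k =>
    integrable_of_le ((continuous_smH θ r (fun u => c u k) t).comp hZ) (hbH k)
  have eL : ∀ g : ι → ℝ, smD θ r (fun u => dot (c u) g) t * dot v g
      = ∑ k, v k * (g k * smD θ r (fun u => dot (c u) g) t) := fun g => by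
    unfold dot; rw [Finset.mul_sum]; exact Finset.sum_congr rfl fun k _ => by ring
  have eR : ∀ g : ι → ℝ, smH θ r (fun u => dot (c u) g) (fun u => dot v (c u)) t
      = ∑ k, v k * smH θ r (fun u => dot (c u) g) (fun u => c u k) t := fun g => by
    simp only [smH, mul_sub, Finset.sum_sub_distrib, Finset.mul_sum]
    congr 1
    · rw [dot, Finset.mul_sum]; exact Finset.sum_congr rfl fun k _ => by ring
    · rw [Finset.sum_comm]
      refine Finset.sum_congr rfl fun u _ => ?_
      conv_lhs => rw [dot]; simp only [Finset.mul_sum]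
      exact Finset.sum_congr rfl fun k _ => by ring
  simp_rw [eL, eR]
  rw [integral_finsetSum _ fun k _ => (iD k).const_mul _,
    integral_finsetSum _ fun k _ => (iH k).const_mul _]
  exact Finset.sum_congr rfl fun k _ => by rw [integral_const_mul, integral_const_mul, hk]

/-- Comparison theorem. -/
theorem compare (hθ : 0 ≤ θ) (hr : 0 ≤ r) (hr1 : r ≤ 1) (a b : T → ι → ℝ)
    (hab : ∀ t u, dot (a t) (b u) = 0)
    (h1 : ∀ t, dot (a t) (a t) ≤ dot (b t) (b t))
    (h2 : ∀ t u, 2 * (dot (b t) (b u) - dot (a t) (a u))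
      ≤ (dot (b t) (b t) - dot (a t) (a t)) + (dot (b u) (b u) - dot (a u) (a u))) :
    ∫ g, smphi θ r (fun t => dot (a t) g) ∂gaussVec ι
      ≤ ∫ g, smphi θ r (fun t => dot (b t) g) ∂gaussVec ι := by
  set Δ : T → T → ℝ := fun t u => dot (b t) (b u) - dot (a t) (a u) with hΔ
  set c : ℝ → T → ι → ℝ := fun s t k => cos s * a t k + sin s * b t k with hc
  set v : ℝ → T → ι → ℝ := fun s t k => -sin s * a t k + cos s * b t k with hv
  set M := ∑ t, ∑ k, (|a t k| + |b t k|) with hM
  have hM0 : 0 ≤ M := Finset.sum_nonneg fun t _ => Finset.sum_nonneg fun k _ => by positivity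
  have hcv : ∀ x y α γ : ℝ, |x| ≤ 1 → |y| ≤ 1 → |x * α + y * γ| ≤ |α| + |γ| :=
    fun x y α γ hx hy => (abs_add_le _ _).trans (add_le_add
      ((abs_mul _ _).trans_le (mul_le_of_le_one_left (abs_nonneg _) hx))
      ((abs_mul _ _).trans_le (mul_le_of_le_one_left (abs_nonneg _) hy)))
  have hbc : ∀ s, ∑ t, ∑ k, |c s t k| ≤ M := fun s => Finset.sum_le_sum fun t _ =>
    Finset.sum_le_sum fun k _ => hcv _ _ _ _ (abs_cos_le_one s) (abs_sin_le_one s)
  have hbv : ∀ s t, ∑ k, |v s t k| ≤ M := fun s t =>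
    (Finset.sum_le_sum fun k _ => hcv _ _ _ _ (by rw [abs_neg]; exact abs_sin_le_one s)
      (abs_cos_le_one s)).trans
      (Finset.single_le_sum (f := fun t => ∑ k, (|a t k| + |b t k|))
        (fun t _ => Finset.sum_nonneg fun k _ => by positivity) (mem_univ t))
  have hZ : ∀ s, Continuous fun g : ι → ℝ => fun t => dot (c s t) g := fun s =>
    continuous_pi fun t => continuous_dot (c s t)
  set G : ℝ → ℝ := fun s => ∫ g, smphi θ r (fun t => dot (c s t) g) ∂gaussVec ι with hG
  set G' : ℝ → ℝ := fun s => ∫ g, ∑ t, smD θ r (fun u => dot (c s u) g) t * dot (v s t) g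
    ∂gaussVec ι with hG'
  set K : ℝ := Fintype.card T * (θ * (2 * Fintype.card T) * M) with hK
  have hbound : ∀ s g, |∑ t, smD θ r (fun u => dot (c s u) g) t * dot (v s t) g|
      ≤ K * exp ((θ * M + 1) * l1 g) := by
    intro s g
    refine (Finset.abs_sum_le_sum_abs _ _).trans ?_
    refine (Finset.sum_le_card_nsmul _ _ (θ * (2 * Fintype.card T) * M
      * exp ((θ * M + 1) * l1 g)) fun t _ => ?_).trans (le_of_eq (by simp [hK]; ring))
    rw [abs_mul, add_mul, one_mul, exp_add]
    calc |smD θ r (fun u => dot (c s u) g) t| * |dot (v s t) g|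
        ≤ (θ * (2 * Fintype.card T * exp (θ * M * l1 g))) * (M * exp (l1 g)) := by
          refine mul_le_mul ((abs_smD_le hθ hr hr1 _ t).trans ?_) ?_ (abs_nonneg _) (by positivity)
          · exact mul_le_mul_of_nonneg_left (mul_le_mul_of_nonneg_left
              (exp_sum_dot_le hθ (c s) (hbc s) g) (by positivity)) hθ
          · refine (abs_dot_le _ _).trans (mul_le_mul (hbv s t) ?_ (l1_nonneg g) hM0)
            linarith [add_one_le_exp (l1 g)]
      _ = _ := by ring
  have iphi : ∀ s, Integrable (fun g => smphi θ r (fun t => dot (c s t) g)) (gaussVec ι) := fun s =>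
    integrable_of_le ((continuous_smphi θ r).comp (hZ s)) (C := 2 * Fintype.card T) (L := θ * M)
      fun g => by
        rw [abs_of_nonneg (smphi_pos θ r _).le]
        exact (smphi_le hθ hr hr1 _).trans
          (mul_le_mul_of_nonneg_left (exp_sum_dot_le hθ (c s) (hbc s) g) (by positivity))
  have hGd : ∀ s, HasDerivAt G (G' s) s := by
    intro s
    refine (hasDerivAt_integral_of_dominated_loc_of_deriv_le (s := Set.univ)
      (F := fun x g => smphi θ r (fun t => dot (c x t) g))
      (F' := fun x g => ∑ t, smD θ r (fun u => dot (c x u) g) t * dot (v x t) g)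
      (bound := fun g => K * exp ((θ * M + 1) * l1 g)) Filter.univ_mem
      (Filter.Eventually.of_forall fun x => (iphi x).aestronglyMeasurable) (iphi s) ?_
      (Filter.Eventually.of_forall fun g x _ => by simpa using hbound x g)
      ((integrable_exp_l1 _).const_mul _)
      (Filter.Eventually.of_forall fun g x _ => ?_)).2
    · exact (continuous_finsetSum _ fun t _ =>
        ((continuous_smD θ r t).comp (hZ s)).mul (continuous_dot _)).aestronglyMeasurable
    · refine hasDerivAt_smphi θ r fun t => ?_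
      refine HasDerivAt.fun_sum fun k _ => ?_
      exact ((((hasDerivAt_cos x).mul_const (a t k)).add
        ((hasDerivAt_sin x).mul_const (b t k))).mul_const (g k))
  have hcov : ∀ s t u, dot (v s t) (c s u) = sin s * cos s * Δ t u := by
    intro s t u
    have e1 : dot (a t) (b u) = 0 := hab t u
    have e2 : dot (b t) (a u) = 0 := by
      rw [← hab u t]; exact Finset.sum_congr rfl fun k _ => mul_comm _ _
    calc dot (v s t) (c s u)
        = -(sin s * cos s) * dot (a t) (a u) + (-(sin s * sin s)) * dot (a t) (b u)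
          + cos s * cos s * dot (b t) (a u) + sin s * cos s * dot (b t) (b u) := by
          simp only [dot, hv, hc, Finset.mul_sum, ← Finset.sum_add_distrib]
          exact Finset.sum_congr rfl fun k _ => by ring
      _ = _ := by rw [e1, e2, hΔ]; ring
  have hpos : ∀ s ∈ Set.Icc 0 (π / 2), 0 ≤ G' s := by
    intro s hs
    have iT : ∀ t, Integrable (fun g => smD θ r (fun u => dot (c s u) g) t * dot (v s t) g)
        (gaussVec ι) := by
      intro t
      refine integrable_of_le (((continuous_smD θ r t).comp (hZ s)).mul (continuous_dot _))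
        (C := θ * (2 * Fintype.card T) * M) (L := θ * M + 1) fun g => ?_
      rw [abs_mul, add_mul, one_mul, exp_add]
      refine (mul_le_mul (abs_smD_le hθ hr hr1 _ t) (abs_dot_le _ _) (abs_nonneg _)
        (by positivity)).trans ?_
      have := exp_sum_dot_le hθ (c s) (hbc s) g
      have hl : l1 g ≤ exp (l1 g) := by linarith [add_one_le_exp (l1 g)]
      have := l1_nonneg g
      calc θ * (2 * Fintype.card T * exp (θ * ∑ u, |dot (c s u) g|)) * ((∑ k, |v s t k|) * l1 g)
          ≤ θ * (2 * Fintype.card T * exp (θ * M * l1 g)) * (M * exp (l1 g)) := by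
            gcongr
            exact hbv s t
        _ = _ := by ring
    have iH : ∀ t, Integrable (fun g => smH θ r (fun u => dot (c s u) g)
        (fun u => dot (v s t) (c s u)) t) (gaussVec ι) := by
      intro t
      refine integrable_of_le ((continuous_smH θ r (fun u => dot (v s t) (c s u)) t).comp (hZ s)) (L := θ * M)
        (C := θ ^ 2 * (2 * Fintype.card T) * (2 * ∑ u, |dot (v s t) (c s u)|)) fun g => ?_
      refine (abs_smH_le hθ hr hr1 _ _ (fun u => Finset.single_le_sum
        (f := fun u => |dot (v s t) (c s u)|) (fun u _ => abs_nonneg _) (mem_univ u)) t).trans ?_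
      calc θ ^ 2 * (2 * Fintype.card T * exp (θ * ∑ u, |dot (c s u) g|))
            * (2 * ∑ u, |dot (v s t) (c s u)|)
          ≤ θ ^ 2 * (2 * Fintype.card T * exp (θ * M * l1 g)) * (2 * ∑ u, |dot (v s t) (c s u)|) :=
            mul_le_mul_of_nonneg_right (mul_le_mul_of_nonneg_left (mul_le_mul_of_nonneg_left
              (exp_sum_dot_le hθ (c s) (hbc s) g) (by positivity)) (sq_nonneg θ)) (by positivity)
        _ = _ := by ring
    simp only [hG']
    rw [integral_finsetSum _ fun t _ => iT t]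
    simp_rw [integral_smD_dot hθ hr hr1]
    rw [← integral_finsetSum _ fun t _ => iH t]
    refine integral_nonneg fun g => ?_
    set z := fun u => dot (c s u) g
    have e : ∑ t, smH θ r z (fun u => dot (v s t) (c s u)) t = r * θ ^ 2 * smphi θ r z
        * (sin s * cos s) * ∑ t, smp θ z t * (Δ t t - (1 - r) * ∑ u, smp θ z u * Δ t u) := by
      rw [Finset.mul_sum]
      refine Finset.sum_congr rfl fun t _ => ?_
      simp only [smH, hcov, Finset.mul_sum, mul_sub]
      congr 1
      · ring
      · exact Finset.sum_congr rfl fun u _ => by ring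
    simp only [Pi.zero_apply]
    rw [e]
    refine mul_nonneg (mul_nonneg (mul_nonneg (mul_nonneg hr (sq_nonneg θ)) (smphi_pos θ r z).le) ?_) ?_
    · exact mul_nonneg (sin_nonneg_of_nonneg_of_le_pi hs.1 (by linarith [hs.2, pi_pos]))
        (cos_nonneg_of_mem_Icc ⟨by linarith [hs.1, pi_pos], hs.2⟩)
    · exact bracket_nonneg hr hr1 z Δ (fun t => sub_nonneg.mpr (h1 t)) h2
  have hmono : MonotoneOn G (Set.Icc 0 (π / 2)) :=
    monotoneOn_of_hasDerivWithinAt_nonneg (convex_Icc 0 (π / 2))
      (fun s _ => (hGd s).continuousAt.continuousWithinAt)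
      (fun s _ => (hGd s).hasDerivWithinAt) (fun s hs => hpos s (interior_subset hs))
  have hp : (0:ℝ) ≤ π / 2 := by linarith [pi_pos]
  have h := hmono (Set.left_mem_Icc.mpr hp) (Set.right_mem_Icc.mpr hp) hp
  simpa [hG, hc] using h

end Vale.Agent.P150.HT
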