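import Mathlib

/-! Second-order expansions with explicit remainder, and the two-site inequality. -/

namespace Vale.Agent.P150.HT

open Real Finset

/-- `X` is `p0 + p1 T + p2 T^2` up to `C |T|^3`, all coefficients bounded by `C`. -/
def Near (T C X p0 p1 p2 : ℝ) : Prop :=
  |X - (p0 + p1 * T + p2 * T ^ 2)| ≤ C * |T| ^ 3 ∧ |p0| ≤ C ∧ |p1| ≤ C ∧ |p2| ≤ C

lemma Near.nonneg {T C X p0 p1 p2 : ℝ} (h : Near T C X p0 p1 p2) : 0 ≤ C :=
  (abs_nonneg _).trans h.2.1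

lemma Near.add {T C D X Y p0 p1 p2 q0 q1 q2 : ℝ} (hX : Near T C X p0 p1 p2)
    (hY : Near T D Y q0 q1 q2) : Near T (C + D) (X + Y) (p0 + q0) (p1 + q1) (p2 + q2) := by
  refine ⟨?_, ?_, ?_, ?_⟩
  · rw [show X + Y - (p0 + q0 + (p1 + q1) * T + (p2 + q2) * T ^ 2)
      = (X - (p0 + p1 * T + p2 * T ^ 2)) + (Y - (q0 + q1 * T + q2 * T ^ 2)) by ring]
    refine (abs_add_le _ _).trans ?_
    rw [add_mul]; exact add_le_add hX.1 hY.1
  · exact (abs_add_le _ _).trans (add_le_add hX.2.1 hY.2.1)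
  · exact (abs_add_le _ _).trans (add_le_add hX.2.2.1 hY.2.2.1)
  · exact (abs_add_le _ _).trans (add_le_add hX.2.2.2 hY.2.2.2)

lemma Near.mono {T C D X p0 p1 p2 : ℝ} (h : Near T C X p0 p1 p2) (hCD : C ≤ D) :
    Near T D X p0 p1 p2 :=
  ⟨h.1.trans (mul_le_mul_of_nonneg_right hCD (by positivity)), h.2.1.trans hCD, h.2.2.1.trans hCD,
    h.2.2.2.trans hCD⟩

lemma Near.mul {T C D X Y p0 p1 p2 q0 q1 q2 : ℝ} (hT : |T| ≤ 1) (hX : Near T C X p0 p1 p2)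
    (hY : Near T D Y q0 q1 q2) :
    Near T (10 * C * D) (X * Y) (p0 * q0) (p0 * q1 + p1 * q0) (p0 * q2 + p1 * q1 + p2 * q0) := by
  have hC := hX.nonneg
  have hD := hY.nonneg
  obtain ⟨e1, a0, a1, a2⟩ := hX
  obtain ⟨e2, b0, b1, b2⟩ := hY
  have hCD : 0 ≤ C * D := mul_nonneg hC hD
  have m : ∀ {a b : ℝ}, |a| ≤ C → |b| ≤ D → |a * b| ≤ C * D := fun ha hb => by
    rw [abs_mul]; exact mul_le_mul ha hb (abs_nonneg _) hC
  refine ⟨?_, (m a0 b0).trans (by linarith), ?_, ?_⟩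
  · set P := p0 + p1 * T + p2 * T ^ 2
    set Q := q0 + q1 * T + q2 * T ^ 2
    have hT0 := abs_nonneg T
    have hT2 : |T| ^ 2 ≤ 1 := pow_le_one₀ hT0 hT
    have hT3 : |T| ^ 3 ≤ 1 := pow_le_one₀ hT0 hT
    have hP : |P| ≤ 3 * C := by
      refine (abs_add_le _ _).trans ((add_le_add (abs_add_le _ _) le_rfl).trans ?_)
      rw [abs_mul, abs_mul, abs_pow]
      have := mul_le_mul a1 hT hT0 hC
      have := mul_le_mul a2 hT2 (by positivity) hC
      linarith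
    have hQ : |Q| ≤ 3 * D := by
      refine (abs_add_le _ _).trans ((add_le_add (abs_add_le _ _) le_rfl).trans ?_)
      rw [abs_mul, abs_mul, abs_pow]
      have := mul_le_mul b1 hT hT0 hD
      have := mul_le_mul b2 hT2 (by positivity) hD
      linarith
    rw [show X * Y - (p0 * q0 + (p0 * q1 + p1 * q0) * T + (p0 * q2 + p1 * q1 + p2 * q0) * T ^ 2)
      = (X - P) * (Y - Q) + P * (Y - Q) + (X - P) * Q
        + ((p1 * q2 + p2 * q1) * T ^ 3 + p2 * q2 * (T ^ 3 * T)) by simp only [P, Q]; ring]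
    have h1 : |(X - P) * (Y - Q)| ≤ C * D * |T| ^ 3 := by
      rw [abs_mul]
      calc _ ≤ (C * |T| ^ 3) * (D * |T| ^ 3) := mul_le_mul e1 e2 (abs_nonneg _) (by positivity)
        _ ≤ (C * |T| ^ 3) * (D * 1) := by gcongr
        _ = _ := by ring
    have h2 : |P * (Y - Q)| ≤ 3 * (C * D) * |T| ^ 3 := by
      rw [abs_mul]; exact (mul_le_mul hP e2 (abs_nonneg _) (by linarith)).trans (le_of_eq (by ring))
    have h3 : |(X - P) * Q| ≤ 3 * (C * D) * |T| ^ 3 := by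
      rw [abs_mul]
      exact (mul_le_mul e1 hQ (abs_nonneg _) (by positivity)).trans (le_of_eq (by ring))
    have h4 : |(p1 * q2 + p2 * q1) * T ^ 3| ≤ 2 * (C * D) * |T| ^ 3 := by
      rw [abs_mul, abs_pow]
      refine mul_le_mul_of_nonneg_right ((abs_add_le _ _).trans ?_) (by positivity)
      linarith [m a1 b2, m a2 b1]
    have h5 : |p2 * q2 * (T ^ 3 * T)| ≤ C * D * |T| ^ 3 := by
      rw [abs_mul, abs_mul (T ^ 3) T, abs_pow]
      exact mul_le_mul (m a2 b2) (mul_le_of_le_one_right (by positivity) hT) (by positivity) hCD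
    have := abs_add_le ((X - P) * (Y - Q)) (P * (Y - Q))
    have := abs_add_le ((X - P) * (Y - Q) + P * (Y - Q)) ((X - P) * Q)
    have := abs_add_le ((p1 * q2 + p2 * q1) * T ^ 3) (p2 * q2 * (T ^ 3 * T))
    have := abs_add_le ((X - P) * (Y - Q) + P * (Y - Q) + (X - P) * Q)
      ((p1 * q2 + p2 * q1) * T ^ 3 + p2 * q2 * (T ^ 3 * T))
    linarith
  · refine (abs_add_le _ _).trans ?_
    linarith [m a0 b1, m a1 b0]
  · refine (abs_add_le _ _).trans ((add_le_add (abs_add_le _ _) le_rfl).trans ?_)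
    linarith [m a0 b2, m a1 b1, m a2 b0]

lemma near_affine {T C p0 p1 : ℝ} (h0 : |p0| ≤ C) (h1 : |p1| ≤ C) :
    Near T C (p0 + p1 * T) p0 p1 0 := by
  have hC : 0 ≤ C := (abs_nonneg p0).trans h0
  exact ⟨by simp; positivity, h0, h1, by simpa using hC⟩

lemma near_inv {T s : ℝ} (hs : |s| ≤ 1) (hT : |T| ≤ 1 / 2) :
    Near T 2 (1 + s * T)⁻¹ 1 (-s) (s ^ 2) := by
  have hsT : |s * T| ≤ 1 / 2 := by
    rw [abs_mul]; exact (mul_le_of_le_one_left (abs_nonneg _) hs).trans hT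
  have hpos : 0 < 1 + s * T := by linarith [neg_abs_le (s * T)]
  refine ⟨?_, by norm_num, by rw [abs_neg]; linarith, ?_⟩
  · rw [show (1 + s * T)⁻¹ - (1 + -s * T + s ^ 2 * T ^ 2) = -(s ^ 3 * T ^ 3) * (1 + s * T)⁻¹ by
      field_simp; ring, abs_mul, abs_neg, abs_mul, abs_pow, abs_pow, mul_comm 2,
      abs_of_pos (inv_pos.mpr hpos)]
    refine mul_le_mul (mul_le_of_le_one_left (by positivity) (pow_le_one₀ (abs_nonneg _) hs)) ?_
      (inv_nonneg.mpr hpos.le) (by positivity)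
    rw [inv_le_comm₀ hpos two_pos]; linarith [neg_abs_le (s * T)]
  · rw [abs_pow]; linarith [pow_le_one₀ (n := 2) (abs_nonneg s) hs]

/-- `±1` -/
def sg (b : Bool) : ℝ := if b then 1 else -1

lemma abs_sg (b : Bool) : |sg b| = 1 := by cases b <;> simp [sg]

/-- first part of the two-site kernel -/
noncomputable def kerA (m l T x y : ℝ) : ℝ :=
  ((1 + (-T) * T) * (1 + (-(x * y)) * T)) * ((1 + m * y * T)⁻¹ * (1 + l * x * T)⁻¹) * (x * y)

/-- second part of the two-site kernel -/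
noncomputable def kerB (m l T x y : ℝ) : ℝ :=
  (((1 + (-T) * T) * (1 + (-T) * T)) * (((1 + m * y * T)⁻¹ * (1 + m * y * T)⁻¹)
      * ((1 + l * x * T)⁻¹ * (1 + l * x * T)⁻¹)))
    * ((T + 2 * (T * T) * (((m + y * T) * (1 + m * y * T)⁻¹) * ((l + x * T) * (1 + l * x * T)⁻¹)))
      * (((1 + m * x) * (1 + l * y)) * (1 + x * y * T)))

lemma kernel_expand : ∃ C : ℝ, 0 ≤ C ∧ ∀ m l T x y : ℝ, |m| ≤ 1 → |l| ≤ 1 → |T| ≤ 1 / 2 →
    |x| = 1 → |y| = 1 → Near T C (kerA m l T x y) (x * y)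
      ((-(x * y) + (-(l * x) - m * y)) * (x * y))
      ((((l * x) ^ 2 + (m * y) * (l * x) + (m * y) ^ 2) + (x * y) * (l * x + m * y) - 1) * (x * y))
    ∧ Near T C (kerB m l T x y) 0 ((1 + m * x) * (1 + l * y))
      ((1 + m * x) * (1 + l * y) * (x * y + 2 * (m * l) - 2 * (m * y) - 2 * (l * x))) := by
  refine ⟨10 ^ 30, by norm_num, fun m l T x y hm hl hT hx hy => ?_⟩
  have hT1 : |T| ≤ 1 := by linarith
  have habs : ∀ {a b : ℝ}, |a| ≤ 1 → |b| ≤ 1 → |a * b| ≤ 1 := fun ha hb => by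
    rw [abs_mul]; exact mul_le_one₀ ha (abs_nonneg _) hb
  have hmy := habs hm hy.le
  have hlx := habs hl hx.le
  have hxy := habs hx.le hy.le
  have iM := near_inv hmy hT
  have iL := near_inv hlx hT
  have one2 : Near T 1 (1 + (-T) * T) 1 0 (-1) := by
    refine ⟨?_, by norm_num, by norm_num, by norm_num⟩
    rw [show 1 + -T * T - (1 + 0 * T + -1 * T ^ 2) = 0 by ring, abs_zero]; positivity
  have axy := near_affine (T := T) (C := 1) (p0 := 1) (p1 := -(x * y)) (by norm_num) (by rwa [abs_neg])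
  have pxy := near_affine (T := T) (C := 1) (p0 := 1) (p1 := x * y) (by norm_num) hxy
  have cxy : Near T 1 (x * y) (x * y) 0 0 := by
    refine ⟨by simp, hxy, by norm_num, by norm_num⟩
  have cw : Near T 4 ((1 + m * x) * (1 + l * y)) ((1 + m * x) * (1 + l * y)) 0 0 := by
    refine ⟨by simp, ?_, by norm_num, by norm_num⟩
    rw [abs_mul]
    have h1 := abs_add_le 1 (m * x); have h2 := abs_add_le 1 (l * y)
    rw [abs_one] at h1 h2
    have := habs hm hx.le; have := habs hl hy.le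
    calc _ ≤ (2:ℝ) * 2 := mul_le_mul (by linarith) (by linarith) (abs_nonneg _) (by norm_num)
      _ = 4 := by norm_num
  have tT : Near T 1 T 0 1 0 := by
    refine ⟨?_, by norm_num, by norm_num, by norm_num⟩; simp
  have two : Near T 2 2 2 0 0 := ⟨by simp, by norm_num, by norm_num, by norm_num⟩
  have am := (near_affine (T := T) (C := 1) (p0 := m) (p1 := y) hm hy.le).mul hT1 iM
  have al := (near_affine (T := T) (C := 1) (p0 := l) (p1 := x) hl hx.le).mul hT1 iL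
  have A := ((one2.mul hT1 axy).mul hT1 (iM.mul hT1 iL)).mul hT1 cxy
  have B := ((one2.mul hT1 one2).mul hT1 ((iM.mul hT1 iM).mul hT1 (iL.mul hT1 iL))).mul hT1
    ((tT.add ((two.mul hT1 (tT.mul hT1 tT)).mul hT1 (am.mul hT1 al))).mul hT1 (cw.mul hT1 pxy))
  refine ⟨?_, ?_⟩
  · convert A.mono (D := 10 ^ 30) (by norm_num) using 1 <;> first | rfl | ring
  · convert B.mono (D := 10 ^ 30) (by norm_num) using 1 <;> first | rfl | ring

/-- coefficient of `Δ_i Δ_j` in the two-site form, up to the factor `(1-m^2)(1-l^2)` -/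
noncomputable def pairKer (m l T x y : ℝ) : ℝ := kerA m l T x y + kerB m l T x y

noncomputable def co1 (m l x y : ℝ) : ℝ :=
  (-(x * y) + (-(l * x) - m * y)) * (x * y) + (1 + m * x) * (1 + l * y)

noncomputable def co2 (m l x y : ℝ) : ℝ :=
  (((l * x) ^ 2 + (m * y) * (l * x) + (m * y) ^ 2) + (x * y) * (l * x + m * y) - 1) * (x * y)
    + (1 + m * x) * (1 + l * y) * (x * y + 2 * (m * l) - 2 * (m * y) - 2 * (l * x))

lemma co_bound {m l : ℝ} (hm : |m| ≤ 1) (hl : |l| ≤ 1) (σ τ : Bool) :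
    |co1 m l (sg σ) (sg τ)| ≤ 8 ∧ |co2 m l (sg σ) (sg τ)| ≤ 40 := by
  have habs : ∀ {a b : ℝ}, |a| ≤ 1 → |b| ≤ 1 → |a * b| ≤ 1 := fun ha hb => by
    rw [abs_mul]; exact mul_le_one₀ ha (abs_nonneg _) hb
  have ha := habs hm (abs_sg τ).le
  have hb := habs hl (abs_sg σ).le
  have hd := habs hm hl
  have hc : |sg σ * sg τ| = 1 := by simp [abs_sg]
  have hw : |(1 + m * sg σ) * (1 + l * sg τ)| ≤ 4 := by
    have h1 := abs_add_le 1 (m * sg σ); have h2 := abs_add_le 1 (l * sg τ)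
    rw [abs_one] at h1 h2
    have := habs hm (abs_sg σ).le; have := habs hl (abs_sg τ).le
    rw [abs_mul]
    calc _ ≤ (2:ℝ) * 2 := mul_le_mul (by linarith) (by linarith) (abs_nonneg _) (by norm_num)
      _ = 4 := by norm_num
  unfold co1 co2
  generalize hA : m * sg τ = A at *
  generalize hB : l * sg σ = B at *
  generalize hD : m * l = D at *
  generalize hC : sg σ * sg τ = C at *
  generalize hW : (1 + m * sg σ) * (1 + l * sg τ) = W at *
  have i1 : |-C + (-B - A)| ≤ 3 := by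
    have := abs_add_le (-C) (-B - A); have := abs_sub (-B) A
    rw [abs_neg] at *
    linarith
  have i2 : |B ^ 2 + A * B + A ^ 2 + C * (B + A) - 1| ≤ 6 := by
    have := habs ha hb
    have := habs hb hb
    have := habs ha ha
    have := habs hc.le hb
    have := habs hc.le ha
    rw [abs_le] at *
    constructor <;> linarith [sq A, sq B]
  have i3 : |C + 2 * D - 2 * A - 2 * B| ≤ 7 := by
    have := abs_le.mp hc.le
    rw [abs_le] at *
    constructor <;> linarith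
  constructor
  · refine (abs_add_le _ _).trans ?_
    rw [abs_mul, hc, mul_one]; linarith
  · refine (abs_add_le _ _).trans ?_
    rw [abs_mul, hc, mul_one, abs_mul]
    have := mul_le_mul hw i3 (abs_nonneg _) (by norm_num)
    linarith

lemma sum_sign_bound (q s : Bool → Bool → ℝ) (B : ℝ) (hq : ∀ σ τ, |q σ τ| ≤ B)
    (hs : ∀ σ τ, |s σ τ| = 1) : |∑ σ, ∑ τ, q σ τ * s σ τ| ≤ 4 * B := by
  refine (abs_sum_le_sum_abs _ _).trans ?_
  calc ∑ σ, |∑ τ, q σ τ * s σ τ| ≤ ∑ σ : Bool, ∑ τ : Bool, B := Finset.sum_le_sum fun σ _ =>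
        (abs_sum_le_sum_abs _ _).trans (Finset.sum_le_sum fun τ _ => by
          rw [abs_mul, hs, mul_one]; exact hq σ τ)
    _ = 4 * B := by simp; ring

lemma quad_form_lower {k1 k2 c1 c2 T f1 f2 f3 : ℝ} (hk1 : |k1| ≤ 32) (hk2 : |k2| ≤ 160)
    (hc1 : |c1| ≤ 160) (hc2 : |c2| ≤ 160) (hT : |T| ≤ 1 / 100) :
    -(1000 * |T| ^ 3 * (4 * f1 ^ 2 + 4 * f2 ^ 2 + 8 * f3 ^ 2))
      ≤ (4 + k1 * T + k2 * T ^ 2) * f3 ^ 2 + T ^ 2 * (c1 * (f1 * f3) + c2 * (f2 * f3)) := by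
  have a1 : |k1 * T| ≤ 32 * (1 / 100) := by
    rw [abs_mul]; exact mul_le_mul hk1 hT (abs_nonneg _) (by norm_num)
  have a2 : |k2 * T ^ 2| ≤ 160 * (1 / 100) ^ 2 := by
    rw [abs_mul, abs_pow]; exact mul_le_mul hk2 (pow_le_pow_left₀ (abs_nonneg _) hT 2) (by positivity) (by norm_num)
  rw [show (32:ℝ) * (1 / 100) = 8 / 25 by norm_num] at a1
  rw [show (160:ℝ) * (1 / 100) ^ 2 = 2 / 125 by norm_num] at a2
  have h5 : 2 * f3 ^ 2 ≤ (4 + k1 * T + k2 * T ^ 2) * f3 ^ 2 :=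
    mul_le_mul_of_nonneg_right (by linarith [neg_abs_le (k1 * T), neg_abs_le (k2 * T ^ 2)]) (sq_nonneg _)
  have cr : ∀ c f : ℝ, |c| ≤ 160 → -(f3 ^ 2 + 6400 * |T| ^ 4 * f ^ 2) ≤ T ^ 2 * (c * (f * f3)) := by
    intro c f hc
    have hb : c ^ 2 ≤ 25600 := by
      rw [← sq_abs]; linarith [pow_le_pow_left₀ (abs_nonneg c) hc 2]
    have e4 : |T| ^ 4 = (T ^ 2) ^ 2 := by rw [show |T| ^ 4 = (|T| ^ 2) ^ 2 by ring, sq_abs]
    rw [e4]
    linarith [sq_nonneg (f3 + T ^ 2 * c * f / 2), mul_le_mul_of_nonneg_right hb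
      (by positivity : (0:ℝ) ≤ (T ^ 2) ^ 2 * f ^ 2)]
  have hT4 : |T| ^ 4 ≤ |T| ^ 3 * (1 / 100) := by
    rw [pow_succ]; exact mul_le_mul_of_nonneg_left hT (by positivity)
  have := cr c1 f1 hc1
  have := cr c2 f2 hc2
  have := mul_le_mul_of_nonneg_right hT4 (sq_nonneg f1)
  have := mul_le_mul_of_nonneg_right hT4 (sq_nonneg f2)
  have : 0 ≤ |T| ^ 3 * f1 ^ 2 := by positivity
  have : 0 ≤ |T| ^ 3 * f2 ^ 2 := by positivity
  have : 0 ≤ |T| ^ 3 * f3 ^ 2 := by positivity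
  linarith

lemma poly_lower {m l T : ℝ} (f1 f2 f3 : ℝ) (hm : |m| ≤ 1) (hl : |l| ≤ 1) (hT : |T| ≤ 1 / 100) :
    -(1000 * |T| ^ 3 * ∑ σ, ∑ τ, ((f1 + f3 * sg τ) ^ 2 + (f2 + f3 * sg σ) ^ 2))
      ≤ ∑ σ, ∑ τ, (sg σ * sg τ + co1 m l (sg σ) (sg τ) * T + co2 m l (sg σ) (sg τ) * T ^ 2)
          * ((f1 + f3 * sg τ) * (f2 + f3 * sg σ)) := by
  have hc : ∀ σ τ : Bool, |sg σ * sg τ| = 1 := fun σ τ => by simp [abs_sg]
  have b1 := fun σ τ => (co_bound hm hl σ τ).1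
  have b2 := fun σ τ => (co_bound hm hl σ τ).2
  have k1 := sum_sign_bound _ _ 8 b1 hc
  have k2 := sum_sign_bound _ _ 40 b2 hc
  have c1 := sum_sign_bound _ (fun σ _ => sg σ) 40 b2 fun σ _ => abs_sg σ
  have c2 := sum_sign_bound _ (fun _ τ => sg τ) 40 b2 fun _ τ => abs_sg τ
  norm_num at k1 k2 c1 c2
  refine le_trans (le_of_eq ?_) ((quad_form_lower (f1 := f1) (f2 := f2) (f3 := f3) k1 k2 c1 c2 hT).trans (le_of_eq ?_))
  · simp only [Fintype.sum_bool, sg, if_true, Bool.false_eq_true, if_false]; ring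
  · simp only [co1, co2, Fintype.sum_bool, sg, if_true, Bool.false_eq_true, if_false]; ring

theorem kernel_lower : ∃ C : ℝ, 0 ≤ C ∧ ∀ m l T f1 f2 f3 : ℝ, |m| ≤ 1 → |l| ≤ 1 →
    |T| ≤ 1 / 100 →
    -(C * |T| ^ 3 * ∑ σ, ∑ τ, ((f1 + f3 * sg τ) ^ 2 + (f2 + f3 * sg σ) ^ 2))
      ≤ ∑ σ, ∑ τ, pairKer m l T (sg σ) (sg τ) * ((f1 + f3 * sg τ) * (f2 + f3 * sg σ)) := by
  obtain ⟨C, hC, hK⟩ := kernel_expand
  refine ⟨2 * C + 1000, by linarith, fun m l T f1 f2 f3 hm hl hT => ?_⟩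
  set q0 := fun σ τ : Bool => sg σ * sg τ
  set q1 := fun σ τ : Bool => (-(sg σ * sg τ) + (-(l * sg σ) - m * sg τ)) * (sg σ * sg τ)
    + (1 + m * sg σ) * (1 + l * sg τ)
  set q2 := fun σ τ : Bool => (((l * sg σ) ^ 2 + (m * sg τ) * (l * sg σ) + (m * sg τ) ^ 2)
      + (sg σ * sg τ) * (l * sg σ + m * sg τ) - 1) * (sg σ * sg τ)
    + (1 + m * sg σ) * (1 + l * sg τ)
      * (sg σ * sg τ + 2 * (m * l) - 2 * (m * sg τ) - 2 * (l * sg σ))
  set d := fun σ τ : Bool => (f1 + f3 * sg τ) * (f2 + f3 * sg σ)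
  set S := ∑ σ, ∑ τ, ((f1 + f3 * sg τ) ^ 2 + (f2 + f3 * sg σ) ^ 2) with hS
  have hpt : ∀ σ τ, (q0 σ τ + q1 σ τ * T + q2 σ τ * T ^ 2) * d σ τ
      - C * |T| ^ 3 * ((f1 + f3 * sg τ) ^ 2 + (f2 + f3 * sg σ) ^ 2)
      ≤ pairKer m l T (sg σ) (sg τ) * d σ τ := by
    intro σ τ
    obtain ⟨hA, hB⟩ := hK m l T (sg σ) (sg τ) hm hl (by linarith) (abs_sg σ) (abs_sg τ)
    have h := (hA.add hB).1
    have e : sg σ * sg τ + 0 = q0 σ τ := add_zero _
    rw [e] at h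
    have h2 : |(pairKer m l T (sg σ) (sg τ) - (q0 σ τ + q1 σ τ * T + q2 σ τ * T ^ 2)) * d σ τ|
        ≤ (C + C) * |T| ^ 3 * |d σ τ| := by
      rw [abs_mul]; exact mul_le_mul_of_nonneg_right h (abs_nonneg _)
    have h3 : |d σ τ| ≤ ((f1 + f3 * sg τ) ^ 2 + (f2 + f3 * sg σ) ^ 2) / 2 := by
      simp only [d]; rw [abs_mul]
      nlinarith [sq_nonneg (|f1 + f3 * sg τ| - |f2 + f3 * sg σ|), sq_abs (f1 + f3 * sg τ),
        sq_abs (f2 + f3 * sg σ)]
    have := mul_le_mul_of_nonneg_left h3 (by positivity : 0 ≤ (C + C) * |T| ^ 3)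
    have := neg_abs_le ((pairKer m l T (sg σ) (sg τ) - (q0 σ τ + q1 σ τ * T + q2 σ τ * T ^ 2)) * d σ τ)
    linarith
  have hmain : -(1000 * |T| ^ 3 * S)
      ≤ ∑ σ, ∑ τ, (q0 σ τ + q1 σ τ * T + q2 σ τ * T ^ 2) * d σ τ := poly_lower f1 f2 f3 hm hl hT
  have hsum := Finset.sum_le_sum (s := univ) fun σ (_ : σ ∈ univ) =>
    Finset.sum_le_sum (s := univ) fun τ (_ : τ ∈ univ) => hpt σ τ
  simp only [Finset.sum_sub_distrib, ← Finset.mul_sum, ← hS] at hsum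
  have hT0 : 0 ≤ |T| ^ 3 * S := by
    have : 0 ≤ S := Finset.sum_nonneg fun σ _ => Finset.sum_nonneg fun τ _ => by positivity
    positivity
  have := mul_le_mul_of_nonneg_right (by linarith : C + 1000 ≤ 2 * C + 1000) hT0
  linarith

end Vale.Agent.P150.HT
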