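import Vale.Agent.P150.HT.Mixing
import Vale.Agent.P150.HT.Gradient

/-! Mixing needs time of order `log N`, at every temperature. -/

namespace Vale.Agent.P150.HT

open Real Finset Matrix

variable {N : ℕ} (β : ℝ) (g : Fin N × Fin N → ℝ)

/-- the semigroup -/
noncomputable def smg (t : ℝ) (f : Conf N → ℝ) (x : Conf N) : ℝ := ∑ y, kernel β g t x y * f y

lemma negL_eq (f : Conf N → ℝ) : negL (skK β g) 0 f = -(generator β g *ᵥ f) :=
  funext fun x => negL_skK β g f x

lemma hasDerivAt_smg (f : Conf N → ℝ) (t : ℝ) (x : Conf N) :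
    HasDerivAt (fun r => smg β g r f x) (-negL (skK β g) 0 (smg β g t f) x) t := by
  letI : NormedRing (Matrix (Conf N) (Conf N) ℝ) := Matrix.linftyOpNormedRing
  letI : NormedAlgebra ℝ (Matrix (Conf N) (Conf N) ℝ) := Matrix.linftyOpNormedAlgebra
  let L : Matrix (Conf N) (Conf N) ℝ →ₗ[ℝ] ℝ :=
    { toFun := fun M => ∑ z, M x z * f z
      map_add' := fun A B => by simp [add_mul, Finset.sum_add_distrib]
      map_smul' := fun c A => by simp [Finset.mul_sum, mul_assoc] }
  have hk : HasDerivAt (fun r : ℝ => kernel β g r) (generator β g * kernel β g t) t :=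
    hasDerivAt_exp_smul_const' (generator β g) t
  refine ((LinearMap.toContinuousLinearMap L).hasFDerivAt.comp_hasDerivAt t hk).congr_deriv ?_
  rw [negL_skK, neg_neg]
  change ∑ z, (generator β g * kernel β g t) x z * f z = _
  simp only [Matrix.mul_apply, Matrix.mulVec, dotProduct, smg, Finset.sum_mul, Finset.mul_sum]
  rw [Finset.sum_comm]
  exact Finset.sum_congr rfl fun w _ => Finset.sum_congr rfl fun z _ => by ring

/-- derivative of a semigroup applied to a moving function -/
lemma hasDerivAt_interp (Φ : ℝ → Conf N → ℝ) (Φ' : Conf N → ℝ) (t τ : ℝ) (x : Conf N)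
    (hΦ : ∀ y, HasDerivAt (fun r => Φ r y) (Φ' y) τ) :
    HasDerivAt (fun r => smg β g (t - r) (Φ r) x)
      (smg β g (t - τ) (fun y => Φ' y + negL (skK β g) 0 (Φ τ) y) x) τ := by
  letI : NormedRing (Matrix (Conf N) (Conf N) ℝ) := Matrix.linftyOpNormedRing
  letI : NormedAlgebra ℝ (Matrix (Conf N) (Conf N) ℝ) := Matrix.linftyOpNormedAlgebra
  have hk : ∀ y, HasDerivAt (fun r => kernel β g (t - r) x y)
      (-(kernel β g (t - τ) * generator β g) x y) τ := by
    intro y
    let L : Matrix (Conf N) (Conf N) ℝ →ₗ[ℝ] ℝ :=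
      { toFun := fun M => M x y, map_add' := fun _ _ => rfl, map_smul' := fun _ _ => rfl }
    have h1 : HasDerivAt (fun r : ℝ => kernel β g r) (kernel β g (t - τ) * generator β g) (t - τ) :=
      hasDerivAt_exp_smul_const (generator β g) (t - τ)
    have h2 := ((LinearMap.toContinuousLinearMap L).hasFDerivAt.comp_hasDerivAt (t - τ) h1).comp τ
      ((hasDerivAt_id τ).const_sub t)
    exact h2.congr_deriv (mul_neg_one _)
  refine (HasDerivAt.fun_sum fun y _ => (hk y).mul (hΦ y)).congr_deriv ?_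
  simp only [smg, mul_add, Finset.sum_add_distrib, negL_eq, Pi.neg_apply, mul_neg,
    Finset.sum_neg_distrib, neg_mul]
  rw [add_comm]
  congr 2
  simp only [Matrix.mulVec, dotProduct, Matrix.mul_apply, Finset.sum_mul, Finset.mul_sum]
  rw [Finset.sum_comm]
  exact Finset.sum_congr rfl fun w _ => Finset.sum_congr rfl fun z _ => by ring

lemma smg_mono {t : ℝ} (ht : 0 ≤ t) {f h : Conf N → ℝ} (hfh : ∀ y, f y ≤ h y) (x : Conf N) :
    smg β g t f x ≤ smg β g t h x :=
  Finset.sum_le_sum fun y _ => mul_le_mul_of_nonneg_left (hfh y) (kernel_nonneg β g ht x y)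

lemma smg_zero (f : Conf N → ℝ) : smg β g 0 f = f := by
  letI : NormedRing (Matrix (Conf N) (Conf N) ℝ) := Matrix.linftyOpNormedRing
  letI : NormedAlgebra ℝ (Matrix (Conf N) (Conf N) ℝ) := Matrix.linftyOpNormedAlgebra
  funext x
  simp [smg, kernel, NormedSpace.exp_zero, Matrix.one_apply]

lemma smg_const (t c : ℝ) (x : Conf N) : smg β g t (fun _ => c) x = c := by
  simp [smg, ← Finset.sum_mul, kernel_row]

variable {a ρ : ℝ}
  (hq : ∀ y : Fin N → ℝ, |∑ i, ∑ j, skK β g i j * y i * y j| ≤ a * ∑ i, y i ^ 2)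
  (hρ : ∀ i, ∑ j, skK β g i j ^ 2 ≤ ρ) (hK : ∀ i j, |skK β g i j| ≤ 1 / 100)
include hq hρ hK

/-- The gradient of a linear function grows at most exponentially. -/
lemma grad_bound (u : Fin N → ℝ) {κ : ℝ} (hκ : a + 8 * ρ ≤ κ) {s : ℝ} (hs : 0 ≤ s) (x : Conf N) :
    grad2 (smg β g s fun y => ∑ i, u i * spin (y i)) x ≤ exp (2 * κ * s) * ∑ i, u i ^ 2 := by
  set f : Conf N → ℝ := fun y => ∑ i, u i * spin (y i) with hf
  set F : ℝ → Conf N → ℝ := fun r => smg β g r f with hF
  have hG : ∀ τ y, HasDerivAt (fun r => exp (-(2 * κ) * r) * grad2 (F r) y)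
      (exp (-(2 * κ) * τ) * (-(2 * κ) * grad2 (F τ) y
        - 2 * ∑ i, dlt (F τ) y i * dlt (negL (skK β g) 0 (F τ)) y i)) τ := by
    intro τ y
    have h1 : ∀ i, HasDerivAt (fun r => dlt (F r) y i) (-dlt (negL (skK β g) 0 (F τ)) y i) τ := by
      intro i
      refine (((hasDerivAt_smg β g f τ _).sub (hasDerivAt_smg β g f τ _)).div_const 2).congr_deriv ?_
      simp only [dlt, hF]; ring
    have h2 : HasDerivAt (fun r => grad2 (F r) y)
        (-(2 * ∑ i, dlt (F τ) y i * dlt (negL (skK β g) 0 (F τ)) y i)) τ := by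
      refine (HasDerivAt.fun_sum fun i _ => (h1 i).pow 2).congr_deriv ?_
      rw [Finset.mul_sum, ← Finset.sum_neg_distrib]
      exact Finset.sum_congr rfl fun i _ => by simp; ring
    exact (((hasDerivAt_id τ).const_mul (-(2 * κ))).exp.mul h2).congr_deriv (by simp; ring)
  have hd : ∀ τ, HasDerivAt
      (fun r => smg β g (s - r) (fun y => exp (-(2 * κ) * r) * grad2 (F r) y) x) _ τ := fun τ =>
    hasDerivAt_interp β g _ _ s τ x (hG τ)
  have hanti : AntitoneOn
      (fun r => smg β g (s - r) (fun y => exp (-(2 * κ) * r) * grad2 (F r) y) x) (Set.Icc 0 s) := by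
    refine antitoneOn_of_hasDerivWithinAt_nonpos (convex_Icc 0 s)
      (fun τ _ => (hd τ).continuousAt.continuousWithinAt) (fun τ _ => (hd τ).hasDerivWithinAt)
      (fun τ hτ => ?_)
    refine (smg_mono β g (sub_nonneg.mpr (interior_subset hτ).2) (h := fun _ => 0) (fun y => ?_) x).trans
      (le_of_eq (smg_const β g _ _ x))
    have e : negL (skK β g) 0 (fun z => exp (-(2 * κ) * τ) * grad2 (F τ) z) y
        = exp (-(2 * κ) * τ) * negL (skK β g) 0 (grad2 (F τ)) y := by
      simp only [negL, dlt, Finset.mul_sum]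
      exact Finset.sum_congr rfl fun i _ => by ring
    rw [e, ← mul_add]
    refine mul_nonpos_of_nonneg_of_nonpos (exp_pos _).le ?_
    have h := grad_step (skK β g) (skK_symm β g) (skK_diag β g) (F τ) y hq hρ hK
    have h0 : 0 ≤ grad2 (F τ) y := Finset.sum_nonneg fun i _ => sq_nonneg _
    nlinarith
  have h := hanti (Set.left_mem_Icc.mpr hs) (Set.right_mem_Icc.mpr hs) hs
  have e0 : ∀ y, grad2 (F 0) y = ∑ i, u i ^ 2 := by
    intro y
    simp only [hF, smg_zero, grad2, hf, dlt_sum]
    refine Finset.sum_congr rfl fun i _ => ?_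
    congr 1
    rw [Finset.sum_eq_single i]
    · simp [dlt, spin]
    · intro k _ hk; simp [dlt, Function.update_of_ne hk]
    · simp
  simp only [sub_self, smg_zero, sub_zero, mul_zero, exp_zero, one_mul, e0, smg_const] at h
  calc grad2 (F s) x = exp (2 * κ * s) * (exp (-(2 * κ) * s) * grad2 (F s) x) := by
        rw [← mul_assoc, ← exp_add, show 2 * κ * s + -(2 * κ) * s = 0 by ring, exp_zero, one_mul]
    _ ≤ _ := mul_le_mul_of_nonneg_left h (exp_pos _).le

/-- The variance of a linear function under the kernel. -/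
lemma kernel_var (u : Fin N → ℝ) {κ : ℝ} (hκ : a + 8 * ρ ≤ κ) (hκ1 : 1 ≤ κ) {t : ℝ} (ht : 0 ≤ t)
    (x : Conf N) :
    smg β g t (fun y => (∑ i, u i * spin (y i)) ^ 2) x
      - smg β g t (fun y => ∑ i, u i * spin (y i)) x ^ 2
      ≤ 2 * exp (2 * κ * t) * ∑ i, u i ^ 2 := by
  set f : Conf N → ℝ := fun y => ∑ i, u i * spin (y i) with hf
  set F : ℝ → Conf N → ℝ := fun r => smg β g r f with hF
  set U := ∑ i, u i ^ 2 with hU
  have hU0 : 0 ≤ U := Finset.sum_nonneg fun i _ => sq_nonneg _
  have hd : ∀ τ, HasDerivAt (fun r => smg β g (t - r) (fun y => F r y ^ 2) x)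
      (smg β g (t - τ) (fun y => 2 * F τ y * -negL (skK β g) 0 (F τ) y
        + negL (skK β g) 0 (fun z => F τ z ^ 2) y) x) τ := fun τ =>
    hasDerivAt_interp β g _ _ t τ x fun y =>
      ((hasDerivAt_smg β g f τ y).pow 2).congr_deriv (by simp [hF])
  have hd2 : ∀ τ, HasDerivAt
      (fun r => smg β g (t - r) (fun y => F r y ^ 2) x + 2 * U * exp (2 * κ * r))
      (smg β g (t - τ) (fun y => 2 * F τ y * -negL (skK β g) 0 (F τ) y
        + negL (skK β g) 0 (fun z => F τ z ^ 2) y) x + 4 * κ * U * exp (2 * κ * τ)) τ := fun τ =>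
    ((hd τ).add ((((hasDerivAt_id τ).const_mul (2 * κ)).exp).const_mul (2 * U))).congr_deriv
      (by simp; ring)
  have hmono : MonotoneOn
      (fun r => smg β g (t - r) (fun y => F r y ^ 2) x + 2 * U * exp (2 * κ * r)) (Set.Icc 0 t) := by
    refine monotoneOn_of_hasDerivWithinAt_nonneg (convex_Icc 0 t)
      (fun τ _ => (hd2 τ).continuousAt.continuousWithinAt) (fun τ _ => (hd2 τ).hasDerivWithinAt)
      (fun τ hτ => ?_)
    have hτ' := interior_subset hτ
    have h1 : smg β g (t - τ) (fun _ => -(4 * U * exp (2 * κ * τ))) x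
        ≤ smg β g (t - τ) (fun y => 2 * F τ y * -negL (skK β g) 0 (F τ) y
          + negL (skK β g) 0 (fun z => F τ z ^ 2) y) x := by
      refine smg_mono β g (sub_nonneg.mpr hτ'.2) (fun y => ?_) x
      have hg := grad_bound β g hq hρ hK u hκ hτ'.1 y
      have e : 2 * F τ y * -negL (skK β g) 0 (F τ) y + negL (skK β g) 0 (fun z => F τ z ^ 2) y
          = -(2 * ∑ i, (1 - spin (y i) * tn (skK β g) 0 y i) * dlt (F τ) y i ^ 2) := by
        simp only [negL, sq, dlt_mul, mul_neg, ← Finset.sum_neg_distrib, Finset.mul_sum,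
          ← Finset.sum_add_distrib]
        refine Finset.sum_congr rfl fun i _ => ?_
        have hh : spin (y i) * spin (y i) = 1 := spin_sq _
        linear_combination (-2 * dlt (F τ) y i * dlt (F τ) y i) * hh
      rw [e, neg_le_neg_iff]
      have h2 : ∑ i, (1 - spin (y i) * tn (skK β g) 0 y i) * dlt (F τ) y i ^ 2
          ≤ 2 * grad2 (F τ) y := by
        rw [grad2, Finset.mul_sum]
        refine Finset.sum_le_sum fun i _ => mul_le_mul_of_nonneg_right ?_ (sq_nonneg _)
        obtain ⟨h3, h4⟩ := abs_lt.mp (tn_abs (skK β g) 0 y i)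
        cases y i <;> simp only [spin, Bool.false_eq_true, if_false, if_true] <;> linarith
      nlinarith
    rw [smg_const] at h1
    nlinarith [mul_le_mul_of_nonneg_right hκ1 (by positivity : 0 ≤ 4 * U * exp (2 * κ * τ))]
  have h := hmono (Set.left_mem_Icc.mpr ht) (Set.right_mem_Icc.mpr ht) ht
  simp only [sub_self, smg_zero, sub_zero, mul_zero, exp_zero, mul_one, hF] at h
  linarith

omit hq hρ hK

lemma generator_symm (f h : Conf N → ℝ) :
    ∑ x, gibbs β g x * f x * (generator β g *ᵥ h) x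
      = ∑ x, gibbs β g x * h x * (generator β g *ᵥ f) x := by
  rw [symm_form, symm_form]; congr 1
  exact Finset.sum_congr rfl fun i _ => Finset.sum_congr rfl fun x _ => by ring

lemma smg_eq_zero {f : Conf N → ℝ} {t : ℝ} (h : smg β g t f = 0) : f = 0 := by
  letI : NormedRing (Matrix (Conf N) (Conf N) ℝ) := Matrix.linftyOpNormedRing
  letI : NormedAlgebra ℝ (Matrix (Conf N) (Conf N) ℝ) := Matrix.linftyOpNormedAlgebra
  have h1 : kernel β g (-t) * kernel β g t = 1 := by
    rw [kernel, kernel, ← Matrix.exp_add_of_commute _ _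
      (((Commute.refl (generator β g)).smul_left (-t)).smul_right t), ← add_smul, neg_add_cancel,
      zero_smul, NormedSpace.exp_zero]
  have h2 : kernel β g t *ᵥ f = 0 := h
  calc f = (1 : Matrix (Conf N) (Conf N) ℝ) *ᵥ f := (Matrix.one_mulVec f).symm
    _ = kernel β g (-t) *ᵥ (kernel β g t *ᵥ f) := by rw [← h1, Matrix.mulVec_mulVec]
    _ = 0 := by rw [h2, Matrix.mulVec_zero]

/-- A single spin keeps correlation at least `exp (-4 t)`. -/
lemma spin_memory (i : Fin N) {t : ℝ} (ht : 0 ≤ t) :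
    exp (-(4 * t)) ≤ ∑ x, gibbs β g x * smg β g t (fun y => spin (y i)) x ^ 2 := by
  set f : Conf N → ℝ := fun y => spin (y i) with hf
  set F : ℝ → Conf N → ℝ := fun r => smg β g r f with hF
  set G : ℝ → ℝ := fun r => ∑ x, gibbs β g x * F r x ^ 2 with hG
  set E : ℝ → ℝ := fun r => -∑ x, gibbs β g x * F r x * (generator β g *ᵥ F r) x with hE
  have hFd : ∀ r y, HasDerivAt (fun s => F s y) ((generator β g *ᵥ F r) y) r := fun r y =>
    (hasDerivAt_smg β g f r y).congr_deriv (by rw [negL_skK, neg_neg])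
  have hGd : ∀ r, HasDerivAt G (-2 * E r) r := by
    intro r
    refine (HasDerivAt.fun_sum fun x _ => ((hFd r x).pow 2).const_mul (gibbs β g x)).congr_deriv ?_
    simp only [hE, neg_mul_neg, Finset.mul_sum]
    exact Finset.sum_congr rfl fun x _ => by simp; ring
  have hEd : ∀ r, HasDerivAt E (-2 * ∑ x, gibbs β g x * (generator β g *ᵥ F r) x ^ 2) r := by
    intro r
    have hL : ∀ x, HasDerivAt (fun s => (generator β g *ᵥ F s) x)
        ((generator β g *ᵥ (generator β g *ᵥ F r)) x) r := by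
      intro x
      simp only [Matrix.mulVec, dotProduct]
      exact HasDerivAt.fun_sum fun y _ => (hFd r y).const_mul (generator β g x y)
    refine ((HasDerivAt.fun_sum fun x _ => (((hFd r x).const_mul (gibbs β g x))).mul (hL x))
      ).neg.congr_deriv ?_
    rw [Finset.sum_add_distrib, generator_symm β g (F r) (generator β g *ᵥ F r),
      ← Finset.sum_add_distrib, neg_mul, Finset.mul_sum]
    congr 1
    exact Finset.sum_congr rfl fun x _ => by ring
  have hGpos : ∀ r, 0 < G r := by
    intro r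
    have h0 : ∀ x, 0 ≤ gibbs β g x * F r x ^ 2 := fun x => mul_nonneg (gibbs_pos β g x).le (sq_nonneg _)
    refine lt_of_le_of_ne (Finset.sum_nonneg fun x _ => h0 x) (fun h => ?_)
    have h1 : F r = 0 := by
      funext x
      have := (Finset.sum_eq_zero_iff_of_nonneg fun x _ => h0 x).mp h.symm x (mem_univ x)
      simpa [(gibbs_pos β g x).ne'] using this
    have := congrFun (smg_eq_zero β g h1) (fun _ => true)
    simp [hf, spin] at this
  have hR : Antitone fun r => E r / G r := by
    refine antitone_of_hasDerivAt_nonpos (fun r => (hEd r).div (hGd r) (hGpos r).ne') fun r => ?_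
    refine div_nonpos_of_nonpos_of_nonneg ?_ (sq_nonneg _)
    have hcs : E r ^ 2 ≤ G r * ∑ x, gibbs β g x * (generator β g *ᵥ F r) x ^ 2 := by
      simp only [hE, hG, neg_sq]
      exact Finset.sum_sq_le_sum_mul_sum_of_sq_le_mul (R := ℝ) _
        (fun x _ => mul_nonneg (gibbs_pos β g x).le (sq_nonneg _))
        (fun x _ => mul_nonneg (gibbs_pos β g x).le (sq_nonneg _)) (fun x _ => le_of_eq (by ring))
    linarith
  have hG0 : G 0 = 1 := by simp [hG, hF, smg_zero, hf, sq, spin_sq, gibbs_sum]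
  have hE0 : E 0 ≤ 2 := by
    have : E 0 = dirichlet β g f := by simp only [hE, hF, smg_zero, dirichlet]
    rw [this, dirichlet_eq, Finset.sum_eq_single i]
    · have h1 : ∀ x, gibbs β g x * rate β g x i * (f (flip1 x i) - f x) ^ 2 ≤ gibbs β g x * 4 := by
        intro x
        have : (f (flip1 x i) - f x) ^ 2 = 4 := by
          simp only [hf, flip1_self, spin_not]
          linear_combination 4 * spin_sq (x i)
        rw [this]
        exact mul_le_mul_of_nonneg_right
          (mul_le_of_le_one_right (gibbs_pos β g x).le (rate_le_one β g x i)) (by norm_num)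
      calc 1 / 2 * ∑ x, gibbs β g x * rate β g x i * (f (flip1 x i) - f x) ^ 2
          ≤ 1 / 2 * ∑ x, gibbs β g x * 4 := mul_le_mul_of_nonneg_left
            (Finset.sum_le_sum fun x _ => h1 x) (by norm_num)
        _ = 2 := by rw [← Finset.sum_mul, gibbs_sum]; norm_num
    · intro k _ hk
      refine Finset.sum_eq_zero fun x _ => ?_
      simp [hf, flip1_ne x hk.symm]
    · simp
  have hle : ∀ r, 0 ≤ r → E r ≤ 2 * G r := by
    intro r hr
    have h := hR hr
    simp only [hG0, div_one] at h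
    rw [div_le_iff₀ (hGpos r)] at h
    exact h.trans (mul_le_mul_of_nonneg_right hE0 (hGpos r).le)
  have hd : ∀ r, HasDerivAt (fun s => G s * exp (4 * s)) ((-2 * E r + 4 * G r) * exp (4 * r)) r :=
    fun r => ((hGd r).mul (((hasDerivAt_id r).const_mul 4).exp)).congr_deriv (by simp; ring)
  have hmono : MonotoneOn (fun s => G s * exp (4 * s)) (Set.Icc 0 t) :=
    monotoneOn_of_hasDerivWithinAt_nonneg (convex_Icc 0 t)
      (fun r _ => (hd r).continuousAt.continuousWithinAt) (fun r _ => (hd r).hasDerivWithinAt)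
      (fun r hr => mul_nonneg (by linarith [hle r (interior_subset hr).1]) (exp_pos _).le)
  have h := hmono (Set.left_mem_Icc.mpr ht) (Set.right_mem_Icc.mpr ht) ht
  simp only [hG0, mul_zero, exp_zero, mul_one] at h
  rw [exp_neg, ← one_div, div_le_iff₀ (exp_pos _)]
  exact h

include hq hρ hK in
/-- No mixing before time `log N / (2 (2 κ + 4))`. -/
theorem log_lower {κ : ℝ} (hκ : a + 8 * ρ ≤ κ) (hκ1 : 1 ≤ κ) (hN : 81 ≤ N) {t : ℝ} (ht : 0 ≤ t)
    (htc : t ≤ log N / (2 * (2 * κ + 4))) : ∃ x, 1 / 4 < tvDist β g t x := by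
  have hN' : (81:ℝ) ≤ N := by exact_mod_cast hN
  set m : Conf N → Fin N → ℝ := fun x i => smg β g t (fun y => spin (y i)) x with hm
  have hsum : (N:ℝ) * exp (-(4 * t)) ≤ ∑ x, gibbs β g x * ∑ i, m x i ^ 2 := by
    simp only [Finset.mul_sum]
    rw [Finset.sum_comm]
    calc (N:ℝ) * exp (-(4 * t)) = ∑ _i : Fin N, exp (-(4 * t)) := by simp
      _ ≤ _ := Finset.sum_le_sum fun i _ => spin_memory β g i ht
  obtain ⟨x, -, hx⟩ := Finset.exists_max_image univ (fun x => ∑ i, m x i ^ 2) univ_nonempty
  refine ⟨x, ?_⟩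
  set u := m x with hu
  set M := ∑ i, u i ^ 2 with hM
  have hMlow : (N:ℝ) * exp (-(4 * t)) ≤ M := hsum.trans <| calc
    ∑ y, gibbs β g y * ∑ i, m y i ^ 2 ≤ ∑ y, gibbs β g y * M := Finset.sum_le_sum fun y _ =>
        mul_le_mul_of_nonneg_left (hx y (mem_univ y)) (gibbs_pos β g y).le
    _ = M := by rw [← Finset.sum_mul, gibbs_sum, one_mul]
  have hMpos : 0 < M := lt_of_lt_of_le (by positivity) hMlow
  set Q : Conf N → ℝ := fun y => ∑ i, u i * spin (y i) with hQ
  have hmean : smg β g t Q x = M := by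
    simp only [smg, hQ, Finset.mul_sum, hM]
    rw [Finset.sum_comm]
    refine Finset.sum_congr rfl fun i _ => ?_
    rw [sq]
    conv_rhs => arg 2; rw [hu, hm]
    simp only [smg, Finset.mul_sum]
    exact Finset.sum_congr rfl fun y _ => by ring
  have hvar := kernel_var β g hq hρ hK u hκ hκ1 ht x
  change smg β g t (fun y => Q y ^ 2) x - smg β g t Q x ^ 2 ≤ _ at hvar
  rw [hmean] at hvar
  -- Chebyshev
  have hbad : M ^ 2 * ∑ y, (if 0 < Q y then 0 else kernel β g t x y) ≤ 2 * exp (2 * κ * t) * M := by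
    refine le_trans ?_ hvar
    calc M ^ 2 * ∑ y, (if 0 < Q y then 0 else kernel β g t x y)
        ≤ ∑ y, kernel β g t x y * (Q y - M) ^ 2 := by
          rw [Finset.mul_sum]
          refine Finset.sum_le_sum fun y _ => ?_
          have hk := kernel_nonneg β g ht x y
          split_ifs with h
          · rw [mul_zero]; positivity
          · rw [mul_comm]; exact mul_le_mul_of_nonneg_left (by nlinarith) hk
      _ = smg β g t (fun y => Q y ^ 2) x - 2 * M * smg β g t Q x + M ^ 2 * ∑ y, kernel β g t x y := by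
          simp only [smg, Finset.mul_sum, ← Finset.sum_sub_distrib, ← Finset.sum_add_distrib]
          exact Finset.sum_congr rfl fun y _ => by ring
      _ = _ := by rw [hmean, kernel_row]; ring
  have hsmall : ∑ y, (if 0 < Q y then 0 else kernel β g t x y) < 1 / 4 := by
    have h1 : exp (2 * κ * t) * exp (4 * t) ≤ √(N:ℝ) := by
      rw [← exp_add, sqrt_eq_rpow, rpow_def_of_pos (by linarith)]
      refine exp_le_exp.mpr ?_
      rw [le_div_iff₀ (by linarith)] at htc
      linarith
    have h2 : 9 ≤ √(N:ℝ) := le_sqrt_of_sq_le (by linarith)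
    have h3 : 9 * exp (2 * κ * t) ≤ M := by
      refine le_trans ?_ hMlow
      rw [exp_neg, ← div_eq_mul_inv, le_div_iff₀ (exp_pos _)]
      calc 9 * exp (2 * κ * t) * exp (4 * t) = 9 * (exp (2 * κ * t) * exp (4 * t)) := by ring
        _ ≤ √(N:ℝ) * √(N:ℝ) := mul_le_mul h2 h1 (by positivity) (sqrt_nonneg _)
        _ = N := mul_self_sqrt (by linarith)
    by_contra hc
    push Not at hc
    have h4 := mul_le_mul_of_nonneg_left hc (sq_nonneg M)
    have h5 := mul_le_mul_of_nonneg_left h3 hMpos.le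
    nlinarith [mul_pos hMpos (exp_pos (2 * κ * t))]
  have hhalf : ∑ y, (if 0 < Q y then gibbs β g y else 0) ≤ 1 / 2 := by
    have hinv : Function.Involutive (neg : Conf N → Conf N) := fun x => by funext i; simp [neg]
    have e1 : ∑ y, (if 0 < Q y then gibbs β g y else 0)
        = ∑ y, (if Q y < 0 then gibbs β g y else 0) := by
      refine (Fintype.sum_bijective _ hinv.bijective _ _ fun y => ?_).symm
      have : Q (neg y) = -Q y := by simp [hQ, neg, spin_not, Finset.sum_neg_distrib]
      simp only [gibbs_neg, this, neg_pos]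
    have e2 : ∑ y, (if 0 < Q y then gibbs β g y else 0) + ∑ y, (if Q y < 0 then gibbs β g y else 0)
        ≤ 1 := by
      rw [← Finset.sum_add_distrib, ← gibbs_sum β g]
      refine Finset.sum_le_sum fun y _ => ?_
      have := gibbs_pos β g y
      split_ifs <;> linarith
    linarith
  have hlow : ∑ y, (if 0 < Q y then kernel β g t x y - gibbs β g y else 0) ≤ tvDist β g t x := by
    have h0 : ∑ y, (kernel β g t x y - gibbs β g y) = 0 := by
      rw [Finset.sum_sub_distrib, kernel_row, gibbs_sum, sub_self]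
    have h1 : ∀ y, 2 * (if 0 < Q y then kernel β g t x y - gibbs β g y else 0)
        - (kernel β g t x y - gibbs β g y) ≤ |kernel β g t x y - gibbs β g y| := by
      intro y
      split_ifs
      · linarith [le_abs_self (kernel β g t x y - gibbs β g y)]
      · linarith [neg_abs_le (kernel β g t x y - gibbs β g y)]
    have h2 := Finset.sum_le_sum fun y (_ : y ∈ univ) => h1 y
    rw [Finset.sum_sub_distrib, h0, ← Finset.mul_sum] at h2
    rw [tvDist]; linarith
  have e3 : ∑ y, (if 0 < Q y then kernel β g t x y - gibbs β g y else 0)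
      = 1 - ∑ y, (if 0 < Q y then 0 else kernel β g t x y)
        - ∑ y, (if 0 < Q y then gibbs β g y else 0) := by
    rw [← kernel_row β g t x, ← Finset.sum_sub_distrib, ← Finset.sum_sub_distrib]
    exact Finset.sum_congr rfl fun y _ => by split_ifs <;> ring
  linarith

end Vale.Agent.P150.HT
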