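import Vale.Agent.P150.Defs
import Vale.Agent.P150.HT.Interp

/-! The quadratic form of an off-diagonal Gaussian matrix is at most `(2 + η) √N` on the sphere,
with exponentially small failure probability. -/

namespace Vale.Agent.P150.HT

open MeasureTheory ProbabilityTheory Real Finset Filter

variable {N : ℕ}

/-- Twice the off-diagonal quadratic form. -/
def qform (g : Fin N × Fin N → ℝ) (t : Fin N → ℝ) : ℝ :=
  2 * ∑ i, ∑ j, if i < j then g (i, j) * (t i * t j) else 0

lemma disorder_eq (N : ℕ) : disorder N = gaussVec (Fin N × Fin N) := rfl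

instance (N : ℕ) : IsProbabilityMeasure (disorder N) := by rw [disorder_eq]; infer_instance

lemma integral_exp_sq {ε : ℝ} (hε : ε < 1 / 2) :
    Integrable (fun x => exp (ε * x ^ 2)) stdG ∧
      ∫ x, exp (ε * x ^ 2) ∂stdG = (√(1 - 2 * ε))⁻¹ := by
  have hb : 0 < 1 / 2 - ε := by linarith
  have e : ∀ x, gaussianPDFReal 0 1 x * exp (ε * x ^ 2)
      = (√(2 * π))⁻¹ * exp (-(1 / 2 - ε) * x ^ 2) := by
    intro x
    simp only [gaussianPDFReal, NNReal.coe_one, mul_one, sub_zero, mul_assoc, ← exp_add]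
    congr 2; ring
  constructor
  · rw [stdG, gaussianReal_of_var_ne_zero _ one_ne_zero,
      integrable_withDensity_iff_integrable_smul' (measurable_gaussianPDF 0 1)
        (Filter.Eventually.of_forall fun _ => gaussianPDF_lt_top)]
    simp only [toReal_gaussianPDF, smul_eq_mul, e]
    exact (integrable_exp_neg_mul_sq hb).const_mul _
  · simp only [stdG, integral_gaussianReal_eq_integral_smul one_ne_zero, smul_eq_mul, e,
      integral_const_mul, integral_gaussian]
    rw [← sqrt_inv, ← sqrt_inv, ← sqrt_mul (by positivity)]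
    congr 1
    field_simp [hb.ne', pi_pos.ne', show (1 - 2 * ε) ≠ 0 by linarith]

lemma integral_exp_sq_sum {ι : Type*} [Fintype ι] {ε : ℝ} (hε : ε < 1 / 2) :
    Integrable (fun h => exp (ε * ∑ k, h k ^ 2)) (gaussVec ι) ∧
      ∫ h, exp (ε * ∑ k, h k ^ 2) ∂gaussVec ι = ((√(1 - 2 * ε))⁻¹) ^ Fintype.card ι := by
  simp_rw [Finset.mul_sum, exp_sum]
  constructor
  · exact Integrable.fintype_prod (f := fun _ x => exp (ε * x ^ 2))
      fun _ => (integral_exp_sq hε).1
  · rw [gaussVec, integral_fintype_prod_eq_prod (f := fun _ x => exp (ε * x ^ 2))]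
    simp [(integral_exp_sq hε).2]

/-- coefficients of the matrix family -/
noncomputable def cA (σ : ℝ) (t : Fin N → ℝ) : (Fin N × Fin N) ⊕ Fin N → ℝ :=
  Sum.elim (fun p => if p.1 < p.2 then 2 * σ * (t p.1 * t p.2) else 0) (fun _ => 0)

/-- coefficients of the vector family -/
noncomputable def cB (t : Fin N → ℝ) : (Fin N × Fin N) ⊕ Fin N → ℝ :=
  Sum.elim (fun _ => 0) (fun i => 2 * t i)

lemma offdiag_mul (t u : Fin N → ℝ) :
    ∑ i, ∑ j, (if i < j then t i * t j * (u i * u j) else 0)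
      = ((∑ i, t i * u i) ^ 2 - ∑ i, t i ^ 2 * u i ^ 2) / 2 := by
  have h3 : ∀ i j, t i * t j * (u i * u j) = (if i < j then t i * t j * (u i * u j) else 0)
      + (if j < i then t i * t j * (u i * u j) else 0)
      + (if i = j then t i * t j * (u i * u j) else 0) := by
    intro i j
    rcases lt_trichotomy i j with h | h | h
    · simp [h, h.asymm, h.ne]
    · simp [h]
    · simp [h, h.asymm, h.ne']
  have hs : (∑ i, t i * u i) ^ 2 = ∑ i, ∑ j, t i * t j * (u i * u j) := by
    rw [sq, Finset.sum_mul_sum]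
    exact Finset.sum_congr rfl fun i _ => Finset.sum_congr rfl fun j _ => by ring
  have e2 : ∑ i, ∑ j, (if j < i then t i * t j * (u i * u j) else 0)
      = ∑ i, ∑ j, (if i < j then t i * t j * (u i * u j) else 0) := by
    rw [Finset.sum_comm]
    exact Finset.sum_congr rfl fun i _ => Finset.sum_congr rfl fun j _ => by
      split_ifs <;> ring
  have e3 : ∑ i, ∑ j, (if i = j then t i * t j * (u i * u j) else 0) = ∑ i, t i ^ 2 * u i ^ 2 := by
    simp only [Finset.sum_ite_eq, Finset.mem_univ, if_true]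
    exact Finset.sum_congr rfl fun i _ => by ring
  rw [hs]
  conv_rhs => rw [show ∑ i, ∑ j, t i * t j * (u i * u j) = ∑ i, ∑ j, _ from
    Finset.sum_congr rfl fun i _ => Finset.sum_congr rfl fun j _ => h3 i j]
  simp only [Finset.sum_add_distrib, e2, e3]
  ring

lemma dot_cA (σ : ℝ) (hσ : σ * σ = 1) (t u : Fin N → ℝ) :
    dot (cA σ t) (cA σ u) = 2 * (∑ i, t i * u i) ^ 2 - 2 * ∑ i, t i ^ 2 * u i ^ 2 := by
  simp only [dot, cA, Fintype.sum_sum_type, Sum.elim_inl, Sum.elim_inr, mul_zero,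
    Finset.sum_const_zero, add_zero, Fintype.sum_prod_type]
  have e : ∀ i j : Fin N, (if i < j then 2 * σ * (t i * t j) else 0) *
      (if i < j then 2 * σ * (u i * u j) else 0)
      = 4 * (if i < j then t i * t j * (u i * u j) else 0) := by
    intro i j
    split_ifs
    · linear_combination (4 * (t i * t j * (u i * u j))) * hσ
    · ring
  simp only [e, ← Finset.mul_sum, offdiag_mul]
  ring

lemma dot_cB (t u : Fin N → ℝ) : dot (cB t) (cB u) = 4 * ∑ i, t i * u i := by
  simp only [dot, cB, Fintype.sum_sum_type, Sum.elim_inl, Sum.elim_inr, mul_zero,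
    Finset.sum_const_zero, zero_add, Finset.mul_sum]
  exact Finset.sum_congr rfl fun i _ => by ring

lemma dot_cA_cB (σ : ℝ) (t u : Fin N → ℝ) : dot (cA σ t) (cB u) = 0 := by
  simp [dot, cA, cB]

lemma dot_cA_apply (σ : ℝ) (t : Fin N → ℝ) (w : (Fin N × Fin N) ⊕ Fin N → ℝ) :
    dot (cA σ t) w = σ * qform (fun p => w (Sum.inl p)) t := by
  simp only [dot, cA, qform, Fintype.sum_sum_type, Sum.elim_inl, Sum.elim_inr, zero_mul,
    Finset.sum_const_zero, add_zero, Fintype.sum_prod_type, Finset.mul_sum, ite_mul]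
  refine Finset.sum_congr rfl fun i _ => Finset.sum_congr rfl fun j _ => ?_
  split_ifs <;> ring

lemma dot_cB_apply (t : Fin N → ℝ) (ht : ∑ i, t i ^ 2 = 1) (hN : 0 < N)
    (w : (Fin N × Fin N) ⊕ Fin N → ℝ) :
    dot (cB t) w ≤ √(N:ℝ) + (∑ i, w (Sum.inr i) ^ 2) / √(N:ℝ) := by
  have hs : 0 < √(N:ℝ) := sqrt_pos.mpr (by exact_mod_cast hN)
  have e : √(N:ℝ) + (∑ i, w (Sum.inr i) ^ 2) / √(N:ℝ)
      = ∑ i, (√(N:ℝ) * t i ^ 2 + w (Sum.inr i) ^ 2 / √(N:ℝ)) := by
    rw [Finset.sum_add_distrib, ← Finset.mul_sum, ht, mul_one, Finset.sum_div]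
  simp only [dot, cB, Fintype.sum_sum_type, Sum.elim_inl, Sum.elim_inr, zero_mul,
    Finset.sum_const_zero, zero_add, e]
  refine Finset.sum_le_sum fun i _ => ?_
  rw [← sub_nonneg]
  have h : √(N:ℝ) * t i ^ 2 + w (Sum.inr i) ^ 2 / √(N:ℝ) - 2 * t i * w (Sum.inr i)
      = (√(N:ℝ) * t i - w (Sum.inr i)) ^ 2 / √(N:ℝ) := by field_simp; ring
  rw [h]; positivity

/-- Exponential tail on a finite subset of the sphere, uniformly in its cardinality. -/
theorem finite_tail (hN : 0 < N) {T : Type*} [Fintype T] [Nonempty T] (t : T → Fin N → ℝ)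
    (ht : ∀ a, ∑ i, t a i ^ 2 = 1) {σ : ℝ} (hσ : σ * σ = 1) {ε L : ℝ} (hε : 0 < ε)
    (hε1 : ε < 1 / 2) :
    (disorder N).real {g | ∃ a, L * √(N:ℝ) < σ * qform g (t a)}
      ≤ exp (1 - ε * (L - 1) * N) * ((√(1 - 2 * ε))⁻¹) ^ N := by
  have hN' : (1:ℝ) ≤ N := by exact_mod_cast hN
  have hs : 0 < √(N:ℝ) := by positivity
  set m : ℝ := (Fintype.card T : ℝ) with hm
  have hm1 : 1 ≤ m := by rw [hm]; exact_mod_cast Fintype.card_pos
  set a : ℝ := ε * √(N:ℝ) with ha
  set r : ℝ := m⁻¹ with hr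
  set θ : ℝ := a * m with hθ
  have hr0 : 0 ≤ r := by positivity
  have hr1 : r ≤ 1 := inv_le_one_of_one_le₀ hm1
  have hθ0 : 0 ≤ θ := by positivity
  have hθr : θ * r = a := by rw [hθ, hr]; field_simp
  set ι := (Fin N × Fin N) ⊕ Fin N
  have hone : ∀ a b : T, ∑ i, t a i * t b i ≤ 1 := by
    intro a b
    have : ∑ i, t a i * t b i ≤ ∑ i, (t a i ^ 2 + t b i ^ 2) / 2 :=
      Finset.sum_le_sum fun i _ => by nlinarith [sq_nonneg (t a i - t b i)]
    rw [← Finset.sum_div, Finset.sum_add_distrib, ht, ht] at this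
    linarith
  have hcmp := compare (θ := θ) (r := r) hθ0 hr0 hr1 (fun a => cA σ (t a)) (fun a => cB (t a))
    (fun a b => dot_cA_cB σ _ _) (fun a => ?_) (fun a b => ?_)
  rotate_left
  · rw [dot_cA σ hσ, dot_cB]
    simp only [← sq, ht]
    have : 0 ≤ ∑ i, t a i ^ 2 * t a i ^ 2 := Finset.sum_nonneg fun i _ => by positivity
    simp only [sq] at this ⊢
    linarith
  · simp only [dot_cA σ hσ, dot_cB, ← sq, ht]
    have h1 : 0 ≤ ∑ i, (t a i ^ 2 - t b i ^ 2) ^ 2 := Finset.sum_nonneg fun i _ => sq_nonneg _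
    simp only [sub_sq, Finset.sum_add_distrib, Finset.sum_sub_distrib, mul_assoc,
      ← Finset.mul_sum] at h1
    have h2 := sq_nonneg (1 - ∑ i, t a i * t b i)
    nlinarith
  -- the upper bound
  set F : (ι → ℝ) → ℝ := fun w => smphi θ r (fun a => dot (cA σ (t a)) w) with hF
  have hcard : m ^ r ≤ exp 1 := by
    rw [rpow_def_of_pos (by linarith), hr]
    refine exp_le_exp.mpr ?_
    rw [← div_eq_mul_inv, div_le_one (by linarith)]
    linarith [log_le_sub_one_of_pos (show 0 < m by linarith)]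
  have hB : ∀ w : ι → ℝ, smphi θ r (fun a => dot (cB (t a)) w)
      ≤ exp (1 + ε * N) * exp (ε * ∑ i, w (Sum.inr i) ^ 2) := by
    intro w
    set M := √(N:ℝ) + (∑ i, w (Sum.inr i) ^ 2) / √(N:ℝ) with hM
    have h1 : smS θ (fun a => dot (cB (t a)) w) ≤ m * exp (θ * M) := by
      refine (Finset.sum_le_card_nsmul _ _ (exp (θ * M)) fun a _ => exp_le_exp.mpr
        (mul_le_mul_of_nonneg_left (dot_cB_apply _ (ht a) hN w) hθ0)).trans (le_of_eq ?_)
      simp [hm]
    refine (rpow_le_rpow (smS_pos _ _).le h1 hr0).trans ?_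
    rw [mul_rpow (by positivity) (exp_pos _).le, ← exp_mul]
    refine (mul_le_mul_of_nonneg_right hcard (exp_pos _).le).trans (le_of_eq ?_)
    rw [← exp_add, ← exp_add]
    congr 1
    rw [mul_right_comm, hθr, ha, hM]
    field_simp
    rw [sq_sqrt (by positivity)]
    ring
  -- marginals
  have hmp := measurePreserving_sumPiEquivProdPi (X := fun _ : ι => ℝ) fun _ => stdG
  set P := MeasurableEquiv.sumPiEquivProdPi (fun _ : ι => ℝ) with hP
  have hB' : Integrable (fun w : ι → ℝ => exp (ε * ∑ i, w (Sum.inr i) ^ 2)) (gaussVec ι) ∧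
      ∫ w, exp (ε * ∑ i, w (Sum.inr i) ^ 2) ∂gaussVec ι = ((√(1 - 2 * ε))⁻¹) ^ N := by
    obtain ⟨h1, h2⟩ := integral_exp_sq_sum (ι := Fin N) hε1
    have i2 : Integrable (fun p : (Fin N × Fin N → ℝ) × (Fin N → ℝ) =>
        exp (ε * ∑ i, p.2 i ^ 2)) ((gaussVec (Fin N × Fin N)).prod (gaussVec (Fin N))) :=
      h1.comp_snd _
    refine ⟨(hmp.integrable_comp i2.aestronglyMeasurable).mpr i2, ?_⟩
    refine (hmp.integral_comp' (fun p => exp (ε * ∑ i, p.2 i ^ 2))).trans ?_
    refine (integral_fun_snd (fun h : Fin N → ℝ => exp (ε * ∑ i, h i ^ 2))).trans ?_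
    simp only [Fintype.card_fin] at h2
    change (gaussVec (Fin N × Fin N)).real Set.univ • (∫ h, _ ∂gaussVec (Fin N)) = _
    rw [h2, probReal_univ, one_smul]
  have hFi : Integrable F (gaussVec ι) := by
    refine integrable_of_le (C := 2 * m) (L := θ * ∑ a, ∑ k, |cA σ (t a) k|)
      ((continuous_smphi θ r).comp (continuous_pi fun a => continuous_dot _)) fun w => ?_
    rw [abs_of_nonneg (smphi_pos θ r _).le]
    exact (smphi_le hθ0 hr0 hr1 _).trans
      (mul_le_mul_of_nonneg_left (exp_sum_dot_le hθ0 _ le_rfl w) (by positivity))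
  have hE : ∫ w, F w ∂gaussVec ι ≤ exp (1 + ε * N) * ((√(1 - 2 * ε))⁻¹) ^ N := by
    refine hcmp.trans ?_
    refine (integral_mono_of_nonneg (Filter.Eventually.of_forall fun w => (smphi_pos θ r _).le)
      (hB'.1.const_mul _) (Filter.Eventually.of_forall hB)).trans ?_
    rw [integral_const_mul, hB'.2]
  set S : Set (ι → ℝ) := {w | ∃ a, L * √(N:ℝ) < σ * qform (fun p => w (Sum.inl p)) (t a)} with hS
  have hSsub : S ⊆ {w | exp (ε * L * N) ≤ F w} := by
    rintro w ⟨b, hb⟩
    rw [← dot_cA_apply] at hb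
    have h1 : exp (θ * dot (cA σ (t b)) w) ≤ smS θ (fun a => dot (cA σ (t a)) w) :=
      Finset.single_le_sum (fun a _ => (exp_pos _).le) (mem_univ b)
      (f := fun a => exp (θ * dot (cA σ (t a)) w))
    refine le_trans ?_ (rpow_le_rpow (exp_pos _).le h1 hr0)
    rw [← exp_mul, mul_right_comm θ, hθr]
    refine exp_le_exp.mpr ?_
    calc ε * L * N = a * (L * √(N:ℝ)) := by
          rw [ha]; linear_combination (-(ε * L)) * mul_self_sqrt (show (0:ℝ) ≤ N by positivity)
      _ ≤ _ := mul_le_mul_of_nonneg_left hb.le (by positivity)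
  have hmk := mul_meas_ge_le_integral_of_nonneg
    (Filter.Eventually.of_forall fun w => (smphi_pos θ r _).le) hFi (exp (ε * L * N))
  have hSm : (disorder N).real {g | ∃ a, L * √(N:ℝ) < σ * qform g (t a)} = (gaussVec ι).real S := by
    rw [disorder_eq]
    have e : S = P ⁻¹' ({g | ∃ a, L * √(N:ℝ) < σ * qform g (t a)} ×ˢ (Set.univ : Set (Fin N → ℝ))) := by
      ext w; simp [hS, hP, MeasurableEquiv.sumPiEquivProdPi, Equiv.sumPiEquivProdPi]
    rw [measureReal_def, measureReal_def, e]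
    congr 1
    refine Eq.trans ?_ (hmp.measure_preimage_equiv _).symm
    change _ = ((gaussVec (Fin N × Fin N)).prod (gaussVec (Fin N))) _
    rw [Measure.prod_prod, measure_univ, mul_one]
  rw [hSm]
  refine (measureReal_mono hSsub (measure_ne_top _ _)).trans ?_
  have := hmk.trans hE
  rw [← le_div_iff₀' (exp_pos _), ← div_mul_eq_mul_div, ← exp_sub] at this
  refine this.trans (le_of_eq ?_)
  congr 2; ring

/-- Exponential tail on the whole sphere. -/
theorem sphere_tail (hN : 0 < N) {σ : ℝ} (hσ : σ * σ = 1) {ε L : ℝ} (hε : 0 < ε)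
    (hε1 : ε < 1 / 2) (hL : 0 ≤ L) :
    (disorder N).real {g | ∃ y : Fin N → ℝ, L * √(N:ℝ) * ∑ i, y i ^ 2 < σ * qform g y}
      ≤ exp (1 - ε * (L - 1) * N) * ((√(1 - 2 * ε))⁻¹) ^ N := by
  set u : Fin N → ℝ := Pi.single ⟨0, hN⟩ 1 with hu
  let nrm : (Fin N → ℝ) → Fin N → ℝ := fun y =>
    if ∑ i, y i ^ 2 = 0 then u else fun i => y i / √(∑ k, y k ^ 2)
  have hnrm : ∀ y, ∑ i, nrm y i ^ 2 = 1 := by
    intro y; simp only [nrm]; split_ifs with h
    · simp [hu, Pi.single_apply, ite_pow]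
    · simp only [div_pow, sq_sqrt (Finset.sum_nonneg fun k _ => sq_nonneg (y k)), ← Finset.sum_div]
      exact div_self h
  let d := TopologicalSpace.denseSeq (Fin N → ℝ)
  let E : ℕ → Set (Fin N × Fin N → ℝ) := fun m =>
    {g | ∃ a : Fin (m + 1), L * √(N:ℝ) < σ * qform g (nrm (d a))}
  have hEm : ∀ m, (disorder N).real (E m)
      ≤ exp (1 - ε * (L - 1) * N) * ((√(1 - 2 * ε))⁻¹) ^ N := fun m =>
    finite_tail hN (fun a : Fin (m + 1) => nrm (d a)) (fun a => hnrm _) hσ hε hε1
  have hmono : Monotone E := fun m m' hm g ⟨a, ha⟩ => ⟨⟨a, by omega⟩, ha⟩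
  have hsub : {g : Fin N × Fin N → ℝ | ∃ y : Fin N → ℝ,
      L * √(N:ℝ) * ∑ i, y i ^ 2 < σ * qform g y} ⊆ ⋃ m, E m := by
    rintro g ⟨y, hy⟩
    by_contra hno
    simp only [Set.mem_iUnion, E, Set.mem_ofPred_eq, not_exists, not_lt] at hno
    have hall : ∀ k, σ * qform g (d k) ≤ L * √(N:ℝ) * ∑ i, d k i ^ 2 := by
      intro k
      have h := hno k ⟨k, by omega⟩
      simp only [nrm] at h
      split_ifs at h with h0
      · rw [h0, mul_zero]
        have hz : d k = 0 := by
          funext i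
          have := (Finset.sum_eq_zero_iff_of_nonneg fun j _ => sq_nonneg (d k j)).mp h0 i (mem_univ i)
          simpa using this
        simp [hz, qform]
      · have hp : 0 < ∑ i, d k i ^ 2 :=
          lt_of_le_of_ne (Finset.sum_nonneg fun j _ => sq_nonneg _) (Ne.symm h0)
        have e : qform g (fun i => d k i / √(∑ l, d k l ^ 2)) = qform g (d k) / ∑ l, d k l ^ 2 := by
          simp only [qform, mul_div_assoc, Finset.sum_div]
          congr 1
          refine Finset.sum_congr rfl fun i _ => Finset.sum_congr rfl fun j _ => ?_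
          split_ifs
          · have hi : (√(∑ l, d k l ^ 2))⁻¹ * (√(∑ l, d k l ^ 2))⁻¹ = (∑ l, d k l ^ 2)⁻¹ := by
              rw [← mul_inv, mul_self_sqrt hp.le]
            simp only [div_eq_mul_inv]
            linear_combination (g (i, j) * d k i * d k j) * hi
          · simp
        rw [e, mul_div_assoc', div_le_iff₀ hp] at h
        exact h
    have hclosed : IsClosed {z : Fin N → ℝ | σ * qform g z ≤ L * √(N:ℝ) * ∑ i, z i ^ 2} := by
      refine isClosed_le ?_ (by fun_prop)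
      unfold qform
      refine continuous_const.mul (continuous_const.mul ?_)
      refine continuous_finsetSum _ fun i _ => continuous_finsetSum _ fun j _ => ?_
      split_ifs <;> fun_prop
    exact absurd hy (not_lt.mpr
      ((TopologicalSpace.denseRange_denseSeq (Fin N → ℝ)).induction_on y hclosed hall))
  refine (measureReal_mono hsub (measure_ne_top _ _)).trans ?_
  refine le_of_tendsto (f := fun m => (disorder N).real (E m)) (x := atTop) ?_
    (Filter.Eventually.of_forall hEm)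
  simp only [measureReal_def]
  exact (ENNReal.tendsto_toReal (measure_ne_top _ _)).comp (tendsto_measure_iUnion_atTop hmono)

end Vale.Agent.P150.HT
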