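import Vale.Agent.P150.HT.Mixing
import Vale.Agent.P150.HT.Norm

/-! Logarithmic mixing of the SK dynamics for every `β < 1/2`. -/

namespace Vale.Agent.P150.HT

open MeasureTheory ProbabilityTheory Real Finset Filter Matrix

variable {N : ℕ}

/-- tail of a sum of squared coordinates -/
lemma sq_tail (s : Finset (Fin N × Fin N)) (a : ℝ) :
    (disorder N).real {g | a < ∑ p ∈ s, g p ^ 2} ≤ exp (-a / 4) * √2 ^ s.card := by
  obtain ⟨h1, h2⟩ := integral_exp_sq (ε := 1 / 4) (by norm_num)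
  have h2' : ∫ x, exp (1 / 4 * x ^ 2) ∂stdG = √2 := by
    rw [h2, ← sqrt_inv]; norm_num
  have e : (fun g : Fin N × Fin N → ℝ => exp (1 / 4 * ∑ p ∈ s, g p ^ 2))
      = fun g => ∏ p, (if p ∈ s then exp (1 / 4 * g p ^ 2) else 1) := by
    funext g; rw [Finset.mul_sum, exp_sum, Finset.prod_ite_mem, Finset.univ_inter]
  have hi : Integrable (fun g : Fin N × Fin N → ℝ => exp (1 / 4 * ∑ p ∈ s, g p ^ 2)) (disorder N) := by
    rw [e, disorder_eq]
    refine Integrable.fintype_prod (f := fun p x => if p ∈ s then exp (1 / 4 * x ^ 2) else 1)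
      fun p => ?_
    split_ifs
    · exact h1
    · exact integrable_const _
  have hI : ∫ g, exp (1 / 4 * ∑ p ∈ s, g p ^ 2) ∂disorder N = √2 ^ s.card := by
    rw [e, disorder_eq, gaussVec, integral_fintype_prod_eq_prod
      (f := fun p x => if p ∈ s then exp (1 / 4 * x ^ 2) else 1)]
    have : ∀ p, ∫ x, (if p ∈ s then exp (1 / 4 * x ^ 2) else 1) ∂stdG
        = if p ∈ s then √2 else 1 := by
      intro p; split_ifs
      · exact h2'
      · simp
    simp only [this, Finset.prod_ite_mem, Finset.univ_inter, Finset.prod_const]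
  have hnn : 0 ≤ᵐ[disorder N] fun g : Fin N × Fin N → ℝ => exp (1 / 4 * ∑ p ∈ s, g p ^ 2) :=
    Filter.Eventually.of_forall fun g => (exp_pos _).le
  have hmk := mul_meas_ge_le_integral_of_nonneg hnn hi (exp (a / 4))
  rw [hI, ← le_div_iff₀' (exp_pos (a / 4))] at hmk
  refine (measureReal_mono (fun g hg => ?_) (measure_ne_top _ _)).trans
    (hmk.trans (le_of_eq ?_))
  · simp only [Set.mem_ofPred_eq] at hg ⊢
    exact exp_le_exp.mpr (by linarith)
  · rw [div_eq_mul_inv, ← exp_neg, neg_div, mul_comm]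

/-- the coordinate carrying the coupling of `i` and `j` -/
def pr (i j : Fin N) : Fin N × Fin N := if i < j then (i, j) else (j, i)

lemma pr_injOn (i : Fin N) : Set.InjOn (pr i) (univ.erase i : Finset (Fin N)) := by
  intro a ha b hb h
  unfold pr at h
  split_ifs at h with h1 h2 h2 <;> simp only [Prod.mk.injEq] at h
  · exact h.2
  · exact absurd h.1.symm (Finset.ne_of_mem_erase hb)
  · exact absurd h.1 (Finset.ne_of_mem_erase ha)
  · exact h.1

/-- The good event for the disorder. -/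
structure Good (g : Fin N × Fin N → ℝ) (η : ℝ) : Prop where
  up : ∀ y : Fin N → ℝ, qform g y ≤ (2 + η) * √(N:ℝ) * ∑ i, y i ^ 2
  down : ∀ y : Fin N → ℝ, -qform g y ≤ (2 + η) * √(N:ℝ) * ∑ i, y i ^ 2
  row : ∀ i, ∑ p ∈ (univ.erase i).image (pr i), g p ^ 2 ≤ 2 * N
  entry : ∀ p, g p ^ 2 ≤ η ^ 2 * N

lemma good_prob (hN : 0 < N) {η ε : ℝ} (hη : 0 ≤ η) (hε : 0 < ε) (hε1 : ε < 1 / 2) :
    (disorder N).real {g | ¬ Good g η} ≤
      2 * (exp (1 - ε * (1 + η) * N) * ((√(1 - 2 * ε))⁻¹) ^ N)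
      + N * (exp (-(2 * N) / 4) * √2 ^ N)
      + N * N * (exp (-(η ^ 2 * N) / 4) * √2) := by
  have hsub : {g : Fin N × Fin N → ℝ | ¬ Good g η} ⊆
      (({g | ∃ y : Fin N → ℝ, (2 + η) * √(N:ℝ) * ∑ i, y i ^ 2 < 1 * qform g y}
        ∪ {g | ∃ y : Fin N → ℝ, (2 + η) * √(N:ℝ) * ∑ i, y i ^ 2 < (-1) * qform g y})
      ∪ ⋃ i, {g | (2:ℝ) * N < ∑ p ∈ (univ.erase i).image (pr i), g p ^ 2})
      ∪ ⋃ p : Fin N × Fin N, {g | η ^ 2 * N < ∑ q ∈ ({p} : Finset _), g q ^ 2} := by
    intro g hg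
    by_contra hno
    simp only [Set.mem_union, Set.mem_iUnion, Set.mem_ofPred_eq, not_or, not_exists, not_lt,
      Finset.sum_singleton] at hno
    obtain ⟨⟨⟨h1, h2⟩, h3⟩, h4⟩ := hno
    exact hg ⟨fun y => by simpa using h1 y, fun y => by simpa using h2 y, h3, h4⟩
  have hs := sphere_tail hN (σ := 1) (by norm_num) hε hε1 (L := 2 + η) (by linarith)
  have hs' := sphere_tail hN (σ := -1) (by norm_num) hε hε1 (L := 2 + η) (by linarith)
  rw [show 2 + η - 1 = 1 + η by ring] at hs hs'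
  refine (measureReal_mono hsub (measure_ne_top _ _)).trans ?_
  refine (measureReal_union_le _ _).trans (add_le_add ?_ ?_)
  · refine (measureReal_union_le _ _).trans (add_le_add ?_ ?_)
    · refine (measureReal_union_le _ _).trans ?_
      linarith
    · refine (measureReal_iUnion_fintype_le _).trans ?_
      refine (Finset.sum_le_card_nsmul _ _ (exp (-(2 * N) / 4) * √2 ^ N) fun i _ => ?_).trans
        (le_of_eq (by simp))
      refine (sq_tail _ _).trans (mul_le_mul_of_nonneg_left ?_ (exp_pos _).le)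
      refine pow_le_pow_right₀ (one_le_sqrt.mpr one_le_two) ?_
      exact Finset.card_image_le.trans ((Finset.card_le_univ _).trans_eq (Fintype.card_fin N))
  · refine (measureReal_iUnion_fintype_le _).trans ?_
    refine (Finset.sum_le_card_nsmul _ _ (exp (-(η ^ 2 * N) / 4) * √2) fun p _ => ?_).trans
      (le_of_eq (by simp))
    simpa using sq_tail {p} (η ^ 2 * N)

lemma quad_skK (β : ℝ) (g : Fin N × Fin N → ℝ) (y : Fin N → ℝ) :
    ∑ i, ∑ j, skK β g i j * y i * y j = β / √(N:ℝ) * qform g y := by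
  have h := half_sum (fun i j => coupling g i j * (y i * y j)) (fun i j => by
    by_cases h : i = j
    · rw [h]
    · rw [coupling_comm g h]; ring)
  have e : ∑ i, ∑ j, (if i < j then g (i, j) * (y i * y j) else 0)
      = ∑ i, ∑ j, (if i < j then coupling g i j * (y i * y j) else 0) :=
    Finset.sum_congr rfl fun i _ => Finset.sum_congr rfl fun j _ => by
      split_ifs with hij
      · simp [coupling, hij]
      · rfl
  rw [qform, e, h, ← mul_assoc (2:ℝ), show (2:ℝ) * (1 / 2) = 1 by norm_num, one_mul, Finset.mul_sum]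
  refine Finset.sum_congr rfl fun i _ => ?_
  rw [← Finset.add_sum_erase univ _ (mem_univ i), skK_diag, zero_mul, zero_mul, zero_add,
    Finset.mul_sum]
  refine Finset.sum_congr rfl fun j hj => ?_
  simp only [skK, if_neg (Finset.ne_of_mem_erase hj).symm]; ring

/-- Bounds on the couplings on the good event. -/
theorem good_coupling [NeZero N] {β η : ℝ} (hβ0 : 0 ≤ β) (hη : 0 ≤ η) {g : Fin N × Fin N → ℝ}
    (hg : Good g η) :
    (∀ y : Fin N → ℝ, |∑ i, ∑ j, skK β g i j * y i * y j| ≤ β * (2 + η) * ∑ i, y i ^ 2) ∧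
      (∀ i, ∑ j, skK β g i j ^ 2 ≤ 2 * β ^ 2) ∧ ∀ i j, |skK β g i j| ≤ β * η := by
  have hN' : (0:ℝ) < N := by exact_mod_cast Nat.pos_of_ne_zero (NeZero.ne N)
  have hs : 0 < √(N:ℝ) := sqrt_pos.mpr hN'
  have hq : ∀ y : Fin N → ℝ,
      |∑ i, ∑ j, skK β g i j * y i * y j| ≤ β * (2 + η) * ∑ i, y i ^ 2 := by
    intro y
    rw [quad_skK, abs_mul, abs_of_nonneg (by positivity : 0 ≤ β / √(N:ℝ))]
    refine (mul_le_mul_of_nonneg_left (abs_le.mpr ⟨by linarith [hg.down y], hg.up y⟩)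
      (by positivity)).trans (le_of_eq ?_)
    field_simp
  have hsk : ∀ i j, i ≠ j → skK β g i j ^ 2 = β ^ 2 / N * g (pr i j) ^ 2 := by
    intro i j hij
    have : coupling g i j = g (pr i j) := by
      unfold coupling pr; split_ifs <;> rfl
    rw [skK, if_neg hij, this, mul_pow, div_pow, sq_sqrt hN'.le]
  have hρ : ∀ i, ∑ j, skK β g i j ^ 2 ≤ 2 * β ^ 2 := by
    intro i
    rw [← Finset.add_sum_erase univ _ (mem_univ i), skK_diag, sq, zero_mul, zero_add]
    rw [Finset.sum_congr rfl fun j hj => hsk i j (Finset.ne_of_mem_erase hj).symm, ← Finset.mul_sum,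
      ← Finset.sum_image (f := fun p => g p ^ 2) (pr_injOn i)]
    refine (mul_le_mul_of_nonneg_left (hg.row i) (by positivity)).trans (le_of_eq ?_)
    field_simp
  refine ⟨hq, hρ, fun i j => ?_⟩
  by_cases h : i = j
  · subst h; rw [skK_diag, abs_zero]; positivity
  · refine abs_le_of_sq_le_sq ?_ (by positivity)
    rw [hsk i j h]
    refine (mul_le_mul_of_nonneg_left (hg.entry _) (by positivity)).trans (le_of_eq ?_)
    field_simp

theorem good_mixing [NeZero N] (hN : 2 ≤ N) {β η γ : ℝ} (hβ0 : 0 ≤ β) (hβ : 2 * β ≤ 1)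
    (hη : 0 < η) (hη1 : η ≤ 1 / 100) (hγ : 0 < γ)
    (hγe : γ ≤ 1 - β * (2 + η) - gapC * (2 * β ^ 2) * η) {g : Fin N × Fin N → ℝ} (hg : Good g η) :
    (γ ≤ spectralGap β g ∧ spectralGap β g ≤ 1) ∧
      ∀ t : ℝ, 8 * exp (2 * (5 * (β * (2 + η)) / γ + 1)) * log N ≤ t →
        ∀ x, tvDist β g t x ≤ 1 / 4 := by
  have hN' : (0:ℝ) < N := by exact_mod_cast (by omega : 0 < N)
  have hs : 0 < √(N:ℝ) := sqrt_pos.mpr hN'
  obtain ⟨hq, hρ, hK'⟩ := good_coupling (β := β) hβ0 hη.le hg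
  have hρl : 2 * (2 * β ^ 2) ≤ β * (2 + η) := by nlinarith
  have hK : ∀ i j, |skK β g i j| ≤ η := fun i j =>
    (hK' i j).trans (mul_le_of_le_one_left hη.le (by linarith))
  have hB : ∀ f, γ * form (skK β g) 0 f f
      ≤ ∑ x, isW (skK β g) 0 x * negL (skK β g) 0 f x ^ 2 := fun f => by
    refine le_trans (mul_le_mul_of_nonneg_right hγe ?_)
      (bochner _ _ (skK_symm β g) (skK_diag β g) f (β * (2 + η)) (2 * β ^ 2) η
        (fun u => (le_abs_self _).trans (hq u)) hρ hρl hK hη1)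
    exact form_nonneg _ _ (skK_symm β g) (skK_diag β g) f
  refine ⟨gap_bounds β g hγ hB, fun t ht x => ?_⟩
  have hEI := ising_EI (skK β g) 0 (skK_symm β g) (skK_diag β g) hq hρ hρl hK hη1 hγ hγe
  refine mixing β g (exp_pos _) (by positivity) hq hEI (le_trans ?_ ht) x
  rw [mul_comm (8:ℝ), mul_assoc _ (8:ℝ)]
  refine mul_le_mul_of_nonneg_left ?_ (exp_pos _).le
  have hl : log 2 ≤ log N := log_le_log two_pos (by exact_mod_cast hN)
  have h1 : log (32 * (β * (2 + η) + 1) * N) ≤ log (2 ^ 7 * N) := by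
    refine log_le_log (by positivity) ?_
    refine mul_le_mul_of_nonneg_right ?_ hN'.le
    nlinarith
  rw [log_mul (x := (2:ℝ) ^ 7) (by norm_num) hN'.ne', log_pow] at h1
  push_cast at h1
  nlinarith

lemma geom_tendsto (k : ℕ) {q : ℝ} (hq0 : 0 ≤ q) (hq : q < 1) :
    Tendsto (fun N : ℕ => (N:ℝ) ^ k * q ^ N) atTop (nhds 0) :=
  tendsto_pow_const_mul_const_pow_of_abs_lt_one k (by rwa [abs_of_nonneg hq0])

/-- The good event has probability tending to one. -/
theorem good_whp {η : ℝ} (hη : 0 < η) :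
    Tendsto (fun N : ℕ => (disorder N).real {g | ¬ Good g η}) atTop (nhds 0) := by
  set ε := η / (4 * (1 + η)) with hεd
  have hε : 0 < ε := by positivity
  have hε1 : ε < 1 / 2 := by rw [hεd, div_lt_iff₀ (by positivity)]; linarith
  set q1 := exp (-(ε * (1 + η))) * (√(1 - 2 * ε))⁻¹ with hq1
  set q2 := exp (-(1 / 2)) * √2 with hq2
  set q3 := exp (-(η ^ 2 / 4)) with hq3
  have h12 : 0 < 1 - 2 * ε := by linarith
  have hq1l : q1 < 1 := by
    rw [hq1, ← sqrt_inv, ← exp_log (sqrt_pos.mpr (inv_pos.mpr h12)), ← exp_add,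
      log_sqrt (inv_pos.mpr h12).le, exp_lt_one_iff]
    have h1 := log_le_sub_one_of_pos (inv_pos.mpr h12)
    have h2 : ((1 - 2 * ε)⁻¹ - 1) / 2 < ε * (1 + η) := by
      have e : (1 - 2 * ε)⁻¹ - 1 = 2 * ε * (1 - 2 * ε)⁻¹ := by field_simp; ring
      rw [e, mul_assoc, mul_div_cancel_left₀ _ two_ne_zero]
      refine mul_lt_mul_of_pos_left ?_ hε
      rw [inv_lt_iff_one_lt_mul₀ h12, hεd]
      field_simp
      nlinarith
    linarith
  have hq2l : q2 < 1 := by
    rw [hq2, exp_neg, inv_mul_lt_one₀ (exp_pos _), sqrt_lt (by norm_num) (exp_pos _).le,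
      ← exp_nat_mul]
    have := add_one_lt_exp (show (1:ℝ) ≠ 0 by norm_num)
    norm_num
    linarith
  have hlim : Tendsto (fun N : ℕ => 2 * exp 1 * ((N:ℝ) ^ 0 * q1 ^ N) + (N:ℝ) ^ 1 * q2 ^ N
      + √2 * ((N:ℝ) ^ 2 * q3 ^ N)) atTop (nhds 0) := by
    have := (((geom_tendsto 0 (by positivity) hq1l).const_mul (2 * exp 1)).add
      (geom_tendsto 1 (by positivity) hq2l)).add
      ((geom_tendsto 2 (exp_pos _).le (exp_lt_one_iff.mpr (by
        have : 0 < η ^ 2 / 4 := by positivity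
        linarith) : q3 < 1)).const_mul (√2))
    simpa using this
  refine squeeze_zero' (Filter.Eventually.of_forall fun N => measureReal_nonneg) ?_ hlim
  filter_upwards [eventually_ge_atTop 1] with N hN
  refine (good_prob (by omega) hη.le hε hε1).trans (le_of_eq ?_)
  simp only [hq1, hq2, hq3, mul_pow, ← exp_nat_mul, sub_eq_add_neg, exp_add, pow_zero, pow_one, sq]
  ring_nf

/-- For every `β < 1/2` the dynamics mixes in time `O(log N)` and has gap of order one. -/
theorem fast_mixing {β : ℝ} (hβ0 : 0 < β) (hβ : β < 1 / 2) :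
    ∃ C : ℝ, 0 < C ∧ Tendsto (fun N : ℕ => (disorder N).real {g |
      ¬ ((1 / C ≤ spectralGap β g ∧ spectralGap β g ≤ 1) ∧
        ∀ t : ℝ, C * log N ≤ t → ∀ x, tvDist β g t x ≤ 1 / 4)}) atTop (nhds 0) := by
  set γ := (1 - 2 * β) / 2 with hγd
  have hγ : 0 < γ := by rw [hγd]; linarith
  set η := min (1 / 100) (γ / (1 + |gapC|)) with hηd
  have hη : 0 < η := lt_min (by norm_num) (div_pos hγ (by positivity))
  have hη1 : η ≤ 1 / 100 := min_le_left _ _
  have hηγ : η * (1 + |gapC|) ≤ γ := by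
    rw [← le_div_iff₀ (by positivity)]; exact min_le_right _ _
  have hγe : γ ≤ 1 - β * (2 + η) - gapC * (2 * β ^ 2) * η := by
    have h1 : gapC * (2 * β ^ 2) * η ≤ |gapC| * η := by
      refine mul_le_mul_of_nonneg_right ?_ hη.le
      refine (mul_le_mul_of_nonneg_right (le_abs_self _) (by positivity)).trans
        (mul_le_of_le_one_right (abs_nonneg _) (by nlinarith))
    nlinarith
  set A := 8 * exp (2 * (5 * (β * (2 + η)) / γ + 1)) with hA
  refine ⟨1 / γ + A, by positivity, ?_⟩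
  refine squeeze_zero' (Filter.Eventually.of_forall fun N => measureReal_nonneg) ?_ (good_whp hη)
  filter_upwards [eventually_ge_atTop 2] with N hN
  haveI : NeZero N := ⟨by omega⟩
  refine measureReal_mono (s₂ := {g | ¬ Good g η}) (fun g hg => fun hG : Good g η => (hg : ¬ _) ?_)
    (measure_ne_top _ _)
  obtain ⟨⟨h1, h2⟩, h3⟩ := good_mixing hN hβ0.le (by linarith) hη hη1 hγ hγe hG
  refine ⟨⟨le_trans ?_ h1, h2⟩, fun t ht => h3 t (le_trans ?_ ht)⟩
  · rw [div_le_iff₀ (by positivity)]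
    have : γ * (1 / γ) = 1 := by field_simp
    nlinarith [mul_pos hγ (show 0 < A by positivity)]
  · exact mul_le_mul_of_nonneg_right (le_add_of_nonneg_left (by positivity)) (log_natCast_nonneg N)

end Vale.Agent.P150.HT
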