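import Vale.Agent.P150.HT.Flow
import Vale.Agent.P150.Spectral
import Vale.Agent.P150.Concentration

/-! From the entropy inequality to mixing, for the SK dynamics. -/

namespace Vale.Agent.P150.HT

open Real Finset Matrix

variable {N : ℕ} (β : ℝ) (g : Fin N × Fin N → ℝ)

/-- the SK interaction matrix -/
noncomputable def skK (i j : Fin N) : ℝ := if i = j then 0 else β / √(N : ℝ) * coupling g i j

lemma skK_symm (i j : Fin N) : skK β g i j = skK β g j i := by
  by_cases h : i = j
  · subst h; rfl
  · simp only [skK, h, Ne.symm h, if_false, coupling_comm g h]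

lemma skK_diag (i : Fin N) : skK β g i i = 0 := by simp [skK]

lemma fld_skK (x : Conf N) (i : Fin N) : fld (skK β g) 0 x i = localField β g x i := by
  unfold fld localField
  rw [Pi.zero_apply, add_zero, Finset.mul_sum,
    ← Finset.add_sum_erase univ _ (mem_univ i)]
  simp only [skK, if_true, zero_mul, zero_add]
  refine Finset.sum_congr rfl fun j hj => ?_
  rw [if_neg (Finset.ne_of_mem_erase hj).symm]; ring

lemma isH_skK (x : Conf N) : isH (skK β g) 0 x = hamiltonian β g x := by
  rw [hamiltonian_eq]
  simp only [← fld_skK, isH, fld, Pi.zero_apply, zero_mul, add_zero, Finset.sum_const_zero,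
    Finset.mul_sum]
  exact Finset.sum_congr rfl fun i _ => Finset.sum_congr rfl fun j _ => by ring

lemma gibbs_skK (x : Conf N) :
    gibbs β g x = isW (skK β g) 0 x / ∑ y, isW (skK β g) 0 y := by
  simp [gibbs, isW, isH_skK]

lemma rate_eq (x : Conf N) (i : Fin N) :
    rate β g x i = (1 - spin (x i) * tn (skK β g) 0 x i) / 2 := by
  unfold rate updateProb tn
  rw [fld_skK, spin_not, tanh_eq_sinh_div_cosh]
  have := cosh_pos (localField β g x i)
  cases x i <;> simp only [spin, Bool.false_eq_true, if_false, if_true, neg_neg, one_mul, neg_mul] <;>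
    field_simp
  · linarith [cosh_add_sinh (localField β g x i)]
  · linarith [cosh_sub_sinh (localField β g x i)]

lemma negL_skK (f : Conf N → ℝ) (x : Conf N) :
    negL (skK β g) 0 f x = -(generator β g *ᵥ f) x := by
  rw [generator_apply, negL, ← Finset.sum_neg_distrib]
  refine Finset.sum_congr rfl fun i _ => ?_
  rw [rate_eq, dlt]
  have e : Function.update x i (x i) = x := Function.update_eq_self i x
  unfold flip1
  cases hx : x i <;> rw [hx] at e <;>
    simp only [spin, Bool.false_eq_true, if_false, if_true, Bool.not_true, Bool.not_false] <;>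
    rw [e] <;> ring

lemma dirichlet_skK (f : Conf N → ℝ) :
    dirichlet β g f = form (skK β g) 0 f f / ∑ y, isW (skK β g) 0 y := by
  rw [← inner_negL _ _ (skK_symm β g) (skK_diag β g), Finset.sum_div, dirichlet,
    ← Finset.sum_neg_distrib]
  refine Finset.sum_congr rfl fun x _ => ?_
  rw [negL_skK, gibbs_skK]; ring

lemma var_skK (f : Conf N → ℝ) :
    gibbsVar β g f = wvar (isW (skK β g) 0) f / (∑ y, isW (skK β g) 0 y) ^ 2 := by
  have hZ := (mass_pos (skK β g) 0).ne'
  simp only [gibbsVar, expect, gibbs_skK, wvar, div_mul_eq_mul_div, ← Finset.sum_div]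
  field_simp

lemma gap_bounds [NeZero N] {γ : ℝ} (hγ : 0 < γ)
    (hB : ∀ f, γ * form (skK β g) 0 f f
      ≤ ∑ x, isW (skK β g) 0 x * negL (skK β g) 0 f x ^ 2) :
    γ ≤ spectralGap β g ∧ spectralGap β g ≤ 1 := by
  set f0 : Conf N → ℝ := fun x => spin (x 0) with hf0
  have hm : expect β g f0 = 0 := expect_odd β g fun x => by simp [f0, neg, spin_not]
  have hv : gibbsVar β g f0 = 1 := by
    rw [gibbsVar, hm]; simp [f0, sq, spin_sq, expect_const]
  have hd : dirichlet β g f0 ≤ 1 := by
    rw [dirichlet_skK, div_le_one (mass_pos _ _)]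
    refine Finset.sum_le_sum fun x _ => mul_le_of_le_one_right (isW_pos _ _ x).le ?_
    rw [Finset.sum_eq_single 0]
    · have e : dlt f0 x 0 = 1 := by simp [dlt, f0, spin]
      rw [e]; simpa using vr_le_one _ _ x 0
    · intro k _ hk
      have e : dlt f0 x k = 0 := by simp [dlt, f0, Function.update_of_ne hk.symm]
      simp [e]
    · simp
  have hbd : BddBelow {r | ∃ f : Conf N → ℝ, 0 < gibbsVar β g f ∧ r = dirichlet β g f / gibbsVar β g f} := by
    refine ⟨0, ?_⟩
    rintro r ⟨h, hh, rfl⟩
    exact div_nonneg (dirichlet_nonneg β g h) hh.le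
  constructor
  · refine le_csInf ⟨_, f0, by rw [hv]; exact one_pos, rfl⟩ ?_
    rintro r ⟨f, hf, rfl⟩
    rw [le_div_iff₀ hf, dirichlet_skK, var_skK, ← mul_div_assoc,
      div_le_div_iff₀ (pow_pos (mass_pos _ _) 2) (mass_pos _ _)]
    have h := mul_le_mul_of_nonneg_right
      (poincare _ _ (skK_symm β g) (skK_diag β g) hγ hB f) (mass_pos (skK β g) 0).le
    linarith
  · refine (csInf_le hbd ⟨f0, by rw [hv]; exact one_pos, rfl⟩).trans ?_
    rw [hv, div_one]; exact hd

lemma hm_gibbs (x : Conf N) (i : Fin N) :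
    hm (gibbs β g x) (gibbs β g (flip1 x i)) = gibbs β g x * rate β g x i := by
  have h1 := detailed_balance β g x i
  have h2 : rate β g (flip1 x i) i = 1 - rate β g x i := by
    rw [rate_eq, rate_eq, flip1_self, spin_not, tn, tn, fld_skK, fld_skK, localField_flip]; ring
  rw [h2] at h1
  have := gibbs_pos β g x
  have := gibbs_pos β g (flip1 x i)
  unfold hm
  rw [div_eq_iff (by positivity)]
  linear_combination (gibbs β g x) * h1

lemma eForm_gibbs (f h : Conf N → ℝ) :
    ∑ x, gibbs β g x * f x * (generator β g *ᵥ h) x = -eForm (gibbs β g) f h := by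
  rw [symm_form, eForm]; simp only [hm_gibbs]; ring

lemma gen_offdiag_nonneg (x y : Conf N) :
    0 ≤ (generator β g + (N:ℝ) • (1 : Matrix (Conf N) (Conf N) ℝ)) x y := by
  simp only [generator, Matrix.add_apply, Matrix.of_apply, Matrix.smul_apply, Matrix.one_apply,
    smul_eq_mul, Finset.sum_sub_distrib, Finset.sum_const, Finset.card_univ, Fintype.card_fin,
    nsmul_eq_mul]
  have h : 0 ≤ ∑ i, ∑ s, if y = Function.update x i s then updateProb β g x i s else 0 :=
    Finset.sum_nonneg fun i _ => Finset.sum_nonneg fun s _ => by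
      split_ifs
      · unfold updateProb; positivity
      · exact le_rfl
  by_cases hxy : x = y
  · subst hxy; simp only [if_true]; linarith
  · simp only [hxy, Ne.symm hxy, if_false]; linarith

lemma kernel_nonneg {t : ℝ} (ht : 0 ≤ t) (x y : Conf N) : 0 ≤ kernel β g t x y := by
  letI : NormedRing (Matrix (Conf N) (Conf N) ℝ) := Matrix.linftyOpNormedRing
  letI : NormedAlgebra ℝ (Matrix (Conf N) (Conf N) ℝ) := Matrix.linftyOpNormedAlgebra
  set A := t • (generator β g + (N:ℝ) • (1 : Matrix (Conf N) (Conf N) ℝ)) with hA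
  have hAn : ∀ k : ℕ, ∀ a c, 0 ≤ (A ^ k) a c := by
    intro k
    induction k with
    | zero => intro a c; rw [pow_zero, Matrix.one_apply]; split_ifs <;> norm_num
    | succ k ih =>
      intro a c
      rw [pow_succ, Matrix.mul_apply]
      refine Finset.sum_nonneg fun z _ => mul_nonneg (ih a z) ?_
      rw [hA, Matrix.smul_apply]
      exact mul_nonneg ht (gen_offdiag_nonneg β g z c)
  have e : kernel β g t = exp (-(t * N)) • NormedSpace.exp A := by
    have hc : Commute (-(t * N) • (1 : Matrix (Conf N) (Conf N) ℝ)) A :=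
      (Commute.one_left _).smul_left _
    have e0 : t • generator β g = -(t * N) • (1 : Matrix (Conf N) (Conf N) ℝ) + A := by
      rw [hA, smul_add, smul_smul, add_comm, add_assoc, ← add_smul, add_neg_cancel, zero_smul, add_zero]
    rw [kernel, e0, Matrix.exp_add_of_commute _ _ hc]
    have e1 : NormedSpace.exp (-(t * N) • (1 : Matrix (Conf N) (Conf N) ℝ))
        = exp (-(t * N)) • (1 : Matrix (Conf N) (Conf N) ℝ) := by
      rw [← Algebra.algebraMap_eq_smul_one, ← Algebra.algebraMap_eq_smul_one, Real.exp_eq_exp_ℝ]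
      exact (NormedSpace.algebraMap_exp_comm _).symm
    rw [e1, smul_mul_assoc, one_mul]
  rw [e, Matrix.smul_apply]
  refine mul_nonneg (exp_pos _).le ?_
  let F : Matrix (Conf N) (Conf N) ℝ →ₗ[ℝ] ℝ :=
    { toFun := fun M => M x y, map_add' := fun _ _ => rfl, map_smul' := fun _ _ => rfl }
  have h := (NormedSpace.exp_series_hasSum_exp' (𝕂 := ℝ) A).map F F.continuous_of_finiteDimensional
  refine h.nonneg fun k => ?_
  exact mul_nonneg (by positivity) (hAn k x y)

lemma kernel_row (t : ℝ) (x : Conf N) : ∑ y, kernel β g t x y = 1 := by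
  have h : generator β g *ᵥ (fun _ => (1:ℝ)) = (-0 : ℝ) • (fun _ : Conf N => (1:ℝ)) := by
    funext y; simp [generator_apply]
  simpa using kernel_eigen β g h t x

lemma kernel_reversible (t : ℝ) (x y : Conf N) :
    gibbs β g x * kernel β g t x y = gibbs β g y * kernel β g t y x := by
  letI : NormedRing (Matrix (Conf N) (Conf N) ℝ) := Matrix.linftyOpNormedRing
  letI : NormedAlgebra ℝ (Matrix (Conf N) (Conf N) ℝ) := Matrix.linftyOpNormedAlgebra
  have hpow : ∀ k : ℕ, ∀ a c, gibbs β g a * (generator β g ^ k) a c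
      = gibbs β g c * (generator β g ^ k) c a := by
    intro k
    induction k with
    | zero => intro a c; rw [pow_zero]; by_cases h : a = c
              · subst h; rfl
              · simp [h, Ne.symm h]
    | succ k ih =>
      intro a c
      conv_lhs => rw [pow_succ, Matrix.mul_apply, Finset.mul_sum]
      conv_rhs => rw [pow_succ', Matrix.mul_apply, Finset.mul_sum]
      refine Finset.sum_congr rfl fun z _ => ?_
      rw [← mul_assoc, ih, ← mul_assoc, mul_right_comm, balance_gen]
  let F : Matrix (Conf N) (Conf N) ℝ →ₗ[ℝ] ℝ :=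
    { toFun := fun M => gibbs β g x * M x y - gibbs β g y * M y x
      map_add' := fun A B => by simp only [Matrix.add_apply]; ring
      map_smul' := fun c A => by simp only [Matrix.smul_apply, smul_eq_mul, RingHom.id_apply]; ring }
  have h := (NormedSpace.exp_series_hasSum_exp' (𝕂 := ℝ) (t • generator β g)).map F
    F.continuous_of_finiteDimensional
  have e : (F ∘ fun k : ℕ => ((k.factorial : ℝ)⁻¹ : ℝ) • (t • generator β g) ^ k) = fun _ => 0 := by
    funext k
    change F (((k.factorial : ℝ)⁻¹ : ℝ) • (t • generator β g) ^ k) = 0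
    rw [smul_pow, map_smul, map_smul]
    have : F (generator β g ^ k) = 0 := sub_eq_zero.mpr (hpow k x y)
    rw [this, smul_zero, smul_zero]
  rw [e] at h
  exact sub_eq_zero.mp (h.unique hasSum_zero)

/-- The entropy inequality implies mixing in time `A log(32 (λ+1) N)`. -/
theorem mixing [NeZero N] {A lam : ℝ} (hA : 0 < A) (hlam : 0 ≤ lam)
    (hq : ∀ y : Fin N → ℝ, |∑ i, ∑ j, skK β g i j * y i * y j| ≤ lam * ∑ i, y i ^ 2)
    (hEI : EI (isW (skK β g) 0) A) {t : ℝ} (ht : A * log (32 * (lam + 1) * N) ≤ t) (x0 : Conf N) :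
    tvDist β g t x0 ≤ 1 / 4 := by
  letI : NormedRing (Matrix (Conf N) (Conf N) ℝ) := Matrix.linftyOpNormedRing
  letI : NormedAlgebra ℝ (Matrix (Conf N) (Conf N) ℝ) := Matrix.linftyOpNormedAlgebra
  set μ := gibbs β g with hμ
  have hμ0 : ∀ x, 0 < μ x := gibbs_pos β g
  have hN : (1:ℝ) ≤ N := by exact_mod_cast NeZero.one_le
  have hEI' : EI μ A := by
    have hZ : 0 < ∑ y, isW (skK β g) 0 y := mass_pos _ _
    have e : μ = fun x => (∑ y, isW (skK β g) 0 y)⁻¹ * isW (skK β g) 0 x := by
      funext x; rw [hμ, gibbs_skK, div_eq_inv_mul]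
    intro f hf
    rw [e, ent_smul (inv_pos.mpr hZ), eForm_smul (inv_pos.mpr hZ), mul_left_comm]
    exact mul_le_mul_of_nonneg_left (hEI f hf) (inv_pos.mpr hZ).le
  set f0 : Conf N → ℝ := fun z => (if z = x0 then (μ x0)⁻¹ else 0) / 2 + 1 / 2 with hf0
  set F : ℝ → Conf N → ℝ := fun s y => ∑ z, kernel β g s y z * f0 z with hF
  have hF_eq : ∀ s y, F s y = (kernel β g s y x0 / μ x0 + 1) / 2 := by
    intro s y
    simp only [hF, hf0, mul_add, Finset.sum_add_distrib, ← mul_div_assoc, mul_ite, mul_zero,
      ← Finset.sum_div, Finset.sum_ite_eq', Finset.mem_univ, if_true, mul_one, kernel_row]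
    ring
  have hFpos : ∀ s, 0 ≤ s → ∀ y, 0 < F s y := by
    intro s hs y; rw [hF_eq]
    have := kernel_nonneg β g hs y x0
    have := hμ0 x0
    positivity
  have hmass : ∀ s, ∑ y, μ y * F s y = 1 := by
    intro s
    have e : ∑ y, μ y * (kernel β g s y x0 / μ x0) = 1 := by
      simp only [← mul_div_assoc, hμ, kernel_reversible β g s _ x0, ← Finset.sum_div, ← Finset.mul_sum,
        kernel_row, mul_one]
      exact div_self (hμ0 x0).ne'
    simp only [hF_eq, ← mul_div_assoc, mul_add, mul_one, ← Finset.sum_div, Finset.sum_add_distrib]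
    simp only [← mul_div_assoc, ← Finset.sum_div] at e
    rw [e, hμ, gibbs_sum]; norm_num
  have hder : ∀ s y, HasDerivAt (fun r => F r y) ((generator β g *ᵥ F s) y) s := by
    intro s y
    let L : Matrix (Conf N) (Conf N) ℝ →ₗ[ℝ] ℝ :=
      { toFun := fun M => ∑ z, M y z * f0 z
        map_add' := fun A B => by simp [add_mul, Finset.sum_add_distrib]
        map_smul' := fun c A => by simp [Finset.mul_sum, mul_assoc] }
    have hk : HasDerivAt (fun r : ℝ => kernel β g r) (generator β g * kernel β g s) s :=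
      hasDerivAt_exp_smul_const' (generator β g) s
    have h := (LinearMap.toContinuousLinearMap L).hasFDerivAt.comp_hasDerivAt s hk
    refine h.congr_deriv ?_
    change ∑ z, (generator β g * kernel β g s) y z * f0 z = _
    simp only [Matrix.mul_apply, Matrix.mulVec, dotProduct, hF, Finset.sum_mul, Finset.mul_sum]
    rw [Finset.sum_comm]
    exact Finset.sum_congr rfl fun w _ => Finset.sum_congr rfl fun z _ => by ring
  set E : ℝ → ℝ := fun s => ∑ y, μ y * (F s y * log (F s y)) with hE
  have hent : ∀ s, ent μ (F s) = E s := by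
    intro s
    simp only [ent, hmass, hE, mul_assoc]
    rw [hμ, gibbs_sum]; simp
  have hE' : ∀ s, 0 ≤ s → HasDerivAt E (-eForm μ (F s) (fun y => log (F s y))) s := by
    intro s hs
    have h1 : ∀ y, HasDerivAt (fun r => μ y * (F r y * log (F r y)))
        (μ y * (generator β g *ᵥ F s) y * log (F s y) + μ y * (generator β g *ᵥ F s) y) s := by
      intro y
      have hp := hFpos s hs y
      exact (((hder s y).mul ((hder s y).log hp.ne')).const_mul (μ y)).congr_deriv (by field_simp)
    refine (HasDerivAt.fun_sum fun y _ => h1 y).congr_deriv ?_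
    rw [Finset.sum_add_distrib]
    have e1 : ∑ y, μ y * (generator β g *ᵥ F s) y = 0 := by
      have := eForm_gibbs β g (fun _ => (1:ℝ)) (F s)
      simpa [eForm, hμ] using this
    have e2 : ∑ y, μ y * (generator β g *ᵥ F s) y * log (F s y)
        = -eForm μ (F s) (fun y => log (F s y)) := by
      rw [show eForm μ (F s) (fun y => log (F s y)) = eForm μ (fun y => log (F s y)) (F s) by
        simp only [eForm, mul_comm (F s (flip1 _ _) - F s _)], ← eForm_gibbs]
      exact Finset.sum_congr rfl fun y _ => by ring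
    rw [e1, e2, add_zero]
  set G : ℝ → ℝ := fun s => E s * exp (s / A) with hG
  have hG' : ∀ s, 0 ≤ s → HasDerivAt G
      ((-eForm μ (F s) (fun y => log (F s y)) + E s / A) * exp (s / A)) s := fun s hs =>
    ((hE' s hs).mul (((hasDerivAt_id s).div_const A).exp)).congr_deriv (by simp; ring)
  have hanti : AntitoneOn G (Set.Ici 0) := by
    refine antitoneOn_of_hasDerivWithinAt_nonpos (convex_Ici 0)
      (fun s hs => (hG' s hs).continuousAt.continuousWithinAt)
      (fun s hs => (hG' s (interior_subset hs)).hasDerivWithinAt) (fun s hs => ?_)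
    refine mul_nonpos_of_nonpos_of_nonneg ?_ (exp_pos _).le
    have h := hEI' (F s) (hFpos s (interior_subset hs))
    rw [hent] at h
    have : E s / A ≤ eForm μ (F s) (fun y => log (F s y)) := by rw [div_le_iff₀ hA]; linarith
    linarith
  have hM1 : 1 ≤ 32 * (lam + 1) * N := by nlinarith
  have ht0 : 0 ≤ t := le_trans (mul_nonneg hA.le (log_nonneg hM1)) ht
  have hdec : E t * exp (t / A) ≤ E 0 := by
    have := hanti Set.self_mem_Ici ht0 ht0
    simpa [hG] using this
  have hμlow : exp (-(lam * N)) / 2 ^ N ≤ μ x0 := by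
    have hb : ∀ x, |isH (skK β g) 0 x| ≤ lam * N / 2 := by
      intro x
      have h := hq (fun i => spin (x i))
      simp only [sq, spin_sq, Finset.sum_const, Finset.card_univ, Fintype.card_fin, nsmul_eq_mul,
        mul_one] at h
      simp only [isH, Pi.zero_apply, zero_mul, Finset.sum_const_zero, add_zero, abs_mul]
      norm_num
      linarith
    have hup : ∑ y, isW (skK β g) 0 y ≤ 2 ^ N * exp (lam * N / 2) := by
      refine (Finset.sum_le_sum fun y _ => exp_le_exp.mpr (abs_le.mp (hb y)).2).trans (le_of_eq ?_)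
      simp
    rw [hμ, gibbs_skK, div_le_div_iff₀ (by positivity) (mass_pos _ _)]
    calc exp (-(lam * N)) * ∑ y, isW (skK β g) 0 y
        ≤ exp (-(lam * N)) * (2 ^ N * exp (lam * N / 2)) :=
          mul_le_mul_of_nonneg_left hup (exp_pos _).le
      _ = exp (-(lam * N / 2)) * 2 ^ N := by
          rw [mul_left_comm, ← exp_add, mul_comm]; ring_nf
      _ ≤ _ := mul_le_mul_of_nonneg_right (exp_le_exp.mpr (abs_le.mp (hb x0)).1) (by positivity)
  have hE0 : E 0 ≤ (lam + 1) * N := by
    have hk : ∀ y, F 0 y ≤ (μ x0)⁻¹ := by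
      intro y
      have h1 : 1 ≤ (μ x0)⁻¹ := one_le_inv_iff₀.mpr ⟨hμ0 x0, by
        rw [← gibbs_sum β g]; exact Finset.single_le_sum (fun z _ => (hμ0 z).le) (mem_univ x0)⟩
      have h2 : kernel β g 0 y x0 ≤ 1 := by
        simp only [kernel, zero_smul, NormedSpace.exp_zero, Matrix.one_apply]; split_ifs <;> norm_num
      rw [hF_eq]
      have := mul_le_mul_of_nonneg_right h2 (inv_nonneg.mpr (hμ0 x0).le)
      rw [div_eq_mul_inv (kernel β g 0 y x0)]
      linarith
    calc E 0 ≤ ∑ y, μ y * F 0 y * log (μ x0)⁻¹ := Finset.sum_le_sum fun y _ => by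
          rw [mul_assoc]
          exact mul_le_mul_of_nonneg_left (mul_le_mul_of_nonneg_left
            (log_le_log (hFpos 0 le_rfl y) (hk y)) (hFpos 0 le_rfl y).le) (hμ0 y).le
      _ = -log (μ x0) := by rw [← Finset.sum_mul, hmass, one_mul, log_inv]
      _ ≤ -log (exp (-(lam * N)) / 2 ^ N) := neg_le_neg (log_le_log (by positivity) hμlow)
      _ = lam * N + N * log 2 := by
          rw [log_div (exp_pos _).ne' (by positivity), log_exp, log_pow]; ring
      _ ≤ _ := by
          have : log 2 ≤ 1 := by linarith [log_two_lt_d9]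
          nlinarith
  have hEt : E t ≤ 1 / 32 := by
    have h1 : 32 * (lam + 1) * N ≤ exp (t / A) := by
      rw [← exp_log (lt_of_lt_of_le one_pos hM1)]
      exact exp_le_exp.mpr (by rw [le_div_iff₀ hA]; linarith)
    by_contra hc
    push Not at hc
    have := mul_le_mul hc.le h1 (by positivity) (by linarith)
    have := mul_lt_mul_of_pos_right hc (exp_pos (t / A))
    nlinarith
  set R : Conf N → ℝ := fun y => if 1 ≤ F t y then 1 else -1 with hR
  have hdev := dev_sq_bounded hμ0 (hFpos t ht0) R (M := 1)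
    (fun y => by simp only [hR]; split_ifs <;> norm_num)
  rw [hent, hmass] at hdev
  have hd : dev μ (F t) R = tvDist β g t x0 := by
    rw [dev, hmass]
    simp only [hμ, gibbs_sum, div_one, one_mul, ← Finset.sum_sub_distrib, tvDist, Finset.mul_sum]
    refine Finset.sum_congr rfl fun y _ => ?_
    have e : gibbs β g y * (F t y - 1) = (kernel β g t x0 y - gibbs β g y) / 2 := by
      rw [hF_eq]
      have h := kernel_reversible β g t y x0
      have := gibbs_pos β g x0
      rw [hμ]; field_simp
      linear_combination h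
    have habs : (F t y - 1) * R y = |F t y - 1| := by
      simp only [hR]
      split_ifs with h
      · rw [abs_of_nonneg (by linarith), mul_one]
      · rw [abs_of_neg (by linarith)]; ring
    calc gibbs β g y * F t y * R y - gibbs β g y * R y = gibbs β g y * ((F t y - 1) * R y) := by ring
      _ = |gibbs β g y * (F t y - 1)| := by rw [habs, abs_mul, abs_of_pos (gibbs_pos β g y)]
      _ = _ := by rw [e, abs_div, abs_two]; ring
  rw [hd] at hdev
  have : 0 ≤ tvDist β g t x0 := mul_nonneg (by norm_num) (Finset.sum_nonneg fun y _ => abs_nonneg _)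
  nlinarith

end Vale.Agent.P150.HT
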