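import Vale.Agent.P150.HT.Main
import Vale.Agent.P150.HT.Lower

/-! The order of the mixing time for `β < 1/2`, and the lower bound at every temperature. -/

namespace Vale.Agent.P150.HT

open MeasureTheory Real Finset Filter

/-- For every `β > 0` the mixing time is at least of order `log N`. -/
theorem slow_log {β : ℝ} (hβ0 : 0 < β) :
    ∃ c : ℝ, 0 < c ∧ Tendsto (fun N : ℕ => (disorder N).real {g |
      ¬ ∀ t : ℝ, 0 ≤ t → t ≤ c * log N → ∃ x, 1 / 4 < tvDist β g t x}) atTop (nhds 0) := by
  set η := 1 / (100 * (β + 1)) with hηd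
  have hη : 0 < η := by positivity
  have hη1 : η ≤ 1 := by rw [hηd, div_le_one (by positivity)]; nlinarith
  have hβη : β * η ≤ 1 / 100 := by
    rw [hηd, ← mul_div_assoc, mul_one, div_le_iff₀ (by positivity)]; linarith
  set κ := max 1 (3 * β + 16 * β ^ 2) with hκd
  have hκ : β * (2 + η) + 8 * (2 * β ^ 2) ≤ κ := le_trans (by nlinarith) (le_max_right _ _)
  have hκ1 : 1 ≤ κ := le_max_left _ _
  refine ⟨1 / (2 * (2 * κ + 4)), by positivity, ?_⟩
  refine squeeze_zero' (Filter.Eventually.of_forall fun N => measureReal_nonneg) ?_ (good_whp hη)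
  filter_upwards [eventually_ge_atTop 81] with N hN
  haveI : NeZero N := ⟨by omega⟩
  refine measureReal_mono (s₂ := {g | ¬ Good g η}) (fun g hg => fun hG : Good g η => (hg : ¬ _) ?_)
    (measure_ne_top _ _)
  obtain ⟨hq, hρ, hK⟩ := good_coupling hβ0.le hη.le hG
  intro t ht htc
  refine log_lower β g hq hρ (fun i j => (hK i j).trans hβη) hκ hκ1 hN ht ?_
  rwa [one_div, inv_mul_eq_div] at htc

end Vale.Agent.P150.HT
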