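import Vale.Agent.P150.HT.Gap

/-! From the Bochner inequality to the Poincaré inequality and covariance bounds. -/

namespace Vale.Agent.P150.HT

open Real Finset

variable {N : ℕ}

/-- unnormalised variance, times the mass -/
noncomputable def wvar (W : Conf N → ℝ) (f : Conf N → ℝ) : ℝ :=
  (∑ x, W x) * ∑ x, W x * f x ^ 2 - (∑ x, W x * f x) ^ 2

lemma wvar_min {W : Conf N → ℝ} (hW : ∀ x, 0 ≤ W x) (f : Conf N → ℝ) (c : ℝ) :
    wvar W f ≤ (∑ x, W x) * ∑ x, W x * (f x - c) ^ 2 := by
  have e : ∑ x, W x * (f x - c) ^ 2
      = ∑ x, W x * f x ^ 2 - 2 * c * ∑ x, W x * f x + c ^ 2 * ∑ x, W x := by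
    rw [Finset.mul_sum, Finset.mul_sum, ← Finset.sum_sub_distrib, ← Finset.sum_add_distrib]
    exact Finset.sum_congr rfl fun x _ => by ring
  rw [e, wvar]
  nlinarith [sq_nonneg (∑ x, W x * f x - c * ∑ x, W x)]

variable (K : Fin N → Fin N → ℝ) (b : Fin N → ℝ) (hsym : ∀ i j, K i j = K j i)
  (hdiag : ∀ i, K i i = 0)

lemma isW_pos (x : Conf N) : 0 < isW K b x := exp_pos _

lemma mass_pos : 0 < ∑ x, isW K b x := Finset.sum_pos (fun x _ => isW_pos K b x) univ_nonempty

lemma dlt_zero_const {φ : Conf N → ℝ} (h : ∀ x i, dlt φ x i = 0) : ∀ x y, φ x = φ y := by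
  have hflip : ∀ x i, φ (flip1 x i) = φ x := by
    intro x i
    have h0 := h x i
    have e : Function.update x i (x i) = x := Function.update_eq_self i x
    simp only [dlt, div_eq_zero_iff, OfNat.ofNat_ne_zero, or_false, sub_eq_zero] at h0
    unfold flip1
    cases hx : x i <;> rw [hx] at e <;> simp only [Bool.not_true, Bool.not_false]
    · rw [h0, e]
    · rw [← h0, e]
  have : ∀ k x y, (univ.filter fun i => x i ≠ y i).card = k → φ x = φ y := by
    intro k
    induction k with
    | zero =>
      intro x y hk
      have e : x = y := by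
        funext i
        by_contra hi
        have : i ∈ univ.filter fun i => x i ≠ y i := by simp [hi]
        rw [Finset.card_eq_zero.mp hk] at this
        exact absurd this (Finset.notMem_empty i)
      rw [e]
    | succ k ih =>
      intro x y hk
      obtain ⟨i, hi⟩ := Finset.card_pos.mp (by omega : 0 < (univ.filter fun i => x i ≠ y i).card)
      have hi' : x i ≠ y i := (Finset.mem_filter.mp hi).2
      rw [← hflip x i]
      apply ih
      have e : (univ.filter fun j => flip1 x i j ≠ y j) = (univ.filter fun j => x j ≠ y j).erase i := by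
        ext j
        by_cases hj : j = i
        · subst hj; simp only [Finset.mem_filter, Finset.mem_erase, ne_eq, not_true, false_and,
            Finset.mem_univ, true_and, iff_false, not_not, flip1_self]
          revert hi'; cases x j <;> cases y j <;> simp
        · simp [flip1_ne x hj, hj]
      rw [e, Finset.card_erase_of_mem hi]; omega
  exact fun x y => this _ x y rfl

include hsym hdiag

lemma form_nonneg (f : Conf N → ℝ) : 0 ≤ form K b f f :=
  Finset.sum_nonneg fun x _ => mul_nonneg (isW_pos K b x).le (Finset.sum_nonneg fun i _ =>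
    mul_nonneg (vr_pos K b x i).le (mul_self_nonneg _))

lemma form_cs (f g : Conf N → ℝ) : form K b f g ^ 2 ≤ form K b f f * form K b g g := by
  simp only [form, Finset.mul_sum, ← Finset.sum_product']
  rw [← Finset.mul_sum]
  refine Finset.sum_sq_le_sum_mul_sum_of_sq_le_mul (R := ℝ) _ ?_ ?_ ?_
  · rintro ⟨x, i⟩ _
    exact mul_nonneg (isW_pos K b x).le (mul_nonneg (vr_pos K b x i).le (mul_self_nonneg _))
  · rintro ⟨x, i⟩ _
    exact mul_nonneg (isW_pos K b x).le (mul_nonneg (vr_pos K b x i).le (mul_self_nonneg _))
  · rintro ⟨x, i⟩ _; exact le_of_eq (by ring)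

lemma negL_const (c : ℝ) : negL K b (fun _ => c) = fun _ => 0 := by
  funext x; simp [negL, dlt]

/-- Poincaré inequality from the Bochner inequality. -/
theorem poincare {γ : ℝ} (hγ : 0 < γ)
    (hB : ∀ f, γ * form K b f f ≤ ∑ x, isW K b x * negL K b f x ^ 2) (f : Conf N → ℝ) :
    γ * wvar (isW K b) f ≤ (∑ x, isW K b x) * form K b f f := by
  set Z := ∑ x, isW K b x
  have hZ : 0 < Z := mass_pos K b
  let A : (Conf N → ℝ) →ₗ[ℝ] (Conf N → ℝ) :=
    { toFun := fun φ x => negL K b φ x + ∑ y, isW K b y * φ y
      map_add' := fun u v => by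
        funext x
        simp only [negL, dlt, Pi.add_apply, mul_add, Finset.sum_add_distrib]
        rw [add_add_add_comm]
        refine congrArg₂ (· + ·) ?_ rfl
        rw [← Finset.sum_add_distrib]
        exact Finset.sum_congr rfl fun i _ => by ring
      map_smul' := fun c u => by
        funext x
        simp only [negL, dlt, Pi.smul_apply, smul_eq_mul, RingHom.id_apply, mul_add, Finset.mul_sum]
        congr 1 <;> exact Finset.sum_congr rfl fun i _ => by ring }
  have hmean : ∀ φ, ∑ x, isW K b x * negL K b φ x = 0 := by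
    intro φ
    have := inner_negL K b hsym hdiag (fun _ => (1:ℝ)) φ
    simpa [form, dlt] using this
  have hinj : Function.Injective A := by
    rw [injective_iff_map_eq_zero]
    intro φ hφ
    have hx : ∀ x, negL K b φ x = -∑ y, isW K b y * φ y := fun x => by
      have := congrFun hφ x
      simp only [A, LinearMap.coe_mk, AddHom.coe_mk, Pi.zero_apply] at this
      linarith
    have h0 : ∑ y, isW K b y * φ y = 0 := by
      have := hmean φ
      simp only [hx, mul_neg, Finset.sum_neg_distrib, ← Finset.sum_mul, neg_eq_zero, mul_eq_zero] at this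
      exact this.resolve_left hZ.ne'
    have hform : form K b φ φ = 0 := by
      rw [← inner_negL K b hsym hdiag φ φ]; simp [hx, h0]
    have hd : ∀ x i, dlt φ x i = 0 := by
      intro x i
      have h1 := (Finset.sum_eq_zero_iff_of_nonneg fun y _ => mul_nonneg (isW_pos K b y).le
        (Finset.sum_nonneg fun k _ => mul_nonneg (vr_pos K b y k).le (mul_self_nonneg _))).mp hform x
        (mem_univ x)
      have h2 := (Finset.sum_eq_zero_iff_of_nonneg fun k _ =>
        mul_nonneg (vr_pos K b x k).le (mul_self_nonneg _)).mp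
        ((mul_eq_zero.mp h1).resolve_left (isW_pos K b x).ne') i (mem_univ i)
      exact mul_self_eq_zero.mp ((mul_eq_zero.mp h2).resolve_left (vr_pos K b x i).ne')
    have hc := dlt_zero_const hd
    funext x
    have : Z * φ x = 0 := by
      rw [← h0, Finset.sum_mul]; exact Finset.sum_congr rfl fun y _ => by rw [hc x y]
    exact (mul_eq_zero.mp this).resolve_left hZ.ne'
  obtain ⟨φ, hφ⟩ := (LinearMap.injective_iff_surjective.mp hinj) f
  set S := ∑ x, isW K b x * f x
  have hx : ∀ x, negL K b φ x + ∑ y, isW K b y * φ y = f x := fun x => congrFun hφ x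
  have hS : ∑ y, isW K b y * φ y = S / Z := by
    rw [eq_div_iff hZ.ne']
    simp only [S, ← hx, mul_add, Finset.sum_add_distrib, hmean, zero_add, ← Finset.sum_mul]
    ring
  set V := ∑ x, isW K b x * negL K b φ x ^ 2 with hV
  have e1 : wvar (isW K b) f = Z * V := by
    have e : ∑ x, isW K b x * f x ^ 2 = V + S * (S / Z) := by
      simp only [← hx, hS, add_sq, mul_add, Finset.sum_add_distrib, hV]
      rw [← Finset.sum_mul (s := univ) (f := fun x => isW K b x)]
      have : ∑ x, isW K b x * (2 * negL K b φ x * (S / Z)) = 0 := by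
        have h := hmean φ
        calc _ = (∑ x, isW K b x * negL K b φ x) * (2 * (S / Z)) := by
              rw [Finset.sum_mul]; exact Finset.sum_congr rfl fun x _ => by ring
          _ = 0 := by rw [h, zero_mul]
      rw [this, add_zero]
      congr 1
      field_simp
      ring
    rw [wvar, e]; field_simp; ring
  have e2 : V = form K b f φ := by
    rw [← inner_negL K b hsym hdiag f φ, hV]
    simp only [← hx, add_mul, mul_add, Finset.sum_add_distrib]
    have : ∑ x, isW K b x * ((∑ y, isW K b y * φ y) * negL K b φ x) = 0 := by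
      calc _ = (∑ y, isW K b y * φ y) * ∑ x, isW K b x * negL K b φ x := by
            rw [Finset.mul_sum univ (fun x => isW K b x * negL K b φ x)]
            exact Finset.sum_congr rfl fun x _ => by ring
        _ = 0 := by rw [hmean, mul_zero]
    rw [this, add_zero]
    exact Finset.sum_congr rfl fun x _ => by ring
  have hV0 : 0 ≤ V := Finset.sum_nonneg fun x _ => mul_nonneg (isW_pos K b x).le (sq_nonneg _)
  have hcs := form_cs K b hsym hdiag f φ
  rw [← e2] at hcs
  have hγV : γ * V ≤ form K b f f := by
    rcases hV0.eq_or_lt with h | h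
    · rw [← h, mul_zero]; exact form_nonneg K b hsym hdiag f
    · refine le_of_mul_le_mul_right ?_ h
      have h1 := mul_le_mul_of_nonneg_left (hB φ) (form_nonneg K b hsym hdiag f)
      have h2 := mul_le_mul_of_nonneg_left hcs hγ.le
      rw [← hV] at h1
      linarith
  rw [e1]
  calc γ * (Z * V) = Z * (γ * V) := by ring
    _ ≤ _ := mul_le_mul_of_nonneg_left hγV hZ.le

omit hsym hdiag in
/-- Covariance is bounded by the inverse gap. -/
theorem linear_var {γ : ℝ} (hγ : 0 < γ) (u : Fin N → ℝ)
    (hP : ∀ f, γ * wvar (isW K b) f ≤ (∑ x, isW K b x) * form K b f f) :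
    γ * wvar (isW K b) (fun x => ∑ i, u i * spin (x i))
      ≤ (∑ x, isW K b x) ^ 2 * ∑ i, u i ^ 2 := by
  refine (hP _).trans ?_
  rw [sq, mul_assoc]
  refine mul_le_mul_of_nonneg_left ?_ (mass_pos K b).le
  rw [form, Finset.sum_mul]
  refine Finset.sum_le_sum fun x _ => mul_le_mul_of_nonneg_left ?_ (isW_pos K b x).le
  refine Finset.sum_le_sum fun i _ => ?_
  have e : dlt (fun x => ∑ k, u k * spin (x k)) x i = u i := by
    simp only [dlt]
    rw [← Finset.sum_sub_distrib, Finset.sum_eq_single i]
    · simp [spin]
    · intro k _ hk; simp [Function.update_of_ne hk]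
    · simp
  rw [e, ← sq]
  exact mul_le_of_le_one_left (sq_nonneg _) (vr_le_one K b x i)

end Vale.Agent.P150.HT
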