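import Vale.Agent.P150.Gauss

/-! Gaussian integration by parts in one coordinate of a standard Gaussian vector. -/

namespace Vale.Agent.P150.HT

open MeasureTheory ProbabilityTheory Real Finset

lemma integrable_exp_abs (L : ℝ) : Integrable (fun x => exp (L * |x|)) stdG := by
  refine ((integrable_pow_exp 0 L).add (integrable_pow_exp 0 (-L))).mono'
    (by fun_prop) (Filter.Eventually.of_forall fun x => ?_)
  simp only [Pi.add_apply, pow_zero, one_mul, Real.norm_eq_abs, abs_exp]
  rcases abs_choice x with h | h <;> rw [h]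
  · exact le_add_of_nonneg_right (exp_pos _).le
  · rw [mul_neg, neg_mul]; exact le_add_of_nonneg_left (exp_pos _).le

lemma hasDerivAt_pdf (x : ℝ) :
    HasDerivAt (gaussianPDFReal 0 1) (-(x * gaussianPDFReal 0 1 x)) x := by
  have h := (((hasDerivAt_pow 2 x).neg.div_const 2).exp.const_mul (√(2 * π))⁻¹)
  have e : gaussianPDFReal 0 1 = fun y : ℝ => (√(2 * π))⁻¹ * exp (-y ^ 2 / 2) := by
    funext y; simp [gaussianPDFReal]
  rw [e]
  exact h.congr_deriv (by simp; ring)

/-- Stein's identity in one variable. -/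
lemma stein_one {f f' : ℝ → ℝ} (hd : ∀ x, HasDerivAt f (f' x) x) (hc : Continuous f')
    {C L : ℝ} (hb : ∀ x, |f x| ≤ C * exp (L * |x|)) (hb' : ∀ x, |f' x| ≤ C * exp (L * |x|)) :
    ∫ x, x * f x ∂stdG = ∫ x, f' x ∂stdG := by
  have hfc : Continuous f := continuous_iff_continuousAt.mpr fun x => (hd x).continuousAt
  have hC : 0 ≤ C := le_of_mul_le_mul_right (by simpa using (abs_nonneg _).trans (hb 0))
    (exp_pos (L * |(0:ℝ)|))
  have int : ∀ F : ℝ → ℝ, Continuous F → (∀ x, |F x| ≤ C * exp ((L + 1) * |x|)) →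
      Integrable (fun x => gaussianPDFReal 0 1 x * F x) volume := by
    intro F hF hFb
    have h : Integrable F stdG :=
      ((integrable_exp_abs (L + 1)).const_mul C).mono' hF.aestronglyMeasurable
        (Filter.Eventually.of_forall hFb)
    rw [stdG, gaussianReal_of_var_ne_zero _ one_ne_zero,
      integrable_withDensity_iff_integrable_smul' (measurable_gaussianPDF 0 1)
        (Filter.Eventually.of_forall fun _ => gaussianPDF_lt_top)] at h
    simpa [toReal_gaussianPDF] using h
  have up : ∀ x : ℝ, C * exp (L * |x|) ≤ C * exp ((L + 1) * |x|) := fun x => by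
    gcongr; linarith [abs_nonneg x]
  have i1 := int (fun x => x * f x) (by fun_prop) fun x => by
    rw [abs_mul, add_mul, one_mul, exp_add, ← mul_assoc, mul_comm |x|]
    exact mul_le_mul (hb x) (by linarith [add_one_le_exp |x|]) (abs_nonneg _) (by positivity)
  have i2 := int f' hc fun x => (hb' x).trans (up x)
  have i3 := int f hfc fun x => (hb x).trans (up x)
  have h := integral_mul_deriv_eq_deriv_mul_of_integrable (u := f)
    (v := fun x => -gaussianPDFReal 0 1 x) (u' := f') (v' := fun x => x * gaussianPDFReal 0 1 x)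
    (fun x _ => hd x) (fun x _ => (hasDerivAt_pdf x).neg.congr_deriv (neg_neg _))
    (i1.congr (Filter.Eventually.of_forall fun x => by simp [Pi.mul_apply]; ring))
    (i2.neg.congr (Filter.Eventually.of_forall fun x => by simp [Pi.mul_apply]; ring))
    (i3.neg.congr (Filter.Eventually.of_forall fun x => by simp [Pi.mul_apply]; ring))
  simp only [stdG, integral_gaussianReal_eq_integral_smul one_ne_zero, smul_eq_mul]
  simp only [mul_neg, integral_neg, neg_neg] at h
  exact ((integral_congr_ae (Filter.Eventually.of_forall fun x => by ring)).trans h).trans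
    (integral_congr_ae (Filter.Eventually.of_forall fun x => by ring))

variable {ι : Type*} [Fintype ι]

/-- The `ℓ¹` norm. -/
def l1 (g : ι → ℝ) : ℝ := ∑ k, |g k|

lemma l1_nonneg (g : ι → ℝ) : 0 ≤ l1 g := Finset.sum_nonneg fun _ _ => abs_nonneg _

lemma integrable_exp_l1 (L : ℝ) : Integrable (fun g => exp (L * l1 g)) (gaussVec ι) := by
  simp_rw [l1, Finset.mul_sum, exp_sum]
  exact Integrable.fintype_prod (f := fun _ x => exp (L * |x|)) fun _ => integrable_exp_abs L

lemma integrable_of_le {F : (ι → ℝ) → ℝ} (hc : Continuous F) {C L : ℝ}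
    (h : ∀ g, |F g| ≤ C * exp (L * l1 g)) : Integrable F (gaussVec ι) :=
  ((integrable_exp_l1 L).const_mul C).mono' hc.aestronglyMeasurable
    (Filter.Eventually.of_forall h)

/-- Stein's identity in coordinate `k`. -/
theorem stein [DecidableEq ι] (k : ι) {F F' : (ι → ℝ) → ℝ} (hF : Continuous F)
    (hF' : Continuous F')
    (hd : ∀ g, HasDerivAt (fun τ => F (Function.update g k τ)) (F' g) (g k))
    {C L : ℝ} (hb : ∀ g, |F g| ≤ C * exp (L * l1 g)) (hb' : ∀ g, |F' g| ≤ C * exp (L * l1 g)) :
    ∫ g, g k * F g ∂gaussVec ι = ∫ g, F' g ∂gaussVec ι := by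
  let ρ := Measure.pi fun _ : {j // ¬j = k} => stdG
  let e := MeasurableEquiv.piEquivPiSubtypeProd (fun _ : ι => ℝ) (fun j => j = k)
  let u := MeasurableEquiv.funUnique {j // j = k} ℝ
  let Φ : ℝ × ({j // ¬j = k} → ℝ) ≃ᵐ (ι → ℝ) :=
    (u.symm.prodCongr (MeasurableEquiv.refl _)).trans e.symm
  have hu : MeasurePreserving u.symm stdG
      (@Measure.pi {j // j = k} (fun _ => ℝ) (Subtype.fintype fun j => j = k) _ fun _ => stdG) := by
    have h := MeasurePreserving.symm u (measurePreserving_funUnique stdG {j // j = k})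
    rw [Subsingleton.elim (Unique.fintype : Fintype {j // j = k})
      (Subtype.fintype fun j => j = k)] at h
    exact h
  have hΦ : MeasurePreserving Φ (stdG.prod ρ) (gaussVec ι) :=
    (MeasurePreserving.symm e (measurePreserving_piEquivPiSubtypeProd (fun _ => stdG) _)).comp
      (hu.prod (MeasurePreserving.id ρ))
  have hΦv : ∀ p j, Φ p j = if h : j = k then p.1 else p.2 ⟨j, h⟩ := by
    intro p j
    simp [Φ, e, u, MeasurableEquiv.piEquivPiSubtypeProd, Equiv.piEquivPiSubtypeProd,
      MeasurableEquiv.prodCongr, MeasurableEquiv.funUnique, uniqueElim]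
  have hk : ∀ p, Φ p k = p.1 := fun p => by simp [hΦv]
  have hup : ∀ x y r, Function.update (Φ (x, r)) k y = Φ (y, r) := by
    intro x y r; funext j
    by_cases h : j = k
    · subst h; simp [hΦv]
    · simp [h, hΦv]
  have hl1 : ∀ x r, l1 (Φ (x, r)) = |x| + l1 r := by
    intro x r
    rw [l1, ← Finset.add_sum_erase univ _ (mem_univ k), hk, l1]
    congr 1
    rw [Finset.sum_subtype (univ.erase k) (p := fun j => ¬j = k) (by simp)]
    refine Finset.sum_congr rfl fun j _ => ?_
    simp [hΦv, j.2]
  have hC : 0 ≤ C := le_of_mul_le_mul_right (by simpa using (abs_nonneg _).trans (hb 0))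
    (exp_pos (L * l1 (0 : ι → ℝ)))
  have i1 : Integrable (fun g => g k * F g) (gaussVec ι) := by
    refine integrable_of_le (C := C) (L := L + 1) (by fun_prop) fun g => ?_
    rw [abs_mul, add_mul, one_mul, exp_add, ← mul_assoc, mul_comm |g k|]
    refine mul_le_mul (hb g) ?_ (abs_nonneg _) (by positivity)
    linarith [add_one_le_exp (l1 g),
      show |g k| ≤ l1 g from Finset.single_le_sum (fun j _ => abs_nonneg (g j)) (mem_univ k)]
  have i2 : Integrable F' (gaussVec ι) := integrable_of_le hF' hb'
  have j1 : Integrable (fun p => Φ p k * F (Φ p)) (stdG.prod ρ) :=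
    (hΦ.integrable_comp i1.aestronglyMeasurable).mpr i1
  have j2 : Integrable (fun p => F' (Φ p)) (stdG.prod ρ) :=
    (hΦ.integrable_comp i2.aestronglyMeasurable).mpr i2
  rw [← hΦ.integral_comp' (fun g => g k * F g), ← hΦ.integral_comp' F',
    integral_prod_symm _ j1, integral_prod_symm _ j2]
  refine integral_congr_ae (Filter.Eventually.of_forall fun r => ?_)
  have hcΦ : Continuous fun x : ℝ => Φ (x, r) := by
    refine continuous_pi fun j => ?_
    simp only [hΦv]
    split_ifs <;> fun_prop
  simp only [hk]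
  refine stein_one (C := C * exp (L * l1 r)) (L := L) (fun x => ?_) (hF'.comp hcΦ)
    (fun x => ?_) (fun x => ?_)
  · have h := hd (Φ (x, r))
    simp only [hup, hk] at h
    exact h
  · refine (hb (Φ (x, r))).trans (le_of_eq ?_)
    rw [hl1, mul_add, exp_add]; ring
  · refine (hb' (Φ (x, r))).trans (le_of_eq ?_)
    rw [hl1, mul_add, exp_add]; ring

end Vale.Agent.P150.HT
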